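import Crest.Agent.R075.Gauss

/-!
# Row 75, THM D: amplitude bound of a piece (helper90), statement (D-amp) of helper332.
-/

set_option autoImplicit false

namespace Crest.Agent.R075

open Finset


theorem amp_bound {r : ℕ} {ι : Type} [Fintype ι] [DecidableEq ι] (tv : ι → Fin (r+1) → ℤ)
    (ht1 : ∀ t, 1 ≤ tv t 0) (f : ι → ℝ) (E : ℝ)
    (hE : ∀ φ : Fin (r+1) → ℝ,
      |2 * ∑ t, f t * Real.cos (2 * Real.pi * ∑ i, (tv t i : ℝ) * φ i)| ≤ E)
    (q : ι → ℕ) (hq : ∀ t, Odd (q t)) (A : Fin (r+1) → ℤ)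
    (hA : ∀ t, (q t : ℤ) ∣ ∑ i, tv t i * A i)
    (hA2 : ∀ t t2, t ≠ t2 → IsCoprime (∑ i, tv t i * A i) (q t2 : ℤ)) (h : ℕ) (hh : 0 < h) :
    ∃ al : ι → ℕ → ℝ, ∀ (rho De del : ℝ), 0 < De → 0 ≤ rho →
      (∀ t, |Real.sqrt ((tv t 0 : ℝ) / ((h : ℝ) * (q t : ℝ) * De)) - rho * (|f t|)| ≤ del) →
      ∀ (u : Fin (r+1) → ℤ) (a k : ℤ) (G : ℝ),
      |2 * ∑ t, ∑ j ∈ range (∏ t2 ∈ univ.erase t, q t2),
        Real.sqrt (((tv t 0 : ℝ) / ((h : ℝ) * ((∏ t2, q t2 : ℕ) : ℝ))) / De) *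
        Real.cos (2 * Real.pi * (al t j
          + ((((∑ i, tv t i * u i : ℤ) : ℝ) + (h : ℝ) * (tv t 0 : ℝ) * (a : ℝ)
              + (h : ℝ) * (q t : ℝ) * (j : ℝ)) / ((h : ℝ) * ((∏ t2, q t2 : ℕ) : ℝ))) * (k : ℝ)
          + ((tv t 0 : ℝ) / ((h : ℝ) * ((∏ t2, q t2 : ℕ) : ℝ))) * G))|
        ≤ rho * E + 2 * (Fintype.card ι : ℝ) * del := by
  classical
  -- notation
  set D : ι → ℕ := fun t => ∏ t2 ∈ univ.erase t, q t2 with hDdef
  set Q : ℕ := ∏ t2, q t2 with hQdef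
  have hQD : ∀ t, Q = q t * D t := by
    intro t
    simp only [hQdef, hDdef]
    rw [Finset.mul_prod_erase univ q (Finset.mem_univ t)]
  have hDodd : ∀ t, Odd (D t) := by
    intro t
    simp only [hDdef]
    apply Finset.prod_induction _ Odd (fun a b ha hb => ha.mul hb) odd_one
    intro x _; exact hq x
  have hqpos : ∀ t, 0 < q t := fun t => (hq t).pos
  have hDpos : ∀ t, 0 < D t := fun t => (hDodd t).pos
  have hQpos : 0 < Q := Finset.prod_pos (fun t _ => hqpos t)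
  have hprod : ∀ t, ∃ c : ℤ, ∑ i, tv t i * A i = q t * c ∧ IsCoprime c (D t : ℤ) := by
    intro t
    obtain ⟨c, hc⟩ := hA t
    refine ⟨c, hc, ?_⟩
    simp only [hDdef]
    push_cast
    apply IsCoprime.prod_right
    intro t' ht'
    have h1 := hA2 t t' (Finset.ne_of_mem_erase ht').symm
    rw [hc] at h1
    exact h1.of_mul_left_right
  choose c hc hc' using hprod
  have hal : ∀ t, ∃ al : ℕ → ℝ, ∀ (k : ℤ) (y : ℝ),
      ∑ j ∈ range (D t), Real.cos (2 * Real.pi * (al j + j * k / D t + y))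
        = Real.sqrt (D t) * Real.cos (2 * Real.pi * (c t * k ^ 2 / D t + y)) := by
    intro t
    exact gauss_cos (D t) (hDodd t) (c t) (hc' t)
  choose al hal using hal
  refine ⟨fun t j => al t j + (if 0 ≤ f t then 0 else 1 / 2), ?_⟩
  intro rho De del hDe hrho hdel u a k G
  have hhR : (0 : ℝ) < h := by exact_mod_cast hh
  have hQR : (0 : ℝ) < Q := by exact_mod_cast hQpos
  -- the point
  set φ : Fin (r+1) → ℝ := fun i => ((u i : ℝ) / (h * Q)) * k + (A i : ℝ) * k ^ 2 / Q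
    + (if i = 0 then ((a : ℝ) / Q * k + G / (h * Q)) else 0) with hφ
  set sg : ι → ℝ := fun t => if 0 ≤ f t then 1 else -1 with hsg
  have hsgf : ∀ t, |f t| * sg t = f t := by
    intro t
    simp only [hsg]
    split_ifs with hs
    · rw [abs_of_nonneg hs, mul_one]
    · rw [abs_of_neg (not_le.mp hs)]; ring
  have hsg1 : ∀ t, |sg t| = 1 := by
    intro t; simp only [hsg]; split_ifs <;> simp
  have key : ∀ t, ∑ j ∈ range (D t),
        Real.sqrt (((tv t 0 : ℝ) / ((h : ℝ) * (Q : ℝ))) / De) *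
        Real.cos (2 * Real.pi * ((al t j + (if 0 ≤ f t then 0 else 1 / 2))
          + ((((∑ i, tv t i * u i : ℤ) : ℝ) + (h : ℝ) * (tv t 0 : ℝ) * (a : ℝ)
              + (h : ℝ) * (q t : ℝ) * (j : ℝ)) / ((h : ℝ) * (Q : ℝ))) * (k : ℝ)
          + ((tv t 0 : ℝ) / ((h : ℝ) * (Q : ℝ))) * G))
      = Real.sqrt ((tv t 0 : ℝ) / ((h : ℝ) * (q t : ℝ) * De)) *
        (sg t * Real.cos (2 * Real.pi * ∑ i, (tv t i : ℝ) * φ i)) := by
    intro t
    have hDR : (0 : ℝ) < D t := by exact_mod_cast hDpos t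
    have hqR : (0 : ℝ) < q t := by exact_mod_cast hqpos t
    have hQD' : (Q : ℝ) = q t * D t := by rw [hQD t]; push_cast; ring
    have ht0 : (0 : ℝ) ≤ tv t 0 := by
      have := ht1 t
      have : (0 : ℤ) ≤ tv t 0 := by omega
      exact_mod_cast this
    set y : ℝ := ((((∑ i, tv t i * u i : ℤ) : ℝ) + (h : ℝ) * (tv t 0 : ℝ) * (a : ℝ))
      / ((h : ℝ) * (Q : ℝ))) * (k : ℝ) + ((tv t 0 : ℝ) / ((h : ℝ) * (Q : ℝ))) * G with hy
    have h1 : ∀ j ∈ range (D t), Real.cos (2 * Real.pi * ((al t j + (if 0 ≤ f t then 0 else 1 / 2))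
          + ((((∑ i, tv t i * u i : ℤ) : ℝ) + (h : ℝ) * (tv t 0 : ℝ) * (a : ℝ)
              + (h : ℝ) * (q t : ℝ) * (j : ℝ)) / ((h : ℝ) * (Q : ℝ))) * (k : ℝ)
          + ((tv t 0 : ℝ) / ((h : ℝ) * (Q : ℝ))) * G))
        = sg t * Real.cos (2 * Real.pi * (al t j + j * k / D t + y)) := by
      intro j _
      have h2 : (al t j + (if 0 ≤ f t then (0:ℝ) else 1 / 2))
          + ((((∑ i, tv t i * u i : ℤ) : ℝ) + (h : ℝ) * (tv t 0 : ℝ) * (a : ℝ)
              + (h : ℝ) * (q t : ℝ) * (j : ℝ)) / ((h : ℝ) * (Q : ℝ))) * (k : ℝ)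
          + ((tv t 0 : ℝ) / ((h : ℝ) * (Q : ℝ))) * G
          = (al t j + j * k / D t + y) + (if 0 ≤ f t then (0:ℝ) else 1 / 2) := by
        rw [hy]
        have h3 : (h : ℝ) * (q t : ℝ) * (j : ℝ) / ((h : ℝ) * (Q : ℝ)) * k = j * k / D t := by
          rw [hQD']; field_simp
        rw [add_div _ ((h : ℝ) * (q t : ℝ) * (j : ℝ)) _, add_mul, h3]
        ring
      rw [h2]
      simp only [hsg]
      split_ifs with hs
      · rw [add_zero, one_mul]
      · rw [show 2 * Real.pi * (al t j + j * k / D t + y + 1 / 2)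
          = 2 * Real.pi * (al t j + j * k / D t + y) + Real.pi by ring, Real.cos_add_pi]
        ring
    rw [← Finset.mul_sum, Finset.sum_congr rfl h1, ← Finset.mul_sum, hal t]
    have h4 : (c t : ℝ) * k ^ 2 / D t + y = ∑ i, (tv t i : ℝ) * φ i := by
      have h5 : ((∑ i, tv t i * A i : ℤ) : ℝ) = q t * c t := by rw [hc t]; push_cast; ring
      have h6 : ∑ i, (tv t i : ℝ) * φ i
          = ((∑ i, tv t i * u i : ℤ) : ℝ) / (h * Q) * k + ((∑ i, tv t i * A i : ℤ) : ℝ) * k ^ 2 / Q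
            + tv t 0 * ((a : ℝ) / Q * k + G / (h * Q)) := by
        have h7 : ∑ i, (tv t i : ℝ) * (if i = 0 then ((a : ℝ) / Q * k + G / (h * Q)) else 0)
            = tv t 0 * ((a : ℝ) / Q * k + G / (h * Q)) := by
          rw [Finset.sum_eq_single (0 : Fin (r+1))]
          · simp
          · intro b _ hb; simp [hb]
          · intro hn; exact absurd (Finset.mem_univ _) hn
        rw [← h7]
        push_cast
        rw [Finset.sum_div, Finset.sum_mul, Finset.sum_mul, Finset.sum_div,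
          ← Finset.sum_add_distrib, ← Finset.sum_add_distrib]
        apply Finset.sum_congr rfl
        intro i _
        simp only [hφ]
        ring
      rw [h6, h5, hy, hQD']
      field_simp
      ring
    rw [h4]
    have h8 : Real.sqrt (((tv t 0 : ℝ) / ((h : ℝ) * (Q : ℝ))) / De) * Real.sqrt (D t)
        = Real.sqrt ((tv t 0 : ℝ) / ((h : ℝ) * (q t : ℝ) * De)) := by
      rw [← Real.sqrt_mul (by positivity)]
      congr 1
      rw [hQD']
      field_simp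
    rw [← h8]
    ring
  have hgoal : 2 * ∑ t, ∑ j ∈ range (D t),
        Real.sqrt (((tv t 0 : ℝ) / ((h : ℝ) * (Q : ℝ))) / De) *
        Real.cos (2 * Real.pi * ((al t j + (if 0 ≤ f t then 0 else 1 / 2))
          + ((((∑ i, tv t i * u i : ℤ) : ℝ) + (h : ℝ) * (tv t 0 : ℝ) * (a : ℝ)
              + (h : ℝ) * (q t : ℝ) * (j : ℝ)) / ((h : ℝ) * (Q : ℝ))) * (k : ℝ)
          + ((tv t 0 : ℝ) / ((h : ℝ) * (Q : ℝ))) * G))
      = rho * (2 * ∑ t, f t * Real.cos (2 * Real.pi * ∑ i, (tv t i : ℝ) * φ i))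
        + 2 * ∑ t, (Real.sqrt ((tv t 0 : ℝ) / ((h : ℝ) * (q t : ℝ) * De)) - rho * (|f t|)) *
          (sg t * Real.cos (2 * Real.pi * ∑ i, (tv t i : ℝ) * φ i)) := by
    rw [Finset.sum_congr rfl (fun t _ => key t)]
    rw [Finset.mul_sum, Finset.mul_sum, Finset.mul_sum, Finset.mul_sum, ← Finset.sum_add_distrib]
    apply Finset.sum_congr rfl
    intro t _
    have := hsgf t
    calc 2 * (Real.sqrt ((tv t 0 : ℝ) / ((h : ℝ) * (q t : ℝ) * De)) *
        (sg t * Real.cos (2 * Real.pi * ∑ i, (tv t i : ℝ) * φ i)))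
        = rho * (2 * ((|f t| * sg t) * Real.cos (2 * Real.pi * ∑ i, (tv t i : ℝ) * φ i))) +
          2 * ((Real.sqrt ((tv t 0 : ℝ) / ((h : ℝ) * (q t : ℝ) * De)) - rho * (|f t|)) *
          (sg t * Real.cos (2 * Real.pi * ∑ i, (tv t i : ℝ) * φ i))) := by ring
      _ = _ := by rw [this]
  show |2 * ∑ t, ∑ j ∈ range (D t),
        Real.sqrt (((tv t 0 : ℝ) / ((h : ℝ) * (Q : ℝ))) / De) *
        Real.cos (2 * Real.pi * ((al t j + (if 0 ≤ f t then 0 else 1 / 2))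
          + ((((∑ i, tv t i * u i : ℤ) : ℝ) + (h : ℝ) * (tv t 0 : ℝ) * (a : ℝ)
              + (h : ℝ) * (q t : ℝ) * (j : ℝ)) / ((h : ℝ) * (Q : ℝ))) * (k : ℝ)
          + ((tv t 0 : ℝ) / ((h : ℝ) * (Q : ℝ))) * G))| ≤ _
  rw [hgoal]
  refine (abs_add_le _ _).trans ?_
  apply add_le_add
  · rw [abs_mul, abs_of_nonneg hrho]
    exact mul_le_mul_of_nonneg_left (hE φ) hrho
  · rw [abs_mul, abs_two, mul_assoc]
    apply mul_le_mul_of_nonneg_left _ (by norm_num)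
    refine (Finset.abs_sum_le_sum_abs _ _).trans ?_
    have h9 : ∀ t ∈ (univ : Finset ι),
        |(Real.sqrt ((tv t 0 : ℝ) / ((h : ℝ) * (q t : ℝ) * De)) - rho * (|f t|)) *
          (sg t * Real.cos (2 * Real.pi * ∑ i, (tv t i : ℝ) * φ i))| ≤ del := by
      intro t _
      rw [abs_mul, abs_mul, hsg1, one_mul]
      calc _ ≤ |Real.sqrt ((tv t 0 : ℝ) / ((h : ℝ) * (q t : ℝ) * De)) - rho * (|f t|)| * 1 :=
            mul_le_mul_of_nonneg_left (Real.abs_cos_le_one _) (abs_nonneg _)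
        _ ≤ del := by rw [mul_one]; exact hdel t
    calc _ ≤ ∑ _t : ι, del := Finset.sum_le_sum h9
      _ = (Fintype.card ι : ℝ) * del := by
        rw [Finset.sum_const, nsmul_eq_mul, Finset.card_univ]

end Crest.Agent.R075
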