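import Crest.Agent.R075.AnaDef
import Crest.Agent.R075.TilingDef
import Crest.Agent.R075.Fou
import Crest.Agent.R075.Osc

-- ▼ part R075/AnaBand
section

/-!
Row 75 (helper20), THM A: the band lemma.
-/

set_option autoImplicit false

namespace Crest.Agent.R075.Ana

open MeasureTheory Set Real

noncomputable section

/-- the curve of one band: `m` = margin, `lam` = length, window `[T, T+D]`, mid values `u`, `v` -/
def bt {e : ℝ} (Pf : Profile e) (lam m T D u v : ℝ) : ℝ → ℝ :=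
  glue (m / 2) (seg 0 (m / 2) (1 / 2) u)
    (glue m (seg (m / 2) m u T)
      (glue (lam - m) (fun x => T + D * Pf.gam ((x - m) / (lam - 2 * m)))
        (glue (lam - m / 2) (seg (lam - m) (lam - m / 2) (T + D) v)
          (seg (lam - m / 2) lam v (1 / 2)))))

section

variable {e : ℝ} (Pf : Profile e) {lam m T D u v : ℝ}

/-- the middle function -/
def mf (lam m T D : ℝ) (x : ℝ) : ℝ := T + D * Pf.gam ((x - m) / (lam - 2 * m))

theorem mf_left : mf Pf lam m T D m = T := by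
  unfold mf
  rw [sub_self, zero_div, Pf.gam0, mul_zero, add_zero]

theorem mf_right (h : 0 < lam - 2 * m) : mf Pf lam m T D (lam - m) = T + D := by
  unfold mf
  have : (lam - m - m) / (lam - 2 * m) = 1 := by
    rw [div_eq_one_iff_eq h.ne']; ring
  rw [this, Pf.gam1, mul_one]

theorem mf_lip (h : 0 < lam - 2 * m) {K : NNReal} (hD : 0 ≤ D)
    (hK : D * Pf.Cg / (lam - 2 * m) ≤ K) : LipschitzWith K (mf Pf lam m T D) := by
  refine LipschitzWith.of_dist_le_mul fun x y => ?_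
  have h1 := Pf.lip.dist_le_mul ((x - m) / (lam - 2 * m)) ((y - m) / (lam - 2 * m))
  rw [Real.dist_eq, Real.dist_eq] at h1 ⊢
  have e1 : mf Pf lam m T D x - mf Pf lam m T D y = D * (Pf.gam ((x - m) / (lam - 2 * m)) -
      Pf.gam ((y - m) / (lam - 2 * m))) := by unfold mf; ring
  rw [e1, abs_mul, abs_of_nonneg hD]
  have e2 : (x - m) / (lam - 2 * m) - (y - m) / (lam - 2 * m) = (x - y) / (lam - 2 * m) := by ring
  rw [e2, abs_div, abs_of_pos h] at h1
  calc D * |Pf.gam ((x - m) / (lam - 2 * m)) - Pf.gam ((y - m) / (lam - 2 * m))| ≤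
      D * (Pf.Cg * (|x - y| / (lam - 2 * m))) := mul_le_mul_of_nonneg_left h1 hD
    _ = (D * Pf.Cg / (lam - 2 * m)) * |x - y| := by ring
    _ ≤ K * |x - y| := mul_le_mul_of_nonneg_right hK (abs_nonneg _)

theorem bt_eq : bt Pf lam m T D u v = glue (m / 2) (seg 0 (m / 2) (1 / 2) u)
    (glue m (seg (m / 2) m u T)
      (glue (lam - m) (mf Pf lam m T D)
        (glue (lam - m / 2) (seg (lam - m) (lam - m / 2) (T + D) v)
          (seg (lam - m / 2) lam v (1 / 2))))) := rfl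

variable (hm : 0 < m) (hl : 0 < lam - 2 * m)
include hm hl

theorem match5 : seg (lam - m) (lam - m / 2) (T + D) v (lam - m / 2) =
    seg (lam - m / 2) lam v (1 / 2) (lam - m / 2) := by
  rw [seg_left, seg_right _ _ (by linarith)]

theorem match4 : mf Pf lam m T D (lam - m) = glue (lam - m / 2)
    (seg (lam - m) (lam - m / 2) (T + D) v) (seg (lam - m / 2) lam v (1 / 2)) (lam - m) := by
  rw [mf_right Pf hl, glue_le (by linarith), seg_left]

theorem match3 : seg (m / 2) m u T m = glue (lam - m) (mf Pf lam m T D)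
    (glue (lam - m / 2) (seg (lam - m) (lam - m / 2) (T + D) v)
      (seg (lam - m / 2) lam v (1 / 2))) m := by
  rw [glue_le (by linarith), mf_left, seg_right _ _ (by linarith)]

theorem match2 : seg 0 (m / 2) (1 / 2) u (m / 2) = glue m (seg (m / 2) m u T)
      (glue (lam - m) (mf Pf lam m T D)
        (glue (lam - m / 2) (seg (lam - m) (lam - m / 2) (T + D) v)
          (seg (lam - m / 2) lam v (1 / 2)))) (m / 2) := by
  rw [glue_le (by linarith), seg_left, seg_right _ _ (by linarith)]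

theorem bt1 {x : ℝ} (h : x ≤ m / 2) : bt Pf lam m T D u v x = seg 0 (m / 2) (1 / 2) u x := by
  rw [bt_eq, glue_le h]

theorem bt2 {x : ℝ} (h1 : m / 2 ≤ x) (h : x ≤ m) :
    bt Pf lam m T D u v x = seg (m / 2) m u T x := by
  rw [bt_eq, glue_ge (match2 Pf hm hl) h1, glue_le h]

theorem bt3 {x : ℝ} (h1 : m ≤ x) (h : x ≤ lam - m) :
    bt Pf lam m T D u v x = mf Pf lam m T D x := by
  rw [bt_eq, glue_ge (match2 Pf hm hl) (by linarith), glue_ge (match3 Pf hm hl) h1, glue_le h]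

theorem bt4 {x : ℝ} (h1 : lam - m ≤ x) (h : x ≤ lam - m / 2) :
    bt Pf lam m T D u v x = seg (lam - m) (lam - m / 2) (T + D) v x := by
  rw [bt_eq, glue_ge (match2 Pf hm hl) (by linarith), glue_ge (match3 Pf hm hl) (by linarith),
    glue_ge (match4 Pf hm hl) h1, glue_le h]

theorem bt5 {x : ℝ} (h1 : lam - m / 2 ≤ x) :
    bt Pf lam m T D u v x = seg (lam - m / 2) lam v (1 / 2) x := by
  rw [bt_eq, glue_ge (match2 Pf hm hl) (by linarith), glue_ge (match3 Pf hm hl) (by linarith),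
    glue_ge (match4 Pf hm hl) (by linarith), glue_ge (match5 hm hl) h1]

theorem bt_zero : bt Pf lam m T D u v 0 = 1 / 2 := by
  rw [bt1 Pf hm hl (by linarith), seg_left]

theorem bt_lam : bt Pf lam m T D u v lam = 1 / 2 := by
  rw [bt5 Pf hm hl (by linarith), seg_right _ _ (by linarith)]

theorem bt_lip {K : NNReal} (hD : 0 ≤ D) (hK : D * Pf.Cg / (lam - 2 * m) ≤ K)
    (hK2 : 2 / m ≤ K) (hu : |u| ≤ 1) (hv : |v| ≤ 1) (hu0 : 0 ≤ u) (hv0 : 0 ≤ v)
    (hT : 0 ≤ T) (hT1 : T + D ≤ 1) :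
    LipschitzWith K (bt Pf lam m T D u v) := by
  have hu1 := (abs_le.1 hu).2
  have hv1 := (abs_le.1 hv).2
  have key : ∀ a b x y : ℝ, b - a = m / 2 → 0 ≤ x → x ≤ 1 → 0 ≤ y → y ≤ 1 →
      |(y - x) / (b - a)| ≤ K := by
    intro a b x y hab hx hx1 hy hy1
    rw [hab, abs_div, abs_of_pos (by linarith : 0 < m / 2)]
    refine le_trans ?_ hK2
    rw [div_le_div_iff₀ (by linarith) hm]
    have : |y - x| ≤ 1 := abs_le.2 ⟨by linarith, by linarith⟩
    nlinarith
  refine glue_lip (seg_lip (key _ _ _ _ (by ring) (by norm_num) (by norm_num) hu0 hu1))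
    (glue_lip (seg_lip (key _ _ _ _ (by ring) hu0 hu1 hT (by linarith)))
      (glue_lip (mf_lip Pf hl hD hK) (glue_lip
        (seg_lip (key _ _ _ _ (by ring) (by linarith) hT1 hv0 hv1))
        (seg_lip (key _ _ _ _ (by ring) hv0 hv1 (by norm_num) (by norm_num)))
        (match5 hm hl)) (match4 Pf hm hl)) (match3 Pf hm hl)) (match2 Pf hm hl)

theorem bt_mem {η x : ℝ} (hD : 0 ≤ D) (hη : η ≤ 1 / 8) (hT : η ≤ T) (hT1 : T + D ≤ 1 - η)
    (hu : 1 / 8 ≤ u ∧ u ≤ 7 / 8) (hv : 1 / 8 ≤ v ∧ v ≤ 7 / 8) (hx : x ∈ Icc 0 lam) :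
    η ≤ bt Pf lam m T D u v x ∧ bt Pf lam m T D u v x ≤ 1 - η := by
  obtain ⟨hx0, hx1⟩ := hx
  rcases le_total x (m / 2) with h | h
  · rw [bt1 Pf hm hl h]
    exact seg_mem (by linarith) ⟨hx0, h⟩ ⟨by linarith, by linarith⟩
      ⟨by linarith [hu.1], by linarith [hu.2]⟩
  rcases le_total x m with h2 | h2
  · rw [bt2 Pf hm hl h h2]
    exact seg_mem (by linarith) ⟨h, h2⟩ ⟨by linarith [hu.1], by linarith [hu.2]⟩
      ⟨by linarith, by linarith⟩
  rcases le_total x (lam - m) with h3 | h3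
  · rw [bt3 Pf hm hl h2 h3]
    unfold mf
    obtain ⟨g1, g2⟩ := Pf.mem ((x - m) / (lam - 2 * m))
    constructor <;> nlinarith
  rcases le_total x (lam - m / 2) with h4 | h4
  · rw [bt4 Pf hm hl h3 h4]
    exact seg_mem (by linarith) ⟨h3, h4⟩ ⟨by linarith, by linarith⟩
      ⟨by linarith [hv.1], by linarith [hv.2]⟩
  · rw [bt5 Pf hm hl h4]
    exact seg_mem (by linarith) ⟨h4, hx1⟩ ⟨by linarith [hv.1], by linarith [hv.2]⟩
      ⟨by linarith, by linarith⟩

end

end

end Crest.Agent.R075.Ana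
end

-- ▼ part R075/AnaBand2
section

/-!
Row 75 (helper20), THM A: the band lemma, integrals.
-/

set_option autoImplicit false

namespace Crest.Agent.R075.Ana

open MeasureTheory Set Real

noncomputable section

/-- steering of the mid value -/
theorem steer {N m T : ℝ} (hN : 0 < N) (hm : 0 < m) (h32 : 32 ≤ N * m) (c : ℝ) :
    ∃ u : ℝ, 1 / 8 ≤ u ∧ u ≤ 7 / 8 ∧ 1 / 16 ≤ |u - 1 / 2| ∧ 1 / 16 ≤ |u - T| ∧
      ∃ j : ℤ, N * (m / 4 * (1 / 2 + 2 * u + T)) = c + j := by
  obtain ⟨u0, h1, h2⟩ : ∃ u0 : ℝ, (u0 = 1 / 4 ∨ u0 = 3 / 4) ∧ 1 / 8 ≤ |u0 - T| := by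
    by_cases h : 1 / 8 ≤ |1 / 4 - T|
    · exact ⟨1 / 4, Or.inl rfl, h⟩
    · push Not at h
      have := abs_lt.1 h
      refine ⟨3 / 4, Or.inr rfl, ?_⟩
      rw [abs_of_nonneg (by linarith [this.1])]
      linarith [this.1]
  set f0 := N * (m / 4 * (1 / 2 + 2 * u0 + T)) with hf0
  have hNm : 0 < N * m := mul_pos hN hm
  have hfr0 := Int.fract_nonneg (c - f0)
  have hfr1 := Int.fract_lt_one (c - f0)
  set d := 2 / (N * m) * Int.fract (c - f0) with hd
  have hd0 : 0 ≤ d := by positivity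
  have hd1 : d ≤ 1 / 16 := by
    have : 2 / (N * m) ≤ 1 / 16 := by
      rw [div_le_div_iff₀ hNm (by norm_num)]
      linarith
    calc d ≤ 1 / 16 * 1 := mul_le_mul this hfr1.le hfr0 (by norm_num)
      _ = 1 / 16 := by norm_num
  refine ⟨u0 + d, ?_, ?_, ?_, ?_, -⌊c - f0⌋, ?_⟩
  · rcases h1 with h | h <;> rw [h] <;> linarith
  · rcases h1 with h | h <;> rw [h] <;> linarith
  · rcases h1 with h | h <;> rw [h]
    · rw [abs_of_neg (by linarith)]; linarith
    · rw [abs_of_pos (by linarith)]; linarith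
  · have h3 : |u0 - T| ≤ |u0 + d - T| + d := by
      have := abs_add_le (u0 + d - T) (-d)
      rw [abs_neg, abs_of_nonneg hd0] at this
      have e : u0 + d - T + -d = u0 - T := by ring
      rwa [e] at this
    linarith
  · have e1 : N * (m / 4 * (1 / 2 + 2 * (u0 + d) + T)) = f0 + N * m / 2 * d := by rw [hf0]; ring
    have e2 : N * m / 2 * d = Int.fract (c - f0) := by
      rw [hd]; field_simp
    rw [e1, e2, Int.fract]
    push_cast
    ring

theorem integral_seg_full {a b : ℝ} (u v : ℝ) (h : a ≠ b) :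
    ∫ s in a..b, seg a b u v s = (b - a) * (u + v) / 2 := by
  rw [integral_seg]
  have : b - a ≠ 0 := sub_ne_zero.2 (Ne.symm h)
  field_simp
  ring

/-- second derivative test on an affine segment -/
theorem seg_bound (hV : V2) {a b u v N k P0 : ℝ} (hab : a < b) (hN : 0 < N) (huv : u ≠ v)
    {Psi : ℝ → ℝ} (hPsi : ∀ x ∈ Icc a b, Psi x = P0 + ∫ s in a..x, seg a b u v s) :
    ‖∫ x in a..b, ee (k * x - N * Psi x)‖ ≤ 3 / Real.sqrt (N * (|v - u| / (b - a))) := by
  set s := (v - u) / (b - a) with hs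
  have hs0 : s ≠ 0 := div_ne_zero (sub_ne_zero.2 huv.symm) (by linarith)
  have e1 : ∫ x in a..b, ee (k * x - N * Psi x) =
      ∫ x in a..b, ee ((-(N * s)) / 2 * x ^ 2 + (k + N * s * a - N * u) * x +
        (-(N * P0) - N * s / 2 * a ^ 2 + N * u * a)) := by
    refine intervalIntegral.integral_congr fun x hx => ?_
    rw [uIcc_of_le hab.le] at hx
    rw [hPsi x hx, integral_seg, ← hs]
    congr 1
    ring
  rw [e1]
  refine (hV _ _ _ a b (neg_ne_zero.2 (mul_ne_zero hN.ne' hs0)) hab.le).trans (le_of_eq ?_)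
  rw [abs_neg, abs_mul, abs_of_pos hN, hs, abs_div, abs_of_pos (by linarith : 0 < b - a)]

theorem seg_bound' (hV : V2) {a b u v N k P0 m : ℝ} (hm : 0 < m) (hab : b - a = m / 2)
    (hN : 0 < N) (huv : 1 / 16 ≤ |v - u|)
    {Psi : ℝ → ℝ} (hPsi : ∀ x ∈ Icc a b, Psi x = P0 + ∫ s in a..x, seg a b u v s) :
    Real.sqrt N * ‖∫ x in a..b, ee (k * x - N * Psi x)‖ ≤ 3 * Real.sqrt (8 * m) := by
  have hlt : a < b := by linarith
  have hne : u ≠ v := by
    rintro rfl
    rw [sub_self, abs_zero] at huv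
    norm_num at huv
  have h := seg_bound hV (k := k) hlt hN hne hPsi
  refine (mul_le_mul_of_nonneg_left h (Real.sqrt_nonneg _)).trans ?_
  rw [hab]
  have hr : 0 < |v - u| / (m / 2) := by
    have : 0 < |v - u| := by linarith
    positivity
  rw [Real.sqrt_mul hN.le]
  have hsN : 0 < Real.sqrt N := Real.sqrt_pos.2 hN
  have e : Real.sqrt N * (3 / (Real.sqrt N * Real.sqrt (|v - u| / (m / 2)))) =
      3 * (1 / Real.sqrt (|v - u| / (m / 2))) := by field_simp
  rw [e]
  refine mul_le_mul_of_nonneg_left ?_ (by norm_num)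
  rw [div_le_iff₀ (Real.sqrt_pos.2 hr), ← Real.sqrt_mul (by positivity)]
  rw [show (1:ℝ) = Real.sqrt 1 by simp]
  refine Real.sqrt_le_sqrt ?_
  have e2 : 8 * m * (|v - u| / (m / 2)) = 16 * |v - u| := by field_simp; ring
  rw [e2]
  linarith

section

variable {e : ℝ} (Pf : Profile e) {lam m T D u v : ℝ}

theorem bt_cont (hm : 0 < m) (hl : 0 < lam - 2 * m) : Continuous (bt Pf lam m T D u v) := by
  unfold bt
  have h3 : Continuous (mf Pf lam m T D) := by
    unfold mf
    have := Pf.lip.continuous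
    fun_prop
  have key : ∀ {z : ℝ} {f g : ℝ → ℝ}, Continuous f → Continuous g → f z = g z →
      Continuous (glue z f g) := by
    intro z f g hf hg h
    unfold glue
    refine hf.if_le hg continuous_id continuous_const fun x hx => ?_
    have hx' : x = z := hx
    rw [hx', h]
  exact key (continuous_seg _ _ _ _) (key (continuous_seg _ _ _ _) (key h3
    (key (continuous_seg _ _ _ _) (continuous_seg _ _ _ _) (match5 hm hl)) (match4 Pf hm hl))
    (match3 Pf hm hl)) (match2 Pf hm hl)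

/-- primitive of the curve -/
def Ps (lam m T D u v : ℝ) (x : ℝ) : ℝ := ∫ s in (0:ℝ)..x, bt Pf lam m T D u v s

variable (hm : 0 < m) (hl : 0 < lam - 2 * m)
include hm hl

theorem Ps_split (a x : ℝ) : Ps Pf lam m T D u v x =
    Ps Pf lam m T D u v a + ∫ s in a..x, bt Pf lam m T D u v s := by
  unfold Ps
  rw [intervalIntegral.integral_add_adjacent_intervals]
  · exact (bt_cont Pf hm hl).intervalIntegrable _ _
  · exact (bt_cont Pf hm hl).intervalIntegrable _ _

theorem Ps1 {x : ℝ} (hx : x ∈ Icc 0 (m / 2)) : Ps Pf lam m T D u v x =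
    0 + ∫ s in (0:ℝ)..x, seg 0 (m / 2) (1 / 2) u s := by
  rw [zero_add]
  unfold Ps
  refine intervalIntegral.integral_congr fun s hs => ?_
  rw [uIcc_of_le hx.1] at hs
  exact bt1 Pf hm hl (hs.2.trans hx.2)

theorem Ps2 {x : ℝ} (hx : x ∈ Icc (m / 2) m) : Ps Pf lam m T D u v x =
    Ps Pf lam m T D u v (m / 2) + ∫ s in (m / 2)..x, seg (m / 2) m u T s := by
  rw [Ps_split Pf hm hl (m / 2)]
  congr 1
  refine intervalIntegral.integral_congr fun s hs => ?_
  rw [uIcc_of_le hx.1] at hs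
  exact bt2 Pf hm hl hs.1 (hs.2.trans hx.2)

theorem Ps3 {x : ℝ} (hx : x ∈ Icc m (lam - m)) : Ps Pf lam m T D u v x =
    Ps Pf lam m T D u v m + ∫ s in m..x, mf Pf lam m T D s := by
  rw [Ps_split Pf hm hl m]
  congr 1
  refine intervalIntegral.integral_congr fun s hs => ?_
  rw [uIcc_of_le hx.1] at hs
  exact bt3 Pf hm hl hs.1 (hs.2.trans hx.2)

theorem Ps4 {x : ℝ} (hx : x ∈ Icc (lam - m) (lam - m / 2)) : Ps Pf lam m T D u v x =
    Ps Pf lam m T D u v (lam - m) +
      ∫ s in (lam - m)..x, seg (lam - m) (lam - m / 2) (T + D) v s := by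
  rw [Ps_split Pf hm hl (lam - m)]
  congr 1
  refine intervalIntegral.integral_congr fun s hs => ?_
  rw [uIcc_of_le hx.1] at hs
  exact bt4 Pf hm hl hs.1 (hs.2.trans hx.2)

theorem Ps5 {x : ℝ} (hx : x ∈ Icc (lam - m / 2) lam) : Ps Pf lam m T D u v x =
    Ps Pf lam m T D u v (lam - m / 2) +
      ∫ s in (lam - m / 2)..x, seg (lam - m / 2) lam v (1 / 2) s := by
  rw [Ps_split Pf hm hl (lam - m / 2)]
  congr 1
  refine intervalIntegral.integral_congr fun s hs => ?_
  rw [uIcc_of_le hx.1] at hs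
  exact bt5 Pf hm hl hs.1

theorem Ps_m : Ps Pf lam m T D u v m = m / 4 * (1 / 2 + 2 * u + T) := by
  rw [Ps2 Pf hm hl ⟨by linarith, le_rfl⟩, Ps1 Pf hm hl ⟨by linarith, le_rfl⟩,
    integral_seg_full _ _ (by linarith), integral_seg_full _ _ (by linarith)]
  ring

theorem Ps_lam : Ps Pf lam m T D u v lam = Ps Pf lam m T D u v (lam - m) +
    m / 4 * (1 / 2 + 2 * v + (T + D)) := by
  rw [Ps5 Pf hm hl ⟨by linarith, le_rfl⟩, Ps4 Pf hm hl ⟨by linarith, le_rfl⟩,
    integral_seg_full _ _ (by linarith), integral_seg_full _ _ (by linarith)]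
  ring

/-- the middle part of the primitive does not depend on `u`, `v` -/
theorem Ps_mid {x : ℝ} (hx : x ∈ Icc m (lam - m)) : Ps Pf lam m T D u v x =
    Ps Pf lam m T D u v m + (T * (x - m) + D * (lam - 2 * m) *
      ∫ s in (0:ℝ)..((x - m) / (lam - 2 * m)), Pf.gam s) := by
  rw [Ps3 Pf hm hl hx]
  congr 1
  unfold mf
  have hc : Continuous Pf.gam := Pf.lip.continuous
  rw [intervalIntegral.integral_add (by simp) (by
    apply Continuous.intervalIntegrable; fun_prop), intervalIntegral.integral_const,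
    intervalIntegral.integral_const_mul]
  have e1 : ∀ s : ℝ, (s - m) / (lam - 2 * m) = s / (lam - 2 * m) - m / (lam - 2 * m) := by
    intro s; ring
  have h2 : (∫ s in m..x, Pf.gam ((s - m) / (lam - 2 * m))) =
      (lam - 2 * m) * ∫ s in (0:ℝ)..((x - m) / (lam - 2 * m)), Pf.gam s := by
    have := intervalIntegral.integral_comp_div_sub (a := m) (b := x) (f := Pf.gam) hl.ne'
      (m / (lam - 2 * m))
    calc (∫ s in m..x, Pf.gam ((s - m) / (lam - 2 * m))) =
        ∫ s in m..x, Pf.gam (s / (lam - 2 * m) - m / (lam - 2 * m)) := by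
          refine intervalIntegral.integral_congr fun s _ => ?_
          show Pf.gam ((s - m) / (lam - 2 * m)) = Pf.gam (s / (lam - 2 * m) - m / (lam - 2 * m))
          rw [e1]
      _ = _ := by
          rw [this, smul_eq_mul]
          congr 2
          · ring
          · ring
  rw [h2, smul_eq_mul]
  ring

end

end

end Crest.Agent.R075.Ana
end

-- ▼ part R075/AnaBand3
section

/-!
Row 75 (helper20), THM A: the band lemma.
-/

set_option autoImplicit false

namespace Crest.Agent.R075.Ana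

open MeasureTheory Set Real

noncomputable section

section

variable {e : ℝ} (Pf : Profile e) {lam m T D u v : ℝ}

theorem mid_int (hm : 0 < m) (hl : 0 < lam - 2 * m) (hD : 0 < D) {N k : ℝ} (hN : 0 < N) :
    ∫ x in m..(lam - m), ee (k * x - N * Ps Pf lam m T D u v x) =
      ((lam - 2 * m : ℝ) : ℂ) * (ee (k * m - N * Ps Pf lam m T D u v m) *
        ∫ x in (0:ℝ)..1, ee ((N * D * (lam - 2 * m)) * (x * ((k / N - T) / D) -
          ∫ s in (0:ℝ)..x, Pf.gam s))) := by
  set F : ℝ → ℂ := fun x => ee (k * m - N * Ps Pf lam m T D u v m) *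
    ee ((N * D * (lam - 2 * m)) * (x * ((k / N - T) / D) - ∫ s in (0:ℝ)..x, Pf.gam s)) with hF
  have h1 : ∫ x in m..(lam - m), ee (k * x - N * Ps Pf lam m T D u v x) =
      ∫ x in m..(lam - m), F (x / (lam - 2 * m) - m / (lam - 2 * m)) := by
    refine intervalIntegral.integral_congr fun x hx => ?_
    rw [uIcc_of_le (by linarith)] at hx
    rw [hF]
    simp only
    rw [← ee_add, Ps_mid Pf hm hl hx, ← sub_div]
    congr 1
    have e1 : x - m = (x - m) / (lam - 2 * m) * (lam - 2 * m) := (div_mul_cancel₀ _ hl.ne').symm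
    have e2 : N * D * ((k / N - T) / D) = k - N * T := by field_simp
    set s := (x - m) / (lam - 2 * m) with hs
    linear_combination (k - N * T) * e1 - s * (lam - 2 * m) * e2
  rw [h1, intervalIntegral.integral_comp_div_sub (f := F) hl.ne']
  have e1 : m / (lam - 2 * m) - m / (lam - 2 * m) = 0 := by ring
  have e2 : (lam - m) / (lam - 2 * m) - m / (lam - 2 * m) = 1 := by
    rw [← sub_div, div_eq_one_iff_eq hl.ne']; ring
  rw [e1, e2, hF, intervalIntegral.integral_const_mul, Complex.real_smul]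

theorem ee_cont_Ps (hm : 0 < m) (hl : 0 < lam - 2 * m) (N k : ℝ) :
    Continuous fun x => ee (k * x - N * Ps Pf lam m T D u v x) := by
  have h : Continuous (Ps Pf lam m T D u v) := by
    unfold Ps
    exact intervalIntegral.continuous_primitive
      (fun a b => (bt_cont Pf hm hl).intervalIntegrable a b) 0
  exact ee_continuous.comp (by fun_prop)

/-- main estimate for one band, with the steered mid values -/
theorem band_est (hV : V2) (hm : 0 < m) (hl : 0 < lam - 2 * m) (hD : 0 < D) {N k al : ℝ}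
    (hN : 0 < N) (hL : Pf.L0 ≤ N * D * (lam - 2 * m))
    (hu1 : 1 / 16 ≤ |u - 1 / 2|) (hu2 : 1 / 16 ≤ |u - T|)
    (hv1 : 1 / 16 ≤ |v - 1 / 2|) (hv2 : 1 / 16 ≤ |v - (T + D)|)
    (hst : ∃ j : ℤ, -(N * Ps Pf lam m T D u v m) = al + 1 / 8 + j) :
    ‖((Real.sqrt N : ℝ) : ℂ) * (∫ x in (0:ℝ)..lam, ee (k * x - N * Ps Pf lam m T D u v x)) -
      ((Real.sqrt ((lam - 2 * m) / D) * (Real.sqrt Pf.kap * Pf.w ((k / N - T) / D)) : ℝ) : ℂ) *
        ee (al + k * m + N * D * (lam - 2 * m) * Pf.g ((k / N - T) / D))‖ ≤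
      Real.sqrt ((lam - 2 * m) / D) * e + 12 * Real.sqrt (8 * m) := by
  set Psi := Ps Pf lam m T D u v with hPsi
  set I : ℝ → ℝ → ℂ := fun a b => ∫ x in a..b, ee (k * x - N * Psi x) with hI
  have hint : ∀ a b : ℝ, IntervalIntegrable (fun x => ee (k * x - N * Psi x)) volume a b :=
    fun a b => (ee_cont_Ps Pf hm hl N k).intervalIntegrable _ _
  have hsplit : I 0 lam = I 0 (m / 2) + I (m / 2) m + I m (lam - m) +
      I (lam - m) (lam - m / 2) + I (lam - m / 2) lam := by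
    simp only [hI]
    rw [intervalIntegral.integral_add_adjacent_intervals (hint _ _) (hint _ _),
      intervalIntegral.integral_add_adjacent_intervals (hint _ _) (hint _ _),
      intervalIntegral.integral_add_adjacent_intervals (hint _ _) (hint _ _),
      intervalIntegral.integral_add_adjacent_intervals (hint _ _) (hint _ _)]
  have b1 : Real.sqrt N * ‖I 0 (m / 2)‖ ≤ 3 * Real.sqrt (8 * m) :=
    seg_bound' hV hm (by ring) hN hu1 (Psi := Psi) (P0 := 0)
      (fun x hx => Ps1 Pf hm hl hx)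
  have b2 : Real.sqrt N * ‖I (m / 2) m‖ ≤ 3 * Real.sqrt (8 * m) :=
    seg_bound' hV hm (by ring) hN (by rwa [abs_sub_comm]) (Psi := Psi)
      (P0 := Psi (m / 2)) (fun x hx => Ps2 Pf hm hl hx)
  have b4 : Real.sqrt N * ‖I (lam - m) (lam - m / 2)‖ ≤ 3 * Real.sqrt (8 * m) :=
    seg_bound' hV hm (by ring) hN hv2 (Psi := Psi)
      (P0 := Psi (lam - m)) (fun x hx => Ps4 Pf hm hl hx)
  have b5 : Real.sqrt N * ‖I (lam - m / 2) lam‖ ≤ 3 * Real.sqrt (8 * m) :=
    seg_bound' hV hm (by ring) hN (by rwa [abs_sub_comm]) (Psi := Psi)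
      (P0 := Psi (lam - m / 2)) (fun x hx => Ps5 Pf hm hl hx)
  set y := (k / N - T) / D with hy
  set L := N * D * (lam - 2 * m) with hLdef
  set J : ℂ := ∫ x in (0:ℝ)..1, ee (L * (x * y - ∫ s in (0:ℝ)..x, Pf.gam s)) with hJ
  have b3 : I m (lam - m) = ((lam - 2 * m : ℝ) : ℂ) * (ee (k * m - N * Psi m) * J) :=
    mid_int Pf hm hl hD hN
  obtain ⟨j, hj⟩ := hst
  have hph : ee (k * m - N * Psi m) = ee (al + k * m + 1 / 8) := by
    have : k * m - N * Psi m = al + k * m + 1 / 8 + j := by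
      have : -(N * Psi m) = al + 1 / 8 + j := hj
      linarith
    rw [this, ee_add_int]
  have hL0 : 0 < L := by rw [hLdef]; positivity
  have hsq : Real.sqrt N * (lam - 2 * m) = Real.sqrt ((lam - 2 * m) / D) * Real.sqrt L := by
    rw [← Real.sqrt_mul (by positivity), hLdef]
    have : (lam - 2 * m) / D * (N * D * (lam - 2 * m)) = N * (lam - 2 * m) ^ 2 := by
      field_simp
    rw [this, Real.sqrt_mul hN.le, Real.sqrt_sq hl.le]
  have has := Pf.asym L hL y
  have hmid : ‖((Real.sqrt N : ℝ) : ℂ) * I m (lam - m) -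
      ((Real.sqrt ((lam - 2 * m) / D) * (Real.sqrt Pf.kap * Pf.w y) : ℝ) : ℂ) *
        ee (al + k * m + L * Pf.g y)‖ ≤ Real.sqrt ((lam - 2 * m) / D) * e := by
    have e1 : ((Real.sqrt N : ℝ) : ℂ) * I m (lam - m) =
        ((Real.sqrt ((lam - 2 * m) / D) : ℝ) : ℂ) * (ee (al + k * m + 1 / 8) *
          (((Real.sqrt L : ℝ) : ℂ) * J)) := by
      rw [b3, hph]
      have h2 : ((Real.sqrt N : ℝ) : ℂ) * ((lam - 2 * m : ℝ) : ℂ) =
          ((Real.sqrt ((lam - 2 * m) / D) : ℝ) : ℂ) * ((Real.sqrt L : ℝ) : ℂ) := by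
        rw [← Complex.ofReal_mul, hsq, Complex.ofReal_mul]
      calc ((Real.sqrt N : ℝ) : ℂ) * (((lam - 2 * m : ℝ) : ℂ) * (ee (al + k * m + 1 / 8) * J)) =
          (((Real.sqrt N : ℝ) : ℂ) * ((lam - 2 * m : ℝ) : ℂ)) * (ee (al + k * m + 1 / 8) * J) := by
            ring
        _ = _ := by rw [h2]; ring
    have e2 : ee (al + k * m + L * Pf.g y) = ee (al + k * m + 1 / 8) *
        ee (L * Pf.g y - 1 / 8) := by
      rw [← ee_add]; congr 1; ring
    rw [e1, e2, Complex.ofReal_mul]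
    have e3 : ((Real.sqrt ((lam - 2 * m) / D) : ℝ) : ℂ) * (ee (al + k * m + 1 / 8) *
          (((Real.sqrt L : ℝ) : ℂ) * J)) - ((Real.sqrt ((lam - 2 * m) / D) : ℝ) : ℂ) *
          ((Real.sqrt Pf.kap * Pf.w y : ℝ) : ℂ) * (ee (al + k * m + 1 / 8) *
            ee (L * Pf.g y - 1 / 8)) =
        ((Real.sqrt ((lam - 2 * m) / D) : ℝ) : ℂ) * (ee (al + k * m + 1 / 8) *
          (((Real.sqrt L : ℝ) : ℂ) * J - ((Real.sqrt Pf.kap * Pf.w y : ℝ) : ℂ) *
            ee (L * Pf.g y - 1 / 8))) := by ring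
    rw [e3, norm_mul, norm_mul, norm_ee, one_mul, Complex.norm_real, Real.norm_eq_abs,
      abs_of_nonneg (Real.sqrt_nonneg _)]
    exact mul_le_mul_of_nonneg_left has (Real.sqrt_nonneg _)
  have hfin : ((Real.sqrt N : ℝ) : ℂ) * I 0 lam -
      ((Real.sqrt ((lam - 2 * m) / D) * (Real.sqrt Pf.kap * Pf.w y) : ℝ) : ℂ) *
        ee (al + k * m + L * Pf.g y) =
      (((Real.sqrt N : ℝ) : ℂ) * I m (lam - m) -
      ((Real.sqrt ((lam - 2 * m) / D) * (Real.sqrt Pf.kap * Pf.w y) : ℝ) : ℂ) *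
        ee (al + k * m + L * Pf.g y)) + (((Real.sqrt N : ℝ) : ℂ) * I 0 (m / 2) +
        (((Real.sqrt N : ℝ) : ℂ) * I (m / 2) m + (((Real.sqrt N : ℝ) : ℂ) *
          I (lam - m) (lam - m / 2) + ((Real.sqrt N : ℝ) : ℂ) * I (lam - m / 2) lam))) := by
    rw [hsplit]; ring
  have hn : ∀ z : ℂ, ‖((Real.sqrt N : ℝ) : ℂ) * z‖ = Real.sqrt N * ‖z‖ := by
    intro z
    rw [norm_mul, Complex.norm_real, Real.norm_eq_abs, abs_of_nonneg (Real.sqrt_nonneg _)]
  show ‖((Real.sqrt N : ℝ) : ℂ) * I 0 lam - _‖ ≤ _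
  rw [hfin]
  refine (norm_add_le _ _).trans ?_
  have t1 := norm_add_le (((Real.sqrt N : ℝ) : ℂ) * I 0 (m / 2)) (((Real.sqrt N : ℝ) : ℂ) *
    I (m / 2) m + (((Real.sqrt N : ℝ) : ℂ) * I (lam - m) (lam - m / 2) +
      ((Real.sqrt N : ℝ) : ℂ) * I (lam - m / 2) lam))
  have t2 := norm_add_le (((Real.sqrt N : ℝ) : ℂ) * I (m / 2) m) (((Real.sqrt N : ℝ) : ℂ) *
    I (lam - m) (lam - m / 2) + ((Real.sqrt N : ℝ) : ℂ) * I (lam - m / 2) lam)
  have t3 := norm_add_le (((Real.sqrt N : ℝ) : ℂ) * I (lam - m) (lam - m / 2))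
    (((Real.sqrt N : ℝ) : ℂ) * I (lam - m / 2) lam)
  rw [hn] at t1 t2 t3
  rw [hn] at t3
  linarith

end

/-- **Band lemma.** -/
theorem band {e : ℝ} (Pf : Profile e) (hV : V2) {lam ze T D eta al : ℝ} (hlam : 0 < lam)
    (hze : 0 < ze) (hze4 : ze ≤ 1 / 4) (hD : 0 < D) (heta : 0 < eta) (heta8 : eta ≤ 1 / 8)
    (hT : eta ≤ T) (hT1 : T + D ≤ 1 - eta) :
    ∃ (K : NNReal) (N0 : ℕ), ∀ N : ℕ, N0 ≤ N → ∃ tau : ℝ → ℝ, LipschitzWith K tau ∧
      tau 0 = 1 / 2 ∧ tau lam = 1 / 2 ∧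
      (∀ x ∈ Icc 0 lam, eta ≤ tau x ∧ tau x ≤ 1 - eta) ∧
      (∃ j : ℤ, (N : ℝ) * ∫ x in (0:ℝ)..lam, tau x = j) ∧
      ∀ k : ℝ, ‖((Real.sqrt N : ℝ) : ℂ) *
          (∫ x in (0:ℝ)..lam, ee (k * x - N * ∫ s in (0:ℝ)..x, tau s)) -
        ((Real.sqrt (1 - 2 * ze) * Real.sqrt Pf.kap * Pf.w ((k / N - T) / D) *
          Real.sqrt (lam / D) : ℝ) : ℂ) *
          ee (al + lam * (ze * k + (1 - 2 * ze) * (N * D * Pf.g ((k / N - T) / D))))‖ ≤
        Real.sqrt (lam / D) * e + 12 * Real.sqrt (8 * (ze * lam)) := by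
  have he : 0 ≤ e := by linarith [Pf.one_le, Pf.le]
  set m := ze * lam with hmdef
  have hm : 0 < m := mul_pos hze hlam
  have hl : 0 < lam - 2 * m := by
    rw [hmdef]
    nlinarith
  have hl' : lam - 2 * m = (1 - 2 * ze) * lam := by rw [hmdef]; ring
  set K : NNReal := ⟨2 / m + D * Pf.Cg / (lam - 2 * m), by positivity⟩ with hK
  obtain ⟨N0, hN0⟩ := exists_nat_ge (max (max 1 (32 / m)) (Pf.L0 / (D * (lam - 2 * m))))
  refine ⟨K, N0, fun N hN => ?_⟩
  have hNr : (N0 : ℝ) ≤ N := by exact_mod_cast hN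
  have hN1 : (1:ℝ) ≤ N := ((le_max_left _ _).trans (le_max_left _ _)).trans (hN0.trans hNr)
  have hNpos : (0:ℝ) < N := by linarith
  have hN2 : 32 / m ≤ N := ((le_max_right _ _).trans (le_max_left _ _)).trans (hN0.trans hNr)
  have hN3 : Pf.L0 / (D * (lam - 2 * m)) ≤ N := (le_max_right _ _).trans (hN0.trans hNr)
  have h32 : 32 ≤ (N:ℝ) * m := by rwa [div_le_iff₀ hm] at hN2
  have hL : Pf.L0 ≤ N * D * (lam - 2 * m) := by
    rw [div_le_iff₀ (by positivity)] at hN3
    linarith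
  obtain ⟨u, hu0, hu1, hu2, hu3, j1, hj1⟩ := steer hNpos hm h32 (T := T) (-(al + 1 / 8))
  have hv : ∀ v v', Ps Pf lam m T D u v (lam - m) = Ps Pf lam m T D u v' (lam - m) := by
    intro v v'
    rw [Ps_mid Pf hm hl ⟨by linarith, le_rfl⟩, Ps_mid Pf hm hl ⟨by linarith, le_rfl⟩,
      Ps_m Pf hm hl, Ps_m Pf hm hl]
  obtain ⟨v, hv0, hv1, hv2, hv3, j2, hj2⟩ := steer hNpos hm h32 (T := T + D)
    (-(N * Ps Pf lam m T D u 0 (lam - m)))
  refine ⟨bt Pf lam m T D u v, ?_, bt_zero Pf hm hl, bt_lam Pf hm hl, ?_, ?_, ?_⟩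
  · refine bt_lip Pf hm hl hD.le ?_ ?_ (abs_le.2 ⟨by linarith, by linarith⟩)
      (abs_le.2 ⟨by linarith, by linarith⟩) (by linarith) (by linarith) (by linarith)
      (by linarith)
    · show D * Pf.Cg / (lam - 2 * m) ≤ 2 / m + D * Pf.Cg / (lam - 2 * m)
      have : 0 ≤ 2 / m := by positivity
      linarith
    · show 2 / m ≤ 2 / m + D * Pf.Cg / (lam - 2 * m)
      have : 0 ≤ D * Pf.Cg / (lam - 2 * m) := by positivity
      linarith
  · intro x hx
    exact bt_mem Pf hm hl hD.le heta8 hT hT1 ⟨hu0, hu1⟩ ⟨hv0, hv1⟩ hx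
  · refine ⟨j2, ?_⟩
    have h1 : (∫ x in (0:ℝ)..lam, bt Pf lam m T D u v x) = Ps Pf lam m T D u v lam := rfl
    rw [h1, Ps_lam Pf hm hl, mul_add, hj2, hv v 0]
    ring
  · intro k
    have hst : ∃ j : ℤ, -((N:ℝ) * Ps Pf lam m T D u v m) = al + 1 / 8 + j := by
      refine ⟨-j1, ?_⟩
      rw [Ps_m Pf hm hl, hj1]
      push_cast
      ring
    have h := band_est Pf hV hm hl hD (k := k) hNpos hL hu2 hu3 hv2 hv3 hst
    have e1 : Real.sqrt ((lam - 2 * m) / D) * (Real.sqrt Pf.kap * Pf.w ((k / N - T) / D)) =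
        Real.sqrt (1 - 2 * ze) * Real.sqrt Pf.kap * Pf.w ((k / N - T) / D) *
          Real.sqrt (lam / D) := by
      rw [hl', mul_div_assoc, Real.sqrt_mul (by linarith)]
      ring
    have e2 : al + k * m + N * D * (lam - 2 * m) * Pf.g ((k / N - T) / D) =
        al + lam * (ze * k + (1 - 2 * ze) * (N * D * Pf.g ((k / N - T) / D))) := by
      rw [hl', hmdef]
      ring
    rw [e1, e2] at h
    refine h.trans ?_
    have h3 : Real.sqrt ((lam - 2 * m) / D) ≤ Real.sqrt (lam / D) := by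
      refine Real.sqrt_le_sqrt (div_le_div_of_nonneg_right ?_ hD.le)
      linarith
    have h4 := mul_le_mul_of_nonneg_right h3 he
    linarith

end

end Crest.Agent.R075.Ana
end

-- ▼ part R075/AnaGlue
section

/-!
Row 75 (helper20), THM A: gluing the bands to one curve `t` on `[0,1/2]`.
-/

set_option autoImplicit false

namespace Crest.Agent.R075.Ana

open MeasureTheory Set Real

noncomputable section

theorem x_mono {m : ℕ} {x : ℕ → ℝ} (h : ∀ j < m, x j < x (j + 1)) {i j : ℕ} (hij : i ≤ j)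
    (hj : j ≤ m) : x i ≤ x j := by
  induction j, hij using Nat.le_induction with
  | base => exact le_rfl
  | succ n hn ih => exact (ih (by omega)).trans (h n (by omega)).le

/-- gluing of `n` functions with value `1/2` at the break points -/
theorem glue_all {K : NNReal} {lo hi : ℝ} (x : ℕ → ℝ) (f : ℕ → ℝ → ℝ) (n : ℕ)
    (hx : ∀ l < n, x l < x (l + 1))
    (hf : ∀ l < n, LipschitzWith K (f l) ∧ f l (x l) = 1 / 2 ∧ f l (x (l + 1)) = 1 / 2 ∧
      ∀ y ∈ Icc (x l) (x (l + 1)), lo ≤ f l y ∧ f l y ≤ hi)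
    (hlo : lo ≤ 1 / 2) (hhi : 1 / 2 ≤ hi) :
    ∃ t : ℝ → ℝ, LipschitzWith K t ∧ t (x n) = 1 / 2 ∧
      (∀ l < n, ∀ y ∈ Icc (x l) (x (l + 1)), t y = f l y) ∧
      ∀ y ∈ Icc (x 0) (x n), lo ≤ t y ∧ t y ≤ hi := by
  induction n with
  | zero =>
    refine ⟨fun _ => 1 / 2, ?_, rfl, fun l hl => absurd hl (Nat.not_lt_zero _),
      fun y _ => ⟨hlo, hhi⟩⟩
    exact (LipschitzWith.const (1 / 2 : ℝ)).weaken bot_le
  | succ n ih =>
    obtain ⟨t, ht1, ht2, ht3, ht4⟩ := ih (fun l hl => hx l (by omega))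
      (fun l hl => hf l (by omega))
    obtain ⟨hf1, hf2, hf3, hf4⟩ := hf n (by omega)
    have hfg : t (x n) = f n (x n) := by rw [ht2, hf2]
    have hxn := hx n (by omega)
    refine ⟨glue (x n) t (f n), glue_lip ht1 hf1 hfg, ?_, ?_, ?_⟩
    · rw [glue_ge hfg hxn.le, hf3]
    · intro l hl y hy
      rcases Nat.lt_succ_iff_lt_or_eq.1 hl with h | h
      · have h2 : x (l + 1) ≤ x n :=
          x_mono (fun j hj => hx j (by omega)) (by omega) le_rfl
        rw [glue_le (hy.2.trans h2)]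
        exact ht3 l h y hy
      · subst h
        rw [glue_ge hfg hy.1]
    · intro y hy
      rcases le_total y (x n) with h | h
      · rw [glue_le h]
        exact ht4 y ⟨hy.1, h⟩
      · rw [glue_ge hfg h]
        exact hf4 y ⟨h, hy.2⟩

/-- contribution of a band with orientation `+` -/
theorem contrib_pos {t tau : ℝ → ℝ} (htc : Continuous t) {a b k N : ℝ} {J : ℤ}
    (hab : a ≤ b) (ht : ∀ y ∈ Icc a b, t y = tau (y - a)) (hJ : N * ∫ y in (0:ℝ)..a, t y = J) :
    ∫ y in a..b, ee (k * y - N * ∫ s in (0:ℝ)..y, t s) =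
      ee (a * k) * ∫ s in (0:ℝ)..(b - a), ee (k * s - N * ∫ r in (0:ℝ)..s, tau r) := by
  have h1 : ∀ y ∈ uIcc a b, ee (k * y - N * ∫ s in (0:ℝ)..y, t s) =
      ee (a * k) * (fun s => ee (k * s - N * ∫ r in (0:ℝ)..s, tau r)) (y - a) := by
    intro y hy
    rw [uIcc_of_le hab] at hy
    have h2 : ∫ s in (0:ℝ)..y, t s = (∫ s in (0:ℝ)..a, t s) + ∫ s in a..y, t s :=
      (intervalIntegral.integral_add_adjacent_intervals (htc.intervalIntegrable _ _)
        (htc.intervalIntegrable _ _)).symm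
    have h3 : ∫ s in a..y, t s = ∫ s in (0:ℝ)..(y - a), tau s := by
      rw [intervalIntegral.integral_congr (g := fun s => tau (s - a)),
        intervalIntegral.integral_comp_sub_right, sub_self]
      intro s hs
      rw [uIcc_of_le hy.1] at hs
      exact ht s ⟨hs.1, hs.2.trans hy.2⟩
    have e1 : k * y - N * ∫ s in (0:ℝ)..y, t s =
        (a * k + (k * (y - a) - N * ∫ s in (0:ℝ)..(y - a), tau s)) + ((-J : ℤ) : ℝ) := by
      rw [h2, h3, mul_add, hJ]
      push_cast
      ring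
    rw [e1, ee_add_int, ee_add]
  rw [intervalIntegral.integral_congr h1, intervalIntegral.integral_const_mul,
    intervalIntegral.integral_comp_sub_right
      (fun s => ee (k * s - N * ∫ r in (0:ℝ)..s, tau r)), sub_self]

/-- contribution of a band with orientation `-` -/
theorem contrib_neg {t tau : ℝ → ℝ} (htc : Continuous t) (htau : Continuous tau)
    {a b k N : ℝ} {J j : ℤ}
    (hab : a ≤ b) (ht : ∀ y ∈ Icc a b, t y = tau (b - y)) (hJ : N * ∫ y in (0:ℝ)..a, t y = J)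
    (hj : N * ∫ y in (0:ℝ)..(b - a), tau y = j) :
    ∫ y in a..b, ee (k * y - N * ∫ s in (0:ℝ)..y, t s) =
      (starRingEnd ℂ) (ee (-b * k) *
        ∫ s in (0:ℝ)..(b - a), ee (k * s - N * ∫ r in (0:ℝ)..s, tau r)) := by
  have h1 : ∀ y ∈ uIcc a b, ee (k * y - N * ∫ s in (0:ℝ)..y, t s) =
      (fun s => (starRingEnd ℂ) (ee (-b * k) * ee (k * s - N * ∫ r in (0:ℝ)..s, tau r)))
        (b - y) := by
    intro y hy
    rw [uIcc_of_le hab] at hy
    have h2 : ∫ s in (0:ℝ)..y, t s = (∫ s in (0:ℝ)..a, t s) + ∫ s in a..y, t s :=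
      (intervalIntegral.integral_add_adjacent_intervals (htc.intervalIntegrable _ _)
        (htc.intervalIntegrable _ _)).symm
    have h3 : ∫ s in a..y, t s = ∫ s in (b - y)..(b - a), tau s := by
      rw [intervalIntegral.integral_congr (g := fun s => tau (b - s)),
        intervalIntegral.integral_comp_sub_left]
      intro s hs
      rw [uIcc_of_le hy.1] at hs
      exact ht s ⟨hs.1, hs.2.trans hy.2⟩
    have h4 : ∫ s in (b - y)..(b - a), tau s =
        (∫ s in (0:ℝ)..(b - a), tau s) - ∫ s in (0:ℝ)..(b - y), tau s :=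
      (intervalIntegral.integral_interval_sub_left (htau.intervalIntegrable _ _)
        (htau.intervalIntegrable _ _)).symm
    have e1 : k * y - N * ∫ s in (0:ℝ)..y, t s =
        -(-b * k + (k * (b - y) - N * ∫ s in (0:ℝ)..(b - y), tau s)) + ((-J - j : ℤ) : ℝ) := by
      rw [h2, h3, h4, mul_add, mul_sub, hJ, hj]
      push_cast
      ring
    simp only
    rw [e1, ee_add_int, ← ee_add, ee_conj]
  rw [intervalIntegral.integral_congr h1, intervalIntegral.integral_comp_sub_left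
    (fun s => (starRingEnd ℂ) (ee (-b * k) * ee (k * s - N * ∫ r in (0:ℝ)..s, tau r))), sub_self,
    intervalIntegral_conj, intervalIntegral.integral_const_mul]

/-- at most one active window -/
theorem one_window {m : ℕ} (A B : Fin m → ℝ) {P Q : ℝ} (hP : 0 ≤ P) (hQ : 0 ≤ Q)
    (hA : ∀ i, 0 ≤ A i ∧ A i ≤ P) (hB : ∀ i, |B i| ≤ Q)
    (h1 : ∀ i i', i ≠ i' → A i = 0 ∨ A i' = 0) : |∑ i, A i * B i| ≤ P * Q := by
  by_cases h : ∃ i, A i ≠ 0
  · obtain ⟨i, hi⟩ := h
    rw [Finset.sum_eq_single i]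
    · rw [abs_mul, abs_of_nonneg (hA i).1]
      exact mul_le_mul (hA i).2 (hB i) (abs_nonneg _) hP
    · intro j _ hj
      rcases h1 j i hj with h | h
      · rw [h, zero_mul]
      · exact absurd h hi
    · intro h; exact absurd (Finset.mem_univ i) h
  · push Not at h
    rw [Finset.sum_eq_zero]
    · rw [abs_zero]; positivity
    · intro i _; rw [h i, zero_mul]

end

end Crest.Agent.R075.Ana
end

-- ▼ part R075/AnaGlue2
section

/-!
Row 75 (helper20), THM A: windows, the coefficients, the theorem `analysis`.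
-/

set_option autoImplicit false

namespace Crest.Agent.R075.Ana

open MeasureTheory Set Real

noncomputable section

/-- disjoint windows with gaps -/
theorem windows {m : ℕ} (De : Fin m → ℝ) (hpos : ∀ i, 0 < De i) (hsum : ∑ i, De i < 1) :
    ∃ (g : ℝ) (T : Fin m → ℝ), 0 < g ∧ (∀ i, g ≤ T i ∧ T i + De i ≤ 1 - g) ∧
      ∀ i i', i < i' → T i + De i < T i' := by
  classical
  set g : ℝ := (1 - ∑ i, De i) / (m + 1) with hg
  have hm : (0:ℝ) < m + 1 := by positivity
  have hg0 : 0 < g := div_pos (by linarith) hm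
  have hgm : g * (m + 1) = 1 - ∑ i, De i := by rw [hg]; field_simp
  set S : Fin m → ℝ := fun i => ∑ j ∈ Finset.univ.filter (fun j => j < i), De j with hS
  have hSi : ∀ i, S i + De i = ∑ j ∈ Finset.univ.filter (fun j => j ≤ i), De j := by
    intro i
    have : Finset.univ.filter (fun j => j ≤ i) =
        insert i (Finset.univ.filter (fun j => j < i)) := by
      ext j
      simp only [Finset.mem_filter, Finset.mem_univ, true_and, Finset.mem_insert]
      exact le_iff_eq_or_lt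
    rw [this, Finset.sum_insert (by simp)]
    simp only [hS]
    ring
  refine ⟨g, fun i => g * ((i : ℕ) + 1) + S i, hg0, fun i => ⟨?_, ?_⟩, ?_⟩
  · have h1 : 0 ≤ S i := Finset.sum_nonneg fun j _ => (hpos j).le
    have h2 : (0:ℝ) ≤ (i : ℕ) := Nat.cast_nonneg _
    simp only
    nlinarith
  · have h1 : S i + De i ≤ ∑ j, De j := by
      rw [hSi]
      exact Finset.sum_le_sum_of_subset_of_nonneg (Finset.filter_subset _ _)
        fun j _ _ => (hpos j).le
    have h2 : ((i : ℕ) : ℝ) + 1 ≤ m := by exact_mod_cast i.2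
    simp only
    nlinarith
  · intro i i' hii
    have h1 : S i + De i ≤ S i' := by
      rw [hSi]
      refine Finset.sum_le_sum_of_subset_of_nonneg ?_ fun j _ _ => (hpos j).le
      intro j
      simp only [Finset.mem_filter, Finset.mem_univ, true_and]
      exact fun h => lt_of_le_of_lt h hii
    have h2 : ((i : ℕ) : ℝ) + 1 ≤ (i' : ℕ) := by exact_mod_cast hii
    simp only
    nlinarith

/-- the coefficient as a sum over the bands -/
theorem ck_eq_sum {n : ℕ} {x : ℕ → ℝ} {ori : ℕ → Bool} {tau : ℕ → ℝ → ℝ} {t : ℝ → ℝ} {N : ℕ}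
    (hx0 : x 0 = 0) (hxn : x n = 1 / 2) (hx : ∀ l < n, x l < x (l + 1))
    (htc : Continuous t) (hc : ∀ l < n, Continuous (tau l))
    (ht : ∀ l < n, ∀ y ∈ Icc (x l) (x (l + 1)),
      t y = if ori l then tau l (y - x l) else tau l (x (l + 1) - y))
    (hj : ∀ l < n, ∃ j : ℤ, (N : ℝ) * ∫ y in (0:ℝ)..(x (l + 1) - x l), tau l y = j) :
    (∃ J : ℤ, (N : ℝ) * ∫ y in (0:ℝ)..(1 / 2), t y = J) ∧
    ∀ k : ℤ, ck N t k = ∑ l ∈ Finset.range n,
      2 * (ee ((if ori l then x l else -x (l + 1)) * k) * (((Real.sqrt N : ℝ) : ℂ) *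
        ∫ s in (0:ℝ)..(x (l + 1) - x l), ee (k * s - N * ∫ r in (0:ℝ)..s, tau l r))).re := by
  have hint : ∀ l < n, ∫ y in (x l)..(x (l + 1)), t y =
      ∫ y in (0:ℝ)..(x (l + 1) - x l), tau l y := by
    intro l hl
    have hxl := (hx l hl).le
    cases h : ori l with
    | true =>
      rw [intervalIntegral.integral_congr (g := fun y => tau l (y - x l)),
        intervalIntegral.integral_comp_sub_right (fun y => tau l y), sub_self]
      intro y hy
      rw [uIcc_of_le hxl] at hy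
      have := ht l hl y hy
      rwa [if_pos h] at this
    | false =>
      rw [intervalIntegral.integral_congr (g := fun y => tau l (x (l + 1) - y)),
        intervalIntegral.integral_comp_sub_left (fun y => tau l y), sub_self]
      intro y hy
      rw [uIcc_of_le hxl] at hy
      have := ht l hl y hy
      rwa [if_neg (by rw [h]; simp)] at this
  have hJ : ∀ l ≤ n, ∃ J : ℤ, (N : ℝ) * ∫ y in (0:ℝ)..(x l), t y = J := by
    intro l
    induction l with
    | zero => intro _; exact ⟨0, by rw [hx0]; simp⟩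
    | succ l ih =>
      intro hl
      obtain ⟨J, hJ⟩ := ih (by omega)
      obtain ⟨j, hj⟩ := hj l (by omega)
      refine ⟨J + j, ?_⟩
      rw [← intervalIntegral.integral_add_adjacent_intervals (b := x l)
        (htc.intervalIntegrable _ _) (htc.intervalIntegrable _ _), mul_add, hJ,
        hint l (by omega), hj]
      push_cast
      ring
  refine ⟨by rw [← hxn]; exact hJ n le_rfl, fun k => ?_⟩
  have hcont : Continuous fun y : ℝ => ee ((k:ℝ) * y - N * ∫ s in (0:ℝ)..y, t s) := by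
    refine ee_continuous.comp ?_
    refine (continuous_const.mul continuous_id).sub (continuous_const.mul ?_)
    exact intervalIntegral.continuous_primitive (fun a b => htc.intervalIntegrable a b) 0
  have hsplit : ∫ y in (0:ℝ)..(1 / 2), ee ((k:ℝ) * y - N * ∫ s in (0:ℝ)..y, t s) =
      ∑ l ∈ Finset.range n, ∫ y in (x l)..(x (l + 1)),
        ee ((k:ℝ) * y - N * ∫ s in (0:ℝ)..y, t s) := by
    rw [intervalIntegral.sum_integral_adjacent_intervals
      (fun l _ => hcont.intervalIntegrable _ _), hx0, hxn]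
  unfold ck
  rw [hsplit, Complex.re_sum, Finset.mul_sum]
  refine Finset.sum_congr rfl fun l hl => ?_
  have hl' := Finset.mem_range.1 hl
  obtain ⟨J, hJ⟩ := hJ l hl'.le
  obtain ⟨j, hj⟩ := hj l hl'
  cases h : ori l with
  | true =>
    rw [contrib_pos (tau := tau l) htc (hx l hl').le (fun y hy => by
      have := ht l hl' y hy
      rwa [if_pos h] at this) hJ, if_pos rfl]
    rw [mul_left_comm (ee _), Complex.re_ofReal_mul]
    ring
  | false =>
    rw [contrib_neg (tau := tau l) htc (hc l hl') (hx l hl').le (fun y hy => by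
      have := ht l hl' y hy
      rwa [if_neg (by rw [h]; simp)] at this) hJ hj, if_neg (by simp), Complex.conj_re]
    rw [mul_left_comm (ee _), Complex.re_ofReal_mul]
    ring

end

end Crest.Agent.R075.Ana
end

-- ▼ part R075/AnaMain

/-!
Row 75 (helper20), THM A: the theorem `analysis`.
-/

set_option autoImplicit false

namespace Crest.Agent.R075.Ana

open MeasureTheory Set Real

noncomputable section

/-- the bound for one coefficient -/
theorem coef_bound {ε : ℝ} (hε : 0 ≤ ε) (Ti : Tiling ε) {P ze : ℝ} (hP : 0 ≤ P)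
    {A G : Fin Ti.m → ℝ} (hA : ∀ i, 0 ≤ A i ∧ A i ≤ P) (h1 : ∀ i i', i ≠ i' → A i = 0 ∨ A i' = 0)
    (k : ℤ) (X : ℕ → ℂ) (err : ℕ → ℝ)
    (hX : ∀ l < Ti.n, ‖X l - ((A (Ti.pc l) *
      Real.sqrt ((Ti.x (l + 1) - Ti.x l) / Ti.De (Ti.pc l)) : ℝ) : ℂ) *
        ee (Ti.al l + (Ti.x (l + 1) - Ti.x l) * G (Ti.pc l))‖ ≤ err l) :
    |∑ l ∈ Finset.range Ti.n,
      2 * (ee ((if Ti.ori l then Ti.x l else -Ti.x (l + 1)) * k) * X l).re| ≤
      P * (1 + ε) + ∑ l ∈ Finset.range Ti.n, 2 * err l := by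
  classical
  set sg : ℕ → ℝ := fun l => if Ti.ori l then Ti.x l else -Ti.x (l + 1) with hsg
  set M : ℕ → ℂ := fun l => ((A (Ti.pc l) *
      Real.sqrt ((Ti.x (l + 1) - Ti.x l) / Ti.De (Ti.pc l)) : ℝ) : ℂ) *
        ee (Ti.al l + (Ti.x (l + 1) - Ti.x l) * G (Ti.pc l)) with hM
  have e1 : ∑ l ∈ Finset.range Ti.n, 2 * (ee (sg l * k) * X l).re =
      (∑ l ∈ Finset.range Ti.n, 2 * (ee (sg l * k) * M l).re) +
        ∑ l ∈ Finset.range Ti.n, 2 * (ee (sg l * k) * (X l - M l)).re := by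
    rw [← Finset.sum_add_distrib]
    refine Finset.sum_congr rfl fun l _ => ?_
    rw [← mul_add, ← Complex.add_re, ← mul_add, add_sub_cancel]
  have e2 : |∑ l ∈ Finset.range Ti.n, 2 * (ee (sg l * k) * (X l - M l)).re| ≤
      ∑ l ∈ Finset.range Ti.n, 2 * err l := by
    refine (Finset.abs_sum_le_sum_abs _ _).trans (Finset.sum_le_sum fun l hl => ?_)
    rw [abs_mul, abs_two]
    refine mul_le_mul_of_nonneg_left ?_ zero_le_two
    refine (Complex.abs_re_le_norm _).trans ?_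
    rw [norm_mul, norm_ee, one_mul]
    exact hX l (Finset.mem_range.1 hl)
  have e3 : ∑ l ∈ Finset.range Ti.n, 2 * (ee (sg l * k) * M l).re =
      ∑ i, A i * (2 * ∑ l ∈ (Finset.range Ti.n).filter (fun l => Ti.pc l = i),
        Real.sqrt ((Ti.x (l + 1) - Ti.x l) / Ti.De i) *
          Real.cos (2 * Real.pi * (Ti.al l + (if Ti.ori l then Ti.x l else -Ti.x (l + 1)) * k
            + (Ti.x (l + 1) - Ti.x l) * G i))) := by
    rw [← Finset.sum_fiberwise (Finset.range Ti.n) Ti.pc]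
    refine Finset.sum_congr rfl fun i _ => ?_
    rw [Finset.mul_sum, Finset.mul_sum]
    refine Finset.sum_congr rfl fun l hl => ?_
    have hli : Ti.pc l = i := (Finset.mem_filter.1 hl).2
    rw [hM]
    simp only
    rw [hli, mul_left_comm (ee _), Complex.re_ofReal_mul, ← ee_add, ee_re]
    have : sg l * k + (Ti.al l + (Ti.x (l + 1) - Ti.x l) * G i) =
        Ti.al l + (if Ti.ori l then Ti.x l else -Ti.x (l + 1)) * k
            + (Ti.x (l + 1) - Ti.x l) * G i := by
      rw [hsg]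
      ring
    rw [this]
    ring
  have e4 : |∑ l ∈ Finset.range Ti.n, 2 * (ee (sg l * k) * M l).re| ≤ P * (1 + ε) := by
    rw [e3]
    exact one_window A _ hP (by linarith) hA (fun i => Ti.amp i k (G i)) h1
  rw [e1]
  exact (abs_add_le _ _).trans (add_le_add e4 e2)

/-- THM A -/
theorem analysis (hP : ∀ e : ℝ, 0 < e → Nonempty (Profile e)) (hV : V2)
    (hTil : ∀ e : ℝ, 0 < e → Nonempty (Tiling e)) {eps : ℝ} (heps : 0 < eps) :
    ∃ N0 : ℕ, ∀ N : ℕ, N0 ≤ N → ∃ c : ℕ → ℝ, (∀ k, |c k| ≤ 1 + eps) ∧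
      ∀ z : ℂ, ‖z‖ = 1 →
        |‖∑ k ∈ Finset.range N, ((c k : ℝ) : ℂ) * z ^ k‖ - Real.sqrt N| ≤
          eps * Real.sqrt N := by
  classical
  obtain ⟨Ti⟩ := hTil (eps / 3) (by positivity)
  set lam : ℕ → ℝ := fun l => Ti.x (l + 1) - Ti.x l with hlamdef
  have hlam : ∀ l < Ti.n, 0 < lam l := fun l hl => by
    have := Ti.x_lt l hl
    simp only [hlamdef]
    linarith
  set C1 : ℝ := ∑ l ∈ Finset.range Ti.n, 2 * Real.sqrt (lam l / Ti.De (Ti.pc l)) with hC1
  set C2 : ℝ := ∑ l ∈ Finset.range Ti.n, 24 * Real.sqrt (8 * lam l) with hC2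
  have hC10 : 0 ≤ C1 := Finset.sum_nonneg fun l _ => by positivity
  have hC20 : 0 ≤ C2 := Finset.sum_nonneg fun l _ => by positivity
  set e : ℝ := eps / 3 / (1 + eps / 3 + C1) with he
  have he0 : 0 < e := by positivity
  have he1 : e * (1 + eps / 3 + C1) = eps / 3 := by
    rw [he]
    field_simp
  obtain ⟨Pf⟩ := hP e he0
  set ze : ℝ := min (1 / 4) ((eps / (3 * (C2 + 1))) ^ 2) with hze
  have hze0 : 0 < ze := lt_min (by norm_num) (by positivity)
  have hze4 : ze ≤ 1 / 4 := min_le_left _ _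
  have hze2 : C2 * Real.sqrt ze ≤ eps / 3 := by
    have h1 : Real.sqrt ze ≤ eps / (3 * (C2 + 1)) := by
      rw [Real.sqrt_le_left (by positivity)]
      exact min_le_right _ _
    calc C2 * Real.sqrt ze ≤ (C2 + 1) * (eps / (3 * (C2 + 1))) :=
          mul_le_mul (by linarith) h1 (Real.sqrt_nonneg _) (by linarith)
      _ = eps / 3 := by field_simp
  obtain ⟨g, T, hg, hT1, hT2⟩ := windows Ti.De Ti.De_pos Ti.De_sum
  set eta : ℝ := min g (1 / 8) with heta
  have heta0 : 0 < eta := lt_min hg (by norm_num)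
  have heta8 : eta ≤ 1 / 8 := min_le_right _ _
  have hetag : eta ≤ g := min_le_left _ _
  have hband := fun (l : ℕ) (hl : l < Ti.n) =>
    band Pf hV (al := Ti.al l) (hlam l hl) hze0 hze4 (Ti.De_pos (Ti.pc l)) heta0 heta8
      (hetag.trans (hT1 (Ti.pc l)).1)
      ((hT1 (Ti.pc l)).2.trans (by linarith : 1 - g ≤ 1 - eta))
  choose! K N0 hKN using hband
  set Km : NNReal := ∑ l ∈ Finset.range Ti.n, K l with hKm
  have hKle : ∀ l < Ti.n, K l ≤ Km := fun l hl =>
    Finset.single_le_sum (f := K) (fun _ _ => bot_le) (Finset.mem_range.2 hl)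
  obtain ⟨N1, hN1⟩ := fourier Km eta eps heta0 heps
  refine ⟨max 1 (max N1 (∑ l ∈ Finset.range Ti.n, N0 l)), fun N hN => ?_⟩
  have hNpos : 1 ≤ N := (le_max_left _ _).trans hN
  have hNN1 : N1 ≤ N := ((le_max_left _ _).trans (le_max_right _ _)).trans hN
  have hNN0 : ∀ l < Ti.n, N0 l ≤ N := fun l hl =>
    ((Finset.single_le_sum (f := N0) (fun _ _ => Nat.zero_le _) (Finset.mem_range.2 hl)).trans
      ((le_max_right _ _).trans (le_max_right _ _))).trans hN
  have hNr : (0:ℝ) < N := by exact_mod_cast hNpos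
  have htau := fun (l : ℕ) (hl : l < Ti.n) => hKN l hl N (hNN0 l hl)
  choose! tau ta1 ta2 ta3 ta4 ta5 ta6 using htau
  obtain ⟨chi, hchi1, _, hchi3⟩ := hN1 N hNN1
  set f : ℕ → ℝ → ℝ := fun l y => if Ti.ori l then tau l (y - Ti.x l)
    else tau l (Ti.x (l + 1) - y) with hf
  have hf1 : ∀ l < Ti.n, LipschitzWith Km (f l) := by
    intro l hl
    refine LipschitzWith.of_dist_le_mul fun u v => ?_
    have hL := (ta1 l hl).weaken (hKle l hl)
    simp only [hf]
    split_ifs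
    · refine (hL.dist_le_mul _ _).trans (le_of_eq ?_)
      rw [Real.dist_eq, Real.dist_eq]
      congr 2
      ring
    · refine (hL.dist_le_mul _ _).trans (le_of_eq ?_)
      rw [Real.dist_eq, Real.dist_eq, ← abs_neg]
      congr 2
      ring
  have hf2 : ∀ l < Ti.n, f l (Ti.x l) = 1 / 2 := by
    intro l hl
    simp only [hf]
    split_ifs
    · rw [sub_self]; exact ta2 l hl
    · exact ta3 l hl
  have hf3 : ∀ l < Ti.n, f l (Ti.x (l + 1)) = 1 / 2 := by
    intro l hl
    simp only [hf]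
    split_ifs
    · exact ta3 l hl
    · rw [sub_self]; exact ta2 l hl
  have hf4 : ∀ l < Ti.n, ∀ y ∈ Icc (Ti.x l) (Ti.x (l + 1)), eta ≤ f l y ∧ f l y ≤ 1 - eta := by
    intro l hl y hy
    simp only [hf]
    split_ifs
    · exact ta4 l hl _ ⟨by linarith [hy.1], by simp only [hlamdef]; linarith [hy.2]⟩
    · exact ta4 l hl _ ⟨by linarith [hy.2], by simp only [hlamdef]; linarith [hy.1]⟩
  obtain ⟨t, ht1, _, ht3, ht4⟩ := glue_all (K := Km) (lo := eta) (hi := 1 - eta) Ti.x f Ti.n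
    Ti.x_lt (fun l hl => ⟨hf1 l hl, hf2 l hl, hf3 l hl, hf4 l hl⟩) (by linarith) (by linarith)
  obtain ⟨⟨J, hJ⟩, hck⟩ := ck_eq_sum (N := N) Ti.x_zero Ti.x_last Ti.x_lt ht1.continuous
    (fun l hl => (ta1 l hl).continuous) ht3 (fun l hl => ta5 l hl)
  have hbd : ∀ k : ℤ, |ck N t k| ≤ 1 + eps := by
    intro k
    rw [hck k]
    set A : Fin Ti.m → ℝ := fun i => Real.sqrt (1 - 2 * ze) * Real.sqrt Pf.kap *
      Pf.w (((k:ℝ) / N - T i) / Ti.De i) with hA
    set G : Fin Ti.m → ℝ := fun i => ze * k + (1 - 2 * ze) *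
      (N * Ti.De i * Pf.g (((k:ℝ) / N - T i) / Ti.De i)) with hG
    have hs1 : Real.sqrt (1 - 2 * ze) ≤ 1 := by
      rw [Real.sqrt_le_one]; linarith
    have hk0 : 0 ≤ Real.sqrt Pf.kap := Real.sqrt_nonneg _
    have hA1 : ∀ i, 0 ≤ A i ∧ A i ≤ Real.sqrt Pf.kap := by
      intro i
      have hw0 := Pf.w_nonneg (((k:ℝ) / N - T i) / Ti.De i)
      have hw1 := Pf.w_le (((k:ℝ) / N - T i) / Ti.De i)
      refine ⟨by positivity, ?_⟩
      calc A i ≤ 1 * Real.sqrt Pf.kap * 1 :=
            mul_le_mul (mul_le_mul_of_nonneg_right hs1 hk0) hw1 hw0 (by linarith)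
        _ = Real.sqrt Pf.kap := by ring
    have hA0 : ∀ i, A i ≠ 0 → T i ≤ (k:ℝ) / N ∧ (k:ℝ) / N ≤ T i + Ti.De i := by
      intro i hi
      by_contra hcon
      have hD := Ti.De_pos i
      apply hi
      have : Pf.w (((k:ℝ) / N - T i) / Ti.De i) = 0 := by
        apply Pf.w_off
        rw [not_and_or] at hcon
        rcases hcon with h | h
        · left
          exact div_neg_of_neg_of_pos (by linarith) hD
        · right
          rw [lt_div_iff₀ hD]
          linarith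
      simp only [hA]
      rw [this, mul_zero]
    have hA2 : ∀ i i', i ≠ i' → A i = 0 ∨ A i' = 0 := by
      intro i i' hne
      by_contra hcon
      rw [not_or] at hcon
      have h1 := hA0 i hcon.1
      have h2 := hA0 i' hcon.2
      rcases lt_or_gt_of_ne hne with h | h
      · have := hT2 i i' h
        linarith
      · have := hT2 i' i h
        linarith
    have hcb := coef_bound (ze := ze) (by positivity : (0:ℝ) ≤ eps / 3) Ti hk0 hA1 hA2 (G := G) k
      (fun l => ((Real.sqrt N : ℝ) : ℂ) *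
        ∫ s in (0:ℝ)..(Ti.x (l + 1) - Ti.x l), ee (k * s - N * ∫ r in (0:ℝ)..s, tau l r))
      (fun l => Real.sqrt (lam l / Ti.De (Ti.pc l)) * e + 12 * Real.sqrt (8 * (ze * lam l)))
      (fun l hl => ta6 l hl k)
    refine hcb.trans ?_
    have hsum : ∑ l ∈ Finset.range Ti.n, 2 * (Real.sqrt (lam l / Ti.De (Ti.pc l)) * e +
        12 * Real.sqrt (8 * (ze * lam l))) = e * C1 + C2 * Real.sqrt ze := by
      rw [hC1, hC2, Finset.mul_sum, Finset.sum_mul, ← Finset.sum_add_distrib]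
      refine Finset.sum_congr rfl fun l hl => ?_
      have h8 : (0:ℝ) ≤ 8 * lam l := by
        have := hlam l (Finset.mem_range.1 hl)
        positivity
      have : Real.sqrt (8 * (ze * lam l)) = Real.sqrt (8 * lam l) * Real.sqrt ze := by
        rw [← Real.sqrt_mul h8]
        congr 1
        ring
      rw [this]
      ring
    rw [hsum]
    have hkap : Real.sqrt Pf.kap ≤ 1 + e := by
      rw [Real.sqrt_le_left (by linarith)]
      nlinarith [Pf.le]
    have h3 : Real.sqrt Pf.kap * (1 + eps / 3) ≤ (1 + e) * (1 + eps / 3) :=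
      mul_le_mul_of_nonneg_right hkap (by positivity)
    nlinarith
  refine ⟨fun k => chi k * ck N t k, fun k => ?_, fun z hz => ?_⟩
  · rw [abs_mul, abs_of_nonneg (hchi1 k).1]
    calc chi k * |ck N t k| ≤ 1 * (1 + eps) :=
          mul_le_mul (hchi1 k).2 (hbd k) (abs_nonneg _) zero_le_one
      _ = 1 + eps := one_mul _
  · refine hchi3 t (ht1.lipschitzOnWith) (fun x hx => ht4 x ?_) ⟨2 * J, ?_⟩ z hz
    · rw [Ti.x_zero, Ti.x_last]; exact hx
    · rw [mul_assoc, hJ]
      push_cast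
      ring

end

end Crest.Agent.R075.Ana
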