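import Mathlib
import Crest.Agent.R075.Fold

-- ▼ part R075/Cells
section

/-!
# Row 75, THM D: the cells of `Z_{hQ}` (helper332)
-/

set_option autoImplicit false

namespace Crest.Agent.R075

open Finset

/-- combinatorial data of the design: blocks, base arcs, residues -/
structure CellData (ι Pc : Type) [Fintype ι] [DecidableEq ι] where
  L : ℕ
  l : ℕ
  L_odd : Odd L
  l_odd : Odd l
  t1 : ι → ℕ
  t1_pos : ∀ t, 0 < t1 t
  t1_dvd : ∀ t, t1 t ∣ L
  tau : ℕ → Option ι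
  tau_symm : ∀ B < l, ∀ t, tau B = some t → tau (l - 1 - B) = none
  s : Pc → ι → ℕ
  s_blk : ∀ i t, ∃ B < l, ∃ r < L, t1 t ∣ r ∧ s i t = L * B + r ∧ tau B = some t
  q : ι → ℕ
  q_odd : ∀ t, Odd (q t)
  v : Pc → ι → ℤ
  v_inj : ∀ t i i', s i t = s i' t → v i t ≡ v i' t [ZMOD q t] → i = i'

namespace CellData

variable {ι Pc : Type} [Fintype ι] [DecidableEq ι] (C : CellData ι Pc)

def h : ℕ := C.L * C.l

def Q : ℕ := ∏ t, C.q t

def D (t : ι) : ℕ := ∏ t' ∈ univ.erase t, C.q t'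

def M : ℕ := C.h * C.Q

def m : ℕ := (C.M - 1) / 2

lemma L_pos : 0 < C.L := C.L_odd.pos
lemma l_pos : 0 < C.l := C.l_odd.pos
lemma q_pos (t : ι) : 0 < C.q t := (C.q_odd t).pos

lemma Q_eq (t : ι) : C.Q = C.q t * C.D t := by
  unfold Q D
  rw [Finset.mul_prod_erase _ _ (mem_univ t)]

lemma Q_odd : Odd C.Q := by
  unfold Q
  apply Finset.prod_induction _ Odd (fun a b => Odd.mul) odd_one
  intro t _; exact C.q_odd t

lemma Q_pos : 0 < C.Q := C.Q_odd.pos

lemma D_odd (t : ι) : Odd (C.D t) := by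
  unfold D
  apply Finset.prod_induction _ Odd (fun a b => Odd.mul) odd_one
  intro t _; exact C.q_odd t

lemma D_pos (t : ι) : 0 < C.D t := (C.D_odd t).pos

lemma h_odd : Odd C.h := C.L_odd.mul C.l_odd
lemma h_pos : 0 < C.h := C.h_odd.pos
lemma M_odd : Odd C.M := C.h_odd.mul C.Q_odd
lemma M_pos : 0 < C.M := C.M_odd.pos

lemma M_eq : C.M = 2 * C.m + 1 := by
  obtain ⟨k, hk⟩ := C.M_odd
  unfold m; omega

/-- the residue mod `Q` of the high part -/
def hi (i : Pc) (t : ι) (j : ℕ) : ℕ := ((C.v i t + j * C.q t) % (C.Q : ℤ)).toNat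

def X (i : Pc) (t : ι) (j : ℕ) : ℕ := C.s i t + C.h * C.hi i t j

lemma hi_cast (i : Pc) (t : ι) (j : ℕ) :
    (C.hi i t j : ℤ) = (C.v i t + j * C.q t) % (C.Q : ℤ) := by
  unfold hi
  rw [Int.toNat_of_nonneg]
  exact Int.emod_nonneg _ (by have := C.Q_pos; omega)

lemma hi_lt (i : Pc) (t : ι) (j : ℕ) : C.hi i t j < C.Q := by
  have h1 := C.hi_cast i t j
  have h2 := Int.emod_lt_of_pos (C.v i t + j * C.q t) (b := (C.Q : ℤ)) (by have := C.Q_pos; omega)
  omega

lemma s_add_le (i : Pc) (t : ι) : C.s i t + C.t1 t ≤ C.h := by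
  obtain ⟨B, hB, r, hr, hd, hs, -⟩ := C.s_blk i t
  have h1 : r + C.t1 t ≤ C.L := by
    obtain ⟨a, ha⟩ := hd
    obtain ⟨b, hb⟩ := C.t1_dvd t
    have hpos := C.t1_pos t
    rw [ha, hb] at hr
    have : a < b := lt_of_mul_lt_mul_left hr (Nat.zero_le _)
    rw [ha, hb]
    calc C.t1 t * a + C.t1 t = C.t1 t * (a + 1) := by ring
      _ ≤ C.t1 t * b := Nat.mul_le_mul_left _ this
  have h2 : C.L * B + C.L ≤ C.L * C.l := by
    calc C.L * B + C.L = C.L * (B + 1) := by ring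
      _ ≤ C.L * C.l := Nat.mul_le_mul_left _ hB
  unfold h
  omega

lemma X_add_le (i : Pc) (t : ι) (j : ℕ) : C.X i t j + C.t1 t ≤ C.M := by
  have h1 := C.s_add_le i t
  have h2 := C.hi_lt i t j
  have h3 : C.h * C.hi i t j + C.h ≤ C.h * C.Q := by
    calc C.h * C.hi i t j + C.h = C.h * (C.hi i t j + 1) := by ring
      _ ≤ C.h * C.Q := Nat.mul_le_mul_left _ h2
  unfold X M
  omega

/-- `c` lies in the arc `(i,t,j)` -/
def InArc (i : Pc) (t : ι) (j : ℕ) (c : ℕ) : Prop := C.X i t j ≤ c ∧ c < C.X i t j + C.t1 t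

/-- information read off from a cell in an arc -/
lemma inArc_info {i : Pc} {t : ι} {j c : ℕ} (hc : C.InArc i t j c) :
    c % C.h = C.s i t + (c - C.X i t j) ∧ c / C.h = C.hi i t j ∧ c - C.X i t j < C.t1 t := by
  obtain ⟨h1, h2⟩ := hc
  have h3 := C.s_add_le i t
  have h4 : c = (C.s i t + (c - C.X i t j)) + C.h * C.hi i t j := by
    have : C.X i t j = C.s i t + C.h * C.hi i t j := rfl
    omega
  have h5 : C.s i t + (c - C.X i t j) < C.h := by omega
  refine ⟨?_, ?_, by omega⟩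
  · conv_lhs => rw [h4]
    rw [Nat.add_mul_mod_self_left, Nat.mod_eq_of_lt h5]
  · conv_lhs => rw [h4]
    rw [Nat.add_mul_div_left _ _ C.h_pos, Nat.div_eq_of_lt h5, zero_add]

lemma inArc_blk {i : Pc} {t : ι} {j c : ℕ} (hc : C.InArc i t j c) :
    C.tau (c % C.h / C.L) = some t ∧
      C.s i t = C.L * (c % C.h / C.L) + (c % C.h % C.L) / C.t1 t * C.t1 t := by
  obtain ⟨h1, h2, h3⟩ := C.inArc_info hc
  obtain ⟨B, hB, r, hr, hd, hs, ht⟩ := C.s_blk i t
  obtain ⟨a, ha⟩ := hd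
  obtain ⟨b, hb⟩ := C.t1_dvd t
  set o := c - C.X i t j with ho
  have hpos := C.t1_pos t
  have hlt : r + o < C.L := by
    rw [ha, hb] at hr
    have : a < b := lt_of_mul_lt_mul_left hr (Nat.zero_le _)
    rw [ha, hb]
    calc C.t1 t * a + o < C.t1 t * a + C.t1 t := by omega
      _ = C.t1 t * (a + 1) := by ring
      _ ≤ C.t1 t * b := Nat.mul_le_mul_left _ this
  have h4 : c % C.h = (r + o) + C.L * B := by rw [h1, hs]; ring
  have h5 : c % C.h / C.L = B := by
    rw [h4, Nat.add_mul_div_left _ _ C.L_pos, Nat.div_eq_of_lt hlt, zero_add]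
  have h6 : c % C.h % C.L = r + o := by
    rw [h4, Nat.add_mul_mod_self_left, Nat.mod_eq_of_lt hlt]
  refine ⟨by rw [h5]; exact ht, ?_⟩
  rw [h5, h6, hs, ha]
  have : (C.t1 t * a + o) / C.t1 t = a := by
    rw [add_comm, Nat.add_mul_div_left _ _ hpos, Nat.div_eq_of_lt h3, zero_add]
  rw [this]; ring

lemma arc_unique {i i' : Pc} {t t' : ι} {j j' c : ℕ} (hj : j < C.D t) (hj' : j' < C.D t')
    (hc : C.InArc i t j c) (hc' : C.InArc i' t' j' c) : i = i' ∧ t = t' ∧ j = j' := by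
  have h1 := C.inArc_blk hc
  have h2 := C.inArc_blk hc'
  have ht : t = t' := by
    have := h1.1.symm.trans h2.1
    exact Option.some_injective _ this
  subst ht
  have hs : C.s i t = C.s i' t := h1.2.trans h2.2.symm
  have h3 := (C.inArc_info hc).2.1
  have h4 := (C.inArc_info hc').2.1
  have h5 : C.hi i t j = C.hi i' t j' := h3.symm.trans h4
  have h6 : (C.v i t + j * C.q t) ≡ (C.v i' t + j' * C.q t) [ZMOD C.Q] := by
    have e1 := C.hi_cast i t j
    have e2 := C.hi_cast i' t j'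
    unfold Int.ModEq
    rw [← e1, ← e2, h5]
  have h7 : (C.v i t + j * C.q t) ≡ (C.v i' t + j' * C.q t) [ZMOD C.q t] := by
    apply Int.ModEq.of_dvd _ h6
    rw [C.Q_eq t]; push_cast; exact Dvd.intro _ rfl
  have h8 : C.v i t ≡ C.v i' t [ZMOD C.q t] := by
    have a1 : (C.v i t + j * C.q t) ≡ C.v i t [ZMOD C.q t] := by
      have : (j : ℤ) * C.q t ≡ 0 [ZMOD C.q t] := by
        rw [Int.modEq_zero_iff_dvd]; exact Dvd.intro_left _ rfl
      simpa using (Int.ModEq.refl (C.v i t)).add this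
    have a2 : (C.v i' t + j' * C.q t) ≡ C.v i' t [ZMOD C.q t] := by
      have : (j' : ℤ) * C.q t ≡ 0 [ZMOD C.q t] := by
        rw [Int.modEq_zero_iff_dvd]; exact Dvd.intro_left _ rfl
      simpa using (Int.ModEq.refl (C.v i' t)).add this
    exact a1.symm.trans (h7.trans a2)
  have hi : i = i' := C.v_inj t i i' hs h8
  subst hi
  refine ⟨rfl, rfl, ?_⟩
  have h9 : (j : ℤ) * C.q t ≡ j' * C.q t [ZMOD C.q t * C.D t] := by
    have : ((C.q t * C.D t : ℕ) : ℤ) = (C.q t : ℤ) * C.D t := by push_cast; ring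
    rw [← this, ← C.Q_eq t]
    exact Int.ModEq.add_left_cancel' _ h6
  have h10 : (j : ℤ) ≡ j' [ZMOD C.D t] := by
    have hq : (0:ℤ) < C.q t := by exact_mod_cast C.q_pos t
    rw [Int.modEq_iff_dvd] at h9 ⊢
    have : (j' : ℤ) * C.q t - j * C.q t = C.q t * (j' - j) := by ring
    rw [this] at h9
    exact (mul_dvd_mul_iff_left hq.ne').mp h9
  have h11 : j ≡ j' [MOD C.D t] := (Int.natCast_modEq_iff).mp h10
  exact Nat.ModEq.eq_of_lt_of_lt h11 hj hj'

lemma mirror_mod {c : ℕ} (hc : c < C.M) : (C.M - 1 - c) % C.h = C.h - 1 - c % C.h := by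
  have h1 := Nat.div_add_mod c C.h
  have h2 := Nat.mod_lt c C.h_pos
  have h3 : c / C.h < C.Q := by
    rw [Nat.div_lt_iff_lt_mul C.h_pos, mul_comm]; exact hc
  have h4 : C.M - 1 - c = (C.h - 1 - c % C.h) + C.h * (C.Q - 1 - c / C.h) := by
    have e1 : C.h * (C.Q - 1 - c / C.h) + C.h * (c / C.h) + C.h = C.h * C.Q := by
      have : C.Q = (C.Q - 1 - c / C.h) + c / C.h + 1 := by omega
      conv_rhs => rw [this]
      ring
    have e2 : C.M = C.h * C.Q := rfl
    omega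
  rw [h4, Nat.add_mul_mod_self_left, Nat.mod_eq_of_lt]
  have := C.h_pos
  omega

lemma mirror_blk {x : ℕ} (hx : x < C.h) : (C.h - 1 - x) / C.L = C.l - 1 - x / C.L := by
  have h1 := Nat.div_add_mod x C.L
  have h2 := Nat.mod_lt x C.L_pos
  have h3 : x / C.L < C.l := by
    rw [Nat.div_lt_iff_lt_mul C.L_pos, mul_comm]; exact hx
  have h4 : C.h - 1 - x = (C.L - 1 - x % C.L) + C.L * (C.l - 1 - x / C.L) := by
    have e1 : C.L * (C.l - 1 - x / C.L) + C.L * (x / C.L) + C.L = C.L * C.l := by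
      have : C.l = (C.l - 1 - x / C.L) + x / C.L + 1 := by omega
      conv_rhs => rw [this]
      ring
    have e2 : C.h = C.L * C.l := rfl
    omega
  rw [h4, Nat.add_mul_div_left _ _ C.L_pos, Nat.div_eq_of_lt, zero_add]
  have := C.L_pos
  omega

lemma no_mirror {i i' : Pc} {t t' : ι} {j j' c : ℕ}
    (hc : C.InArc i t j c) (hc' : C.InArc i' t' j' (C.M - 1 - c)) : False := by
  have hcM : c < C.M := by
    have := C.X_add_le i t j
    have := hc.2
    omega
  have h1 := (C.inArc_blk hc).1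
  have h2 := (C.inArc_blk hc').1
  have h3 : c % C.h < C.h := Nat.mod_lt _ C.h_pos
  rw [C.mirror_mod hcM, C.mirror_blk h3] at h2
  have h4 : c % C.h / C.L < C.l := by
    rw [Nat.div_lt_iff_lt_mul C.L_pos, mul_comm]; exact h3
  rw [C.tau_symm _ h4 t h1] at h2
  exact absurd h2 (by simp)

/-- start of the folded arc -/
def F (i : Pc) (t : ι) (j : ℕ) : ℕ :=
  if C.X i t j + C.t1 t ≤ C.m then C.X i t j else C.M - C.X i t j - C.t1 t

lemma not_mid {i : Pc} {t : ι} {j : ℕ} : ¬ C.InArc i t j C.m := by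
  intro hc
  apply C.no_mirror hc (i' := i) (t' := t) (j' := j)
  have := C.M_eq
  have h1 : C.M - 1 - C.m = C.m := by omega
  rw [h1]; exact hc

lemma F_cases (i : Pc) (t : ι) (j : ℕ) :
    (C.X i t j + C.t1 t ≤ C.m ∧ C.F i t j = C.X i t j) ∨
    (C.m < C.X i t j ∧ C.F i t j = C.M - C.X i t j - C.t1 t) := by
  unfold F
  split_ifs with h1
  · exact Or.inl ⟨h1, rfl⟩
  · refine Or.inr ⟨?_, rfl⟩
    have h2 := C.not_mid (i := i) (t := t) (j := j)
    unfold InArc at h2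
    omega

lemma F_add_le (i : Pc) (t : ι) (j : ℕ) : C.F i t j + C.t1 t ≤ C.m := by
  have h0 := C.X_add_le i t j
  have h1 := C.M_eq
  rcases C.F_cases i t j with ⟨h2, h3⟩ | ⟨h2, h3⟩ <;> rw [h3] <;> omega

lemma inF {i : Pc} {t : ι} {j c : ℕ} (h1 : C.F i t j ≤ c) (h2 : c < C.F i t j + C.t1 t) :
    C.InArc i t j c ∨ C.InArc i t j (C.M - 1 - c) := by
  have h0 := C.X_add_le i t j
  have hM := C.M_eq
  rcases C.F_cases i t j with ⟨h3, h4⟩ | ⟨h3, h4⟩
  · left; rw [h4] at h1 h2; exact ⟨h1, h2⟩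
  · right
    rw [h4] at h1 h2
    unfold InArc
    omega

lemma F_unique {i i' : Pc} {t t' : ι} {j j' c : ℕ} (hj : j < C.D t) (hj' : j' < C.D t')
    (h1 : C.F i t j ≤ c) (h2 : c < C.F i t j + C.t1 t)
    (h1' : C.F i' t' j' ≤ c) (h2' : c < C.F i' t' j' + C.t1 t') :
    i = i' ∧ t = t' ∧ j = j' := by
  have hcm : c < C.m := by have := C.F_add_le i t j; omega
  have hM := C.M_eq
  have hcc : C.M - 1 - (C.M - 1 - c) = c := by omega
  rcases C.inF h1 h2 with a | a <;> rcases C.inF h1' h2' with b | b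
  · exact C.arc_unique hj hj' a b
  · exact (C.no_mirror a b).elim
  · exact (C.no_mirror b a).elim
  · exact C.arc_unique hj hj' a b

end CellData

end Crest.Agent.R075
end

-- ▼ part R075/CellTiling
section

/-!
# Row 75, THM D: from `CellData` and the amplitude bound to the `Tiling` (helper332)
-/

set_option autoImplicit false

namespace Crest.Agent.R075

open Finset

lemma sum_len_eq {I : Type} [Fintype I] (M : ℕ) (st len : I → ℕ) (hle : ∀ i, st i + len i ≤ M)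
    (hcov : ∀ c < M, ∃! i, st i ≤ c ∧ c < st i + len i) : ∑ i, len i = M := by
  classical
  have h1 : ∀ i, len i = ∑ c ∈ range M, if (st i ≤ c ∧ c < st i + len i) then 1 else 0 := by
    intro i
    rw [Finset.sum_boole]
    have : (range M).filter (fun c => st i ≤ c ∧ c < st i + len i) = Finset.Ico (st i) (st i + len i) := by
      ext c
      simp only [mem_filter, mem_range, mem_Ico]
      have := hle i
      omega
    rw [this]; simp
  have h2 : ∑ i, len i = ∑ i, ∑ c ∈ range M, if (st i ≤ c ∧ c < st i + len i) then 1 else 0 :=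
    Finset.sum_congr rfl (fun i _ => h1 i)
  rw [h2, Finset.sum_comm]
  have h3 : ∀ c ∈ range M, (∑ i : I, if (st i ≤ c ∧ c < st i + len i) then 1 else 0) = 1 := by
    intro c hc
    obtain ⟨i0, hi0, hu⟩ := hcov c (mem_range.mp hc)
    rw [Finset.sum_boole]
    have : (univ.filter fun i => st i ≤ c ∧ c < st i + len i) = {i0} := by
      ext i
      simp only [mem_filter, mem_univ, true_and, mem_singleton]
      exact ⟨fun h => hu i h, fun h => by rw [h]; exact hi0⟩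
    rw [this]; simp
  rw [Finset.sum_congr rfl h3]
  simp

namespace CellData

variable {ι Pc : Type} [Fintype ι] [DecidableEq ι] (C : CellData ι Pc)

/-- arcs -/
abbrev Arc : Type := Pc × (Σ t : ι, Fin (C.D t))

def aSt (a : C.Arc) : ℕ := 2 * C.F a.1 a.2.1 a.2.2
def aLen (a : C.Arc) : ℕ := 2 * C.t1 a.2.1

/-- uncovered half cells -/
abbrev Unc : Type := {c : Fin C.M // ∀ a : C.Arc, ¬ (C.aSt a ≤ c ∧ (c : ℕ) < C.aSt a + C.aLen a)}

def tSt : C.Arc ⊕ C.Unc → ℕ := Sum.elim C.aSt (fun u => u.1)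
def tLen : C.Arc ⊕ C.Unc → ℕ := Sum.elim C.aLen (fun _ => 1)

lemma tLen_pos (i : C.Arc ⊕ C.Unc) : 1 ≤ C.tLen i := by
  rcases i with a | u
  · have := C.t1_pos a.2.1
    simp only [tLen, Sum.elim_inl, aLen]; omega
  · simp [tLen]

lemma t_le (i : C.Arc ⊕ C.Unc) : C.tSt i + C.tLen i ≤ C.M := by
  rcases i with a | u
  · have := C.F_add_le a.1 a.2.1 a.2.2
    have := C.M_eq
    simp only [tLen, tSt, Sum.elim_inl, aLen, aSt]; omega
  · have := u.1.2
    simp only [tLen, tSt, Sum.elim_inr]; omega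

lemma arc_ext {a b : C.Arc} {c : ℕ} (h1 : C.aSt a ≤ c ∧ c < C.aSt a + C.aLen a)
    (h2 : C.aSt b ≤ c ∧ c < C.aSt b + C.aLen b) : a = b := by
  obtain ⟨i, ⟨t, j⟩⟩ := a
  obtain ⟨i', ⟨t', j'⟩⟩ := b
  simp only [aSt, aLen] at h1 h2
  have := C.F_unique (c := c / 2) j.2 j'.2 (by omega) (by omega) (by omega) (by omega)
    (i := i) (i' := i')
  obtain ⟨e1, e2, e3⟩ := this
  subst e1; subst e2
  have : j = j' := Fin.ext e3
  subst this
  rfl

lemma t_cov (c : ℕ) (hc : c < C.M) : ∃! i : C.Arc ⊕ C.Unc, C.tSt i ≤ c ∧ c < C.tSt i + C.tLen i := by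
  by_cases h : ∃ a : C.Arc, C.aSt a ≤ c ∧ c < C.aSt a + C.aLen a
  · obtain ⟨a, ha⟩ := h
    refine ⟨Sum.inl a, ha, ?_⟩
    rintro (b | u) hb
    · have := C.arc_ext ha hb
      rw [this]
    · exfalso
      simp only [tSt, tLen, Sum.elim_inr] at hb
      have hcu : c = (u.1 : ℕ) := by omega
      exact u.2 a (by rw [← hcu]; exact ha)
  · push Not at h
    refine ⟨Sum.inr ⟨⟨c, hc⟩, fun a ha => ?_⟩, ?_, ?_⟩
    · have := h a ha.1
      have := ha.2
      simp only at this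
      omega
    · simp [tSt, tLen]
    · rintro (b | u) hb
      · have h1 := h b hb.1
        have h2 : c < C.aSt b + C.aLen b := hb.2
        omega
      · simp only [tSt, tLen, Sum.elim_inr] at hb
        have hcu : c = (u.1 : ℕ) := by omega
        congr 1
        apply Subtype.ext
        apply Fin.ext
        exact hcu.symm

def tOri : C.Arc ⊕ C.Unc → Bool :=
  Sum.elim (fun a => decide (C.X a.1 a.2.1 a.2.2 + C.t1 a.2.1 ≤ C.m)) (fun _ => true)

lemma theta_eq (i : Pc) (t : ι) (j : Fin (C.D t)) :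
    ∃ z : ℤ, (if C.tOri (Sum.inl (i, ⟨t, j⟩)) then (C.tSt (Sum.inl (i, ⟨t, j⟩)) : ℝ) / (2 * C.M)
            else -(((C.tSt (Sum.inl (i, ⟨t, j⟩)) : ℝ) + C.tLen (Sum.inl (i, ⟨t, j⟩))) / (2 * C.M)))
      = ((C.s i t : ℝ) + C.h * C.v i t + C.h * C.q t * (j : ℕ)) / C.M + z := by
  have hM : (0:ℝ) < C.M := by exact_mod_cast C.M_pos
  have hX : (C.X i t j : ℝ) / C.M = ((C.s i t : ℝ) + C.h * C.v i t + C.h * C.q t * (j : ℕ)) / C.M
      - (((C.v i t + (j : ℕ) * C.q t) / (C.Q : ℤ) : ℤ) : ℝ) := by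
    have e1 := C.hi_cast i t j
    have e2 := Int.emod_add_mul_ediv (C.v i t + (j : ℕ) * C.q t) (C.Q : ℤ)
    rw [← e1] at e2
    have e3 : (C.hi i t j : ℝ) + C.Q * (((C.v i t + (j : ℕ) * C.q t) / (C.Q : ℤ) : ℤ) : ℝ)
        = C.v i t + (j : ℕ) * C.q t := by exact_mod_cast e2
    have e4 : (C.X i t j : ℝ) = C.s i t + C.h * C.hi i t j := by
      unfold X; push_cast; ring
    have e5 : (C.M : ℝ) = C.h * C.Q := by unfold M; push_cast; ring
    rw [eq_sub_iff_add_eq, div_add' _ _ _ hM.ne', e4]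
    congr 1
    have e6 : (C.hi i t j : ℝ) = C.v i t + (j : ℕ) * C.q t
      - C.Q * (((C.v i t + (j : ℕ) * C.q t) / (C.Q : ℤ) : ℤ) : ℝ) := by linarith
    rw [e6, e5]; ring
  rcases C.F_cases i t j with ⟨h1, h2⟩ | ⟨h1, h2⟩
  · refine ⟨-((C.v i t + (j : ℕ) * C.q t) / (C.Q : ℤ)), ?_⟩
    have : C.tOri (Sum.inl (i, ⟨t, j⟩)) = true := by simp [tOri, h1]
    rw [this, if_pos rfl]
    have e : (C.tSt (Sum.inl (i, ⟨t, j⟩)) : ℝ) = 2 * C.X i t j := by
      simp only [tSt, Sum.elim_inl, aSt, h2]; push_cast; ring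
    rw [e, mul_div_mul_left _ _ (by norm_num : (2:ℝ) ≠ 0), hX]
    push_cast; ring
  · refine ⟨-((C.v i t + (j : ℕ) * C.q t) / (C.Q : ℤ)) - 1, ?_⟩
    have : C.tOri (Sum.inl (i, ⟨t, j⟩)) = false := by
      simp [tOri]; omega
    rw [this, if_neg (by simp)]
    have hle := C.X_add_le i t j
    have e : (C.tSt (Sum.inl (i, ⟨t, j⟩)) : ℝ) + C.tLen (Sum.inl (i, ⟨t, j⟩)) = 2 * (C.M - C.X i t j) := by
      have : C.tSt (Sum.inl (i, ⟨t, j⟩)) + C.tLen (Sum.inl (i, ⟨t, j⟩)) + 2 * C.X i t j = 2 * C.M := by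
        simp only [tSt, tLen, Sum.elim_inl, aSt, aLen, h2]; omega
      have h3 : ((C.tSt (Sum.inl (i, ⟨t, j⟩)) + C.tLen (Sum.inl (i, ⟨t, j⟩)) + 2 * C.X i t j : ℕ) : ℝ)
        = ((2 * C.M : ℕ) : ℝ) := by rw [this]
      push_cast at h3
      linarith
    rw [e, mul_div_mul_left _ _ (by norm_num : (2:ℝ) ≠ 0)]
    have : -(((C.M : ℝ) - C.X i t j) / C.M) = C.X i t j / C.M - 1 := by
      field_simp; ring
    rw [this, hX]
    push_cast; ring

end CellData

theorem tiling_of_cells (henum : EnumTiles) {ι Pc : Type} [Fintype ι] [DecidableEq ι] [Fintype Pc]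
    [DecidableEq Pc] (C : CellData ι Pc) (ε : ℝ) (hε : 0 ≤ ε) (De : ℝ) (hDe : 0 < De)
    (htime : Fintype.card Pc * De
      + 2 * (1 - 2 * Fintype.card Pc * ∑ t, (C.t1 t : ℝ) / (C.h * C.q t)) < 1)
    (al : ι → ℕ → ℝ)
    (amp : ∀ (i : Pc) (k : ℤ) (G : ℝ),
      |2 * ∑ t, ∑ j ∈ range (C.D t), Real.sqrt (((C.t1 t : ℝ) / C.M) / De) *
        Real.cos (2 * Real.pi * (al t j
          + (((C.s i t : ℝ) + C.h * C.v i t + C.h * C.q t * j) / C.M) * k
          + ((C.t1 t : ℝ) / C.M) * G))| ≤ 1 + ε) :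
    Nonempty (Tiling ε) := by
  classical
  have hM : (0:ℝ) < C.M := by exact_mod_cast C.M_pos
  refine tiling_of_index henum (I := C.Arc ⊕ C.Unc) (K := Pc ⊕ C.Unc) C.M C.M_pos C.tSt C.tLen
    C.tLen_pos C.t_le C.t_cov (Sum.map (fun a => a.1) id) C.tOri
    (Sum.elim (fun a => al a.2.1 a.2.2) (fun _ => 0))
    (Sum.elim (fun _ => De) (fun _ => 4 / (2 * C.M))) ?_ ?_ ε ?_
  · rintro (i | u)
    · simpa using hDe
    · simp only [Sum.elim_inr]; positivity
  · -- total time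
    rw [Fintype.sum_sum_type]
    simp only [Sum.elim_inl, Sum.elim_inr, Finset.sum_const, Finset.card_univ, nsmul_eq_mul]
    have hlen := sum_len_eq C.M C.tSt C.tLen C.t_le C.t_cov
    rw [Fintype.sum_sum_type] at hlen
    simp only [CellData.tLen, Sum.elim_inl, Sum.elim_inr, Finset.sum_const, Finset.card_univ,
      smul_eq_mul, mul_one] at hlen
    have h1 : ∑ a : C.Arc, C.aLen a = Fintype.card Pc * ∑ t, C.D t * (2 * C.t1 t) := by
      rw [Fintype.sum_prod_type]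
      simp only [CellData.aLen]
      rw [Finset.sum_const, Finset.card_univ, smul_eq_mul]
      congr 1
      rw [Fintype.sum_sigma]
      apply Finset.sum_congr rfl
      intro t _
      simp
    rw [h1] at hlen
    have h2 : (Fintype.card Pc : ℝ) * ∑ t, (C.D t : ℝ) * (2 * C.t1 t) + Fintype.card C.Unc = C.M := by
      exact_mod_cast hlen
    have h3 : ∀ t, (C.t1 t : ℝ) / (C.h * C.q t) = (C.D t : ℝ) * C.t1 t / C.M := by
      intro t
      have e1 : (C.M : ℝ) = C.h * (C.q t * C.D t) := by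
        have : C.M = C.h * (C.q t * C.D t) := by unfold CellData.M; rw [← C.Q_eq t]
        rw [this]; push_cast; ring
      have e2 : (0:ℝ) < C.h := by exact_mod_cast C.h_pos
      have e3 : (0:ℝ) < C.q t := by exact_mod_cast C.q_pos t
      have e4 : (0:ℝ) < C.D t := by exact_mod_cast C.D_pos t
      rw [e1]
      field_simp
    have h4 : ∑ t, (C.t1 t : ℝ) / (C.h * C.q t) = (∑ t, (C.D t : ℝ) * C.t1 t) / C.M := by
      rw [Finset.sum_div]
      exact Finset.sum_congr rfl (fun t _ => h3 t)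
    have h5 : ∑ t, (C.D t : ℝ) * (2 * C.t1 t) = 2 * ∑ t, (C.D t : ℝ) * C.t1 t := by
      rw [Finset.mul_sum]
      apply Finset.sum_congr rfl; intro t _; ring
    rw [h5] at h2
    rw [h4] at htime
    have h6 : (Fintype.card C.Unc : ℝ) * (4 / (2 * C.M))
        = 2 * (1 - 2 * Fintype.card Pc * ((∑ t, (C.D t : ℝ) * C.t1 t) / C.M)) := by
      have : (Fintype.card C.Unc : ℝ) = C.M - (Fintype.card Pc : ℝ) * (2 * ∑ t, (C.D t : ℝ) * C.t1 t) := by
        linarith
      rw [this]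
      field_simp
      ring
    rw [h6]
    exact htime
  · rintro (i | u) k G
    · -- a piece of the design
      have key := amp i k G
      convert key using 3
      rw [Finset.sum_filter, Fintype.sum_sum_type]
      simp only [Sum.map_inl, Sum.map_inr, Sum.inl.injEq, reduceCtorEq, if_false,
        Finset.sum_const_zero, add_zero, Sum.elim_inl]
      rw [Fintype.sum_prod_type]
      rw [Finset.sum_eq_single i]
      · simp only [↓reduceIte]
        rw [Fintype.sum_sigma]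
        apply Finset.sum_congr rfl
        intro t _
        rw [Finset.sum_range]
        apply Finset.sum_congr rfl
        intro j _
        obtain ⟨z, hz⟩ := C.theta_eq i t j
        rw [hz]
        have e1 : (C.tLen (Sum.inl (i, ⟨t, j⟩)) : ℝ) / (2 * C.M) = (C.t1 t : ℝ) / C.M := by
          simp only [CellData.tLen, Sum.elim_inl, CellData.aLen]
          push_cast
          rw [mul_div_mul_left _ _ (by norm_num : (2:ℝ) ≠ 0)]
        rw [e1]
        congr 1
        have : 2 * Real.pi * (al t j + (((C.s i t : ℝ) + C.h * C.v i t + C.h * C.q t * (j : ℕ)) / C.M + z) * k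
            + (C.t1 t : ℝ) / C.M * G)
          = 2 * Real.pi * (al t j + (((C.s i t : ℝ) + C.h * C.v i t + C.h * C.q t * (j : ℕ)) / C.M) * k
            + (C.t1 t : ℝ) / C.M * G) + ((z * k : ℤ) : ℝ) * (2 * Real.pi) := by
          push_cast; ring
        rw [this, Real.cos_add_int_mul_two_pi]
      · intro b _ hb
        simp [hb]
      · intro h; exact absurd (mem_univ i) h
    · -- a single half cell
      have hf : (univ.filter fun a : C.Arc ⊕ C.Unc => Sum.map (fun a => a.1) id a = (Sum.inr u : Pc ⊕ C.Unc))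
          = {Sum.inr u} := by
        ext a
        rcases a with a | a <;> simp
      rw [hf, Finset.sum_singleton]
      simp only [CellData.tLen, Sum.elim_inr]
      have e1 : (((1:ℕ) : ℝ) / (2 * C.M)) / (4 / (2 * C.M)) = (1/2) ^ 2 := by
        push_cast; field_simp; norm_num
      rw [e1, Real.sqrt_sq (by norm_num), abs_mul, abs_mul]
      have := Real.abs_cos_le_one (2 * Real.pi * (0 + (if C.tOri (Sum.inr u) = true then (C.tSt (Sum.inr u) : ℝ) / (2 * C.M)
            else -(((C.tSt (Sum.inr u) : ℝ) + ((1:ℕ) : ℝ)) / (2 * C.M))) * k + (((1:ℕ) : ℝ) / (2 * C.M)) * G))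
      rw [abs_of_pos (by norm_num : (0:ℝ) < 2), abs_of_pos (by norm_num : (0:ℝ) < 1/2)]
      linarith

end Crest.Agent.R075
end

-- ▼ part R075/Residues
section

open Finset

namespace Crest.Agent.R075

/-- Residues: a common integer shift `a i` making all affine residues distinct inside each class. -/
theorem exists_residues {ι W : Type} [Fintype ι] [DecidableEq ι] [Fintype W] [DecidableEq W]
    (kap : ℕ) (s : W → ι → ℕ) (q : ι → ℕ) (hq : ∀ t, 0 < q t)
    (hcop : ∀ t t2, t ≠ t2 → Nat.Coprime (q t) (q t2)) (t1 : ι → ℕ)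
    (ht1 : ∀ t, Nat.Coprime (t1 t) (q t))
    (hload : ∀ t (x : ℕ), kap * (univ.filter fun w => s w t = x).card ≤ q t)
    (V0 : W → ι → ℤ) :
    ∃ a : W × Fin kap → ℤ, ∀ t (i i2 : W × Fin kap), s i.1 t = s i2.1 t →
      V0 i.1 t + t1 t * a i ≡ V0 i2.1 t + t1 t * a i2 [ZMOD q t] → i = i2 := by
  classical
  -- injections on the classes
  have hinj : ∀ (t : ι) (x : ℕ), ∃ g : {i : W × Fin kap // s i.1 t = x} → Fin (q t),
      Function.Injective g := by
    intro t x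
    have hcard : Fintype.card {i : W × Fin kap // s i.1 t = x} ≤ Fintype.card (Fin (q t)) := by
      rw [Fintype.card_fin, Fintype.card_subtype]
      have h1 : (univ.filter fun i : W × Fin kap => s i.1 t = x)
          = (univ.filter fun w : W => s w t = x) ×ˢ (univ : Finset (Fin kap)) := by
        ext i
        simp
      rw [h1, Finset.card_product, Finset.card_univ, Fintype.card_fin, mul_comm]
      exact hload t x
    obtain ⟨g⟩ := Function.Embedding.nonempty_of_card_le hcard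
    exact ⟨g, g.injective⟩
  choose g hg using hinj
  let r : ι → W × Fin kap → ℕ := fun t i => (g t (s i.1 t) ⟨i, rfl⟩ : Fin (q t)).1
  have hr : ∀ t i, r t i < q t := fun t i => (g t (s i.1 t) ⟨i, rfl⟩).2
  have hrinj : ∀ t (i i2 : W × Fin kap), s i.1 t = s i2.1 t → r t i = r t i2 → i = i2 := by
    intro t i i2 hs h
    have key : ∀ (x : ℕ) (h1 : s i.1 t = x) (h2 : s i2.1 t = x),
        (g t x ⟨i, h1⟩).1 = (g t x ⟨i2, h2⟩).1 → i = i2 := by
      intro x h1 h2 h3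
      have := hg t x (Fin.ext h3)
      exact congrArg (fun z => z.1) this
    apply key (s i2.1 t) hs rfl
    have e1 : (g t (s i2.1 t) ⟨i, hs⟩).1 = (g t (s i.1 t) ⟨i, rfl⟩).1 := by
      have : ∀ (x : ℕ) (h1 : s i.1 t = x), (g t x ⟨i, h1⟩).1 = (g t (s i.1 t) ⟨i, rfl⟩).1 := by
        intro x h1
        subst h1
        rfl
      exact this _ hs
    rw [e1]
    exact h
  -- chinese remainder
  have hne : ∀ t, NeZero (q t) := fun t => ⟨(hq t).ne'⟩
  have hcrt : ∀ i : W × Fin kap, ∃ k : ℕ, ∀ t, (V0 i.1 t : ZMod (q t)) + (t1 t : ZMod (q t)) * (k : ZMod (q t))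
      = (r t i : ZMod (q t)) := by
    intro i
    let b : ι → ℕ := fun t =>
      haveI := hne t
      (((t1 t : ZMod (q t))⁻¹ * ((r t i : ZMod (q t)) - (V0 i.1 t : ZMod (q t)))).val)
    obtain ⟨k, hk⟩ := Nat.chineseRemainderOfFinset b q univ (fun t _ => (hq t).ne')
      (fun t _ t2 _ h => hcop t t2 h)
    refine ⟨k, fun t => ?_⟩
    have := hne t
    have h1 : (k : ZMod (q t)) = (b t : ZMod (q t)) :=
      (ZMod.natCast_eq_natCast_iff _ _ _).2 (hk t (mem_univ t))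
    have h2 : (b t : ZMod (q t)) = (t1 t : ZMod (q t))⁻¹ * ((r t i : ZMod (q t)) - (V0 i.1 t : ZMod (q t))) := by
      exact ZMod.natCast_zmod_val _
    have h3 : (t1 t : ZMod (q t)) * (t1 t : ZMod (q t))⁻¹ = 1 := ZMod.coe_mul_inv_eq_one _ (ht1 t)
    rw [h1, h2, ← mul_assoc, h3, one_mul]
    ring
  choose k hk using hcrt
  refine ⟨fun i => (k i : ℤ), ?_⟩
  intro t i i2 hs h
  apply hrinj t i i2 hs
  have h1 : ((V0 i.1 t + t1 t * (k i : ℤ) : ℤ) : ZMod (q t)) = ((V0 i2.1 t + t1 t * (k i2 : ℤ) : ℤ) : ZMod (q t)) :=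
    (ZMod.intCast_eq_intCast_iff _ _ _).2 h
  push_cast at h1
  rw [hk i t, hk i2 t] at h1
  have h2 := (ZMod.natCast_eq_natCast_iff _ _ _).1 h1
  exact Nat.ModEq.eq_of_lt_of_lt h2 (hr t i) (hr t i2)

end Crest.Agent.R075
end

-- ▼ part R075/DesignData
section

/-!
# Row 75, THM D: from the packing lemma to `CellData` (helper332)
-/

set_option autoImplicit false

namespace Crest.Agent.R075

open Finset

/-- block of the line `t` of the piece `g = (w, rho)` (774's `blk`) -/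
def pblk {R : ℕ} (l L : ℕ) (t : Fin (R+1) → ℤ) (g : (Fin (R+1) → ZMod l) × ℕ) : ZMod l :=
  (∑ i, (t i : ZMod l) * g.1 i) + ((t 0 * g.2 / L : ℤ) : ZMod l)

/-- the integer vector `u` of a piece -/
def uu {R : ℕ} (l L : ℕ) (g : (Fin (R+1) → ZMod l) × ℕ) (i : Fin (R+1)) : ℤ :=
  L * ((g.1 i).val : ℤ) + (if i = 0 then (g.2 : ℤ) else 0)

/-- block number as an integer -/
def NN {R : ℕ} (l L : ℕ) (t : Fin (R+1) → ℤ) (g : (Fin (R+1) → ZMod l) × ℕ) : ℤ :=
  (∑ i, t i * ((g.1 i).val : ℤ)) + t 0 * g.2 / L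

def sS {R : ℕ} (l L : ℕ) (t : Fin (R+1) → ℤ) (g : (Fin (R+1) → ZMod l) × ℕ) : ℕ :=
  L * (NN l L t g % l).toNat + (t 0 * g.2 % L).toNat

lemma NN_cast {R : ℕ} (l L : ℕ) [NeZero l] (t : Fin (R+1) → ℤ) (g : (Fin (R+1) → ZMod l) × ℕ) :
    ((NN l L t g : ℤ) : ZMod l) = pblk l L t g := by
  unfold NN pblk
  push_cast
  congr 1
  apply Finset.sum_congr rfl
  intro i _
  congr 1
  exact ZMod.natCast_zmod_val (g.1 i)

lemma NNmod_cast {R : ℕ} (l L : ℕ) [NeZero l] (t : Fin (R+1) → ℤ) (g : (Fin (R+1) → ZMod l) × ℕ) :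
    (((NN l L t g % l).toNat : ℕ) : ZMod l) = pblk l L t g := by
  rw [← NN_cast]
  have hl : (0:ℤ) < l := by exact_mod_cast Nat.pos_of_ne_zero (NeZero.ne l)
  have h1 : (((NN l L t g % l).toNat : ℕ) : ℤ) = NN l L t g % l :=
    Int.toNat_of_nonneg (Int.emod_nonneg _ hl.ne')
  have h2 : (((NN l L t g % l).toNat : ℕ) : ZMod l) = ((((NN l L t g % l).toNat : ℕ) : ℤ) : ZMod l) := by
    push_cast; rfl
  rw [h2, h1]
  simp

lemma sum_uu {R : ℕ} (l L : ℕ) (hL : 0 < L) (hl : 0 < l) (t : Fin (R+1) → ℤ)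
    (g : (Fin (R+1) → ZMod l) × ℕ) :
    ∑ i, t i * uu l L g i = (sS l L t g : ℤ) + (L * l : ℕ) * (NN l L t g / l) := by
  have hL' : (0:ℤ) < L := by exact_mod_cast hL
  have hl' : (0:ℤ) < l := by exact_mod_cast hl
  have h1 : ∑ i, t i * uu l L g i = L * (∑ i, t i * ((g.1 i).val : ℤ)) + t 0 * g.2 := by
    unfold uu
    simp only [mul_add, Finset.sum_add_distrib]
    congr 1
    · rw [Finset.mul_sum]; apply Finset.sum_congr rfl; intro i _; ring
    · simp
  have h2 : (((NN l L t g % l).toNat : ℕ) : ℤ) = NN l L t g % l :=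
    Int.toNat_of_nonneg (Int.emod_nonneg _ hl'.ne')
  have h3 : (((t 0 * g.2 % L).toNat : ℕ) : ℤ) = t 0 * g.2 % L :=
    Int.toNat_of_nonneg (Int.emod_nonneg _ hL'.ne')
  unfold sS
  push_cast
  rw [h1, h2, h3]
  have h4 := Int.emod_add_mul_ediv (NN l L t g) l
  have h5 := Int.emod_add_mul_ediv (t 0 * g.2) L
  have h6 : NN l L t g = (∑ i, t i * ((g.1 i).val : ℤ)) + t 0 * g.2 / L := rfl
  calc (L:ℤ) * (∑ i, t i * ((g.1 i).val : ℤ)) + t 0 * g.2
      = L * (NN l L t g - t 0 * g.2 / L) + t 0 * g.2 := by rw [h6]; ring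
    _ = L * NN l L t g - L * (t 0 * g.2 / L) + (t 0 * g.2 % L + L * (t 0 * g.2 / L)) := by
        rw [h5]; ring
    _ = L * NN l L t g + t 0 * g.2 % L := by ring
    _ = L * (NN l L t g % l + l * (NN l L t g / l)) + t 0 * g.2 % L := by rw [h4]
    _ = _ := by ring

/-- data coming from the packing lemma and the torsion lemma -/
structure PackData (R : ℕ) where
  T : Finset (Fin (R+1) → ℤ)
  hpos : ∀ t ∈ T, 1 ≤ t 0
  L : ℕ
  l : ℕ
  L_odd : Odd L
  l_odd : Odd l
  hdvd : ∀ t ∈ T, t 0 ∣ (L : ℤ)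
  sigma : ZMod l → (Fin (R+1) → ℤ)
  hsigma : ∀ B, sigma (-1 - B) = - sigma B
  W : Finset ((Fin (R+1) → ZMod l) × ℕ)
  hW : ∀ g ∈ W, ∀ t ∈ T, sigma (pblk l L t g) = t
  kap : ℕ
  q : (Fin (R+1) → ℤ) → ℕ
  q_odd : ∀ t ∈ T, Odd (q t)
  q_cop : ∀ t ∈ T, ∀ t2 ∈ T, t ≠ t2 → Nat.Coprime (q t) (q t2)
  q_copL : ∀ t ∈ T, Nat.Coprime (t 0).toNat (q t)
  load : ∀ t ∈ T, ∀ (B : ZMod l) (r : ℤ),
    kap * (W.filter fun g => pblk l L t g = B ∧ t 0 * g.2 % L = r).card ≤ q t

namespace PackData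

variable {R : ℕ} (P : PackData R)

abbrev Ty : Type := {t : Fin (R+1) → ℤ // t ∈ P.T}
abbrev Wt : Type := {g : (Fin (R+1) → ZMod P.l) × ℕ // g ∈ P.W}

lemma L_pos : 0 < P.L := P.L_odd.pos
lemma l_pos : 0 < P.l := P.l_odd.pos

lemma exists_a : ∃ a : P.Wt × Fin P.kap → ℤ, ∀ (t : P.Ty) (i i2 : P.Wt × Fin P.kap),
    sS P.l P.L t.1 i.1.1 = sS P.l P.L t.1 i2.1.1 →
      (NN P.l P.L t.1 i.1.1 / P.l) + (t.1 0).toNat * a i
        ≡ (NN P.l P.L t.1 i2.1.1 / P.l) + (t.1 0).toNat * a i2 [ZMOD P.q t.1] → i = i2 := by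
  classical
  have : NeZero P.l := ⟨P.l_pos.ne'⟩
  have hL' : (0:ℤ) < P.L := by exact_mod_cast P.L_pos
  have hl' : (0:ℤ) < P.l := by exact_mod_cast P.l_pos
  apply exists_residues P.kap (fun (w : P.Wt) (t : P.Ty) => sS P.l P.L t.1 w.1) (fun t => P.q t.1)
    (fun t => (P.q_odd t.1 t.2).pos)
    (fun t t2 h => P.q_cop t.1 t.2 t2.1 t2.2 (fun h' => h (Subtype.ext h')))
    (fun t => (t.1 0).toNat) (fun t => P.q_copL t.1 t.2) _ (fun w t => NN P.l P.L t.1 w.1 / P.l)
  intro t x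
  refine le_trans ?_ (P.load t.1 t.2 ((x / P.L : ℕ) : ZMod P.l) ((x % P.L : ℕ) : ℤ))
  apply Nat.mul_le_mul_left
  rw [← Finset.card_map (Function.Embedding.subtype _)]
  apply Finset.card_le_card
  intro g hg
  simp only [mem_map, mem_filter, mem_univ, true_and, Function.Embedding.subtype_apply] at hg
  obtain ⟨w, hw, rfl⟩ := hg
  rw [mem_filter]
  refine ⟨w.2, ?_⟩
  have hr : (t.1 0 * w.1.2 % P.L).toNat < P.L := by
    have := Int.emod_lt_of_pos (t.1 0 * w.1.2) hL'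
    have := Int.emod_nonneg (t.1 0 * w.1.2) hL'.ne'
    omega
  have h1 : x / P.L = (NN P.l P.L t.1 w.1 % P.l).toNat := by
    rw [← hw]; unfold sS
    rw [Nat.mul_add_div P.L_pos, Nat.div_eq_of_lt hr, add_zero]
  have h2 : x % P.L = (t.1 0 * w.1.2 % P.L).toNat := by
    rw [← hw]; unfold sS
    rw [Nat.mul_add_mod, Nat.mod_eq_of_lt hr]
  refine ⟨?_, ?_⟩
  · rw [h1, NNmod_cast]
  · rw [h2, Int.toNat_of_nonneg (Int.emod_nonneg _ hL'.ne')]

noncomputable def a : P.Wt × Fin P.kap → ℤ := P.exists_a.choose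

noncomputable def cells : CellData P.Ty (P.Wt × Fin P.kap) where
  L := P.L
  l := P.l
  L_odd := P.L_odd
  l_odd := P.l_odd
  t1 := fun t => (t.1 0).toNat
  t1_pos := by
    intro t
    have := P.hpos t.1 t.2
    omega
  t1_dvd := by
    intro t
    have h1 := P.hpos t.1 t.2
    have h2 := P.hdvd t.1 t.2
    have h3 : (((t.1 0).toNat : ℕ) : ℤ) = t.1 0 := Int.toNat_of_nonneg (by omega)
    rw [← h3] at h2
    exact_mod_cast h2
  tau := by
    classical
    exact fun B => if h : P.sigma (B : ZMod P.l) ∈ P.T then some ⟨_, h⟩ else none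
  tau_symm := by
    classical
    intro B hB t ht
    split_ifs at ht with h
    rw [dif_neg]
    intro h2
    have h3 : ((P.l - 1 - B : ℕ) : ZMod P.l) = -1 - (B : ZMod P.l) := by
      have e : (P.l - 1 - B) + 1 + B = P.l := by omega
      have e2 : (((P.l - 1 - B) + 1 + B : ℕ) : ZMod P.l) = 0 := by rw [e]; simp
      push_cast at e2
      linear_combination e2
    rw [h3, P.hsigma] at h2
    have h4 := P.hpos _ h
    have h5 := P.hpos _ h2
    simp only [Pi.neg_apply] at h5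
    omega
  s := fun i t => sS P.l P.L t.1 i.1.1
  s_blk := by
    classical
    have : NeZero P.l := ⟨P.l_pos.ne'⟩
    intro i t
    have hL' : (0:ℤ) < P.L := by exact_mod_cast P.L_pos
    have hl' : (0:ℤ) < P.l := by exact_mod_cast P.l_pos
    refine ⟨(NN P.l P.L t.1 i.1.1 % P.l).toNat, ?_, (t.1 0 * i.1.1.2 % P.L).toNat, ?_, ?_, rfl, ?_⟩
    · have := Int.emod_lt_of_pos (NN P.l P.L t.1 i.1.1) hl'
      have := Int.emod_nonneg (NN P.l P.L t.1 i.1.1) hl'.ne'
      omega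
    · have := Int.emod_lt_of_pos (t.1 0 * i.1.1.2) hL'
      have := Int.emod_nonneg (t.1 0 * i.1.1.2) hL'.ne'
      omega
    · have h1 := P.hpos t.1 t.2
      have h3 : (((t.1 0).toNat : ℕ) : ℤ) = t.1 0 := Int.toNat_of_nonneg (by omega)
      have h4 : (((t.1 0 * i.1.1.2 % P.L).toNat : ℕ) : ℤ) = t.1 0 * i.1.1.2 % P.L :=
        Int.toNat_of_nonneg (Int.emod_nonneg _ hL'.ne')
      have h5 : t.1 0 ∣ t.1 0 * i.1.1.2 % P.L := by
        rw [Int.emod_def]
        exact dvd_sub (Dvd.intro _ rfl) (dvd_mul_of_dvd_left (P.hdvd t.1 t.2) _)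
      rw [← Int.natCast_dvd_natCast, h3, h4]
      exact h5
    · have h1 := NNmod_cast P.l P.L t.1 i.1.1
      have h2 := P.hW i.1.1 i.1.2 t.1 t.2
      have h3 : P.sigma (((NN P.l P.L t.1 i.1.1 % P.l).toNat : ℕ) : ZMod P.l) = t.1 := by
        rw [h1, h2]
      rw [dif_pos (by rw [h3]; exact t.2)]
      congr 1
      exact Subtype.ext h3
  q := fun t => P.q t.1
  q_odd := fun t => P.q_odd t.1 t.2
  v := fun i t => NN P.l P.L t.1 i.1.1 / P.l + (t.1 0).toNat * P.a i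
  v_inj := fun t i i2 h1 h2 => P.exists_a.choose_spec t i i2 h1 h2

end PackData

end Crest.Agent.R075
end

-- ▼ part R075/ThmQ

set_option autoImplicit false

namespace Crest.Agent.R075

open Finset Polynomial

/-- a vector orthogonal to `t` and to no other element of a pairwise non parallel set -/
lemma exists_orth {r : ℕ} (T : Finset (Fin (r+1) → ℤ)) (hT1 : ∀ t ∈ T, 1 ≤ t 0)
    (hT : ∀ t ∈ T, ∀ t' ∈ T, t ≠ t' → ∃ i j, t i * t' j ≠ t j * t' i)
    (t : Fin (r+1) → ℤ) (ht : t ∈ T) :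
    ∃ a : Fin (r+1) → ℤ, ∑ i, t i * a i = 0 ∧ ∀ t' ∈ T, t' ≠ t → ∑ i, t' i * a i ≠ 0 := by
  classical
  let p : (Fin (r+1) → ℤ) → ℤ[X] := fun t' =>
    ∑ i : Fin r, C (t 0 * t' i.succ - t' 0 * t i.succ) * X ^ (i.1+1)
  have hcoef : ∀ t' (i : Fin r), (p t').coeff (i.1+1) = t 0 * t' i.succ - t' 0 * t i.succ := by
    intro t' i
    simp only [p, finsetSum_coeff, coeff_C_mul, coeff_X_pow]
    rw [Finset.sum_eq_single i]
    · simp
    · intro b _ hb
      have : i.1 ≠ b.1 := by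
        intro h; apply hb; ext; omega
      simp [this]
    · intro h; exact absurd (Finset.mem_univ i) h
  have hp : ∀ t' ∈ T.erase t, p t' ≠ 0 := by
    intro t' ht' h0
    have hne := Finset.ne_of_mem_erase ht'
    have hmem := Finset.mem_of_mem_erase ht'
    obtain ⟨i, j, hij⟩ := hT t ht t' hmem (Ne.symm hne)
    have hall : ∀ i : Fin (r+1), t 0 * t' i = t' 0 * t i := by
      intro i
      refine Fin.cases ?_ (fun i => ?_) i
      · ring
      · have := hcoef t' i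
        rw [h0] at this
        simp at this
        linarith
    apply hij
    have h1 := hall i
    have h2 := hall j
    have h3 : t' 0 * (t i * t' j - t j * t' i) = 0 := by
      have : t' 0 * (t i * t' j - t j * t' i) = (t' 0 * t i) * t' j - (t' 0 * t j) * t' i := by ring
      rw [this, ← h1, ← h2]; ring
    have h4 : t' 0 ≠ 0 := by have := hT1 t' hmem; omega
    have := (mul_eq_zero.mp h3).resolve_left h4
    linarith
  have hprod : (∏ t' ∈ T.erase t, p t') ≠ 0 := Finset.prod_ne_zero_iff.mpr hp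
  obtain ⟨x, hx⟩ : ∃ x : ℤ, (∏ t' ∈ T.erase t, p t').eval x ≠ 0 := by
    by_contra hcon
    push Not at hcon
    apply hprod
    apply Polynomial.funext
    intro y
    rw [hcon y]; simp
  refine ⟨Fin.cons (-∑ i : Fin r, t i.succ * x ^ (i.1+1)) (fun i => t 0 * x ^ (i.1+1)), ?_, ?_⟩
  · rw [Fin.sum_univ_succ]
    simp only [Fin.cons_zero, Fin.cons_succ]
    rw [mul_neg, Finset.mul_sum, neg_add_eq_zero]
    apply Finset.sum_congr rfl
    intro i _; ring
  · intro t' ht' hne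
    rw [Polynomial.eval_prod] at hx
    have := Finset.prod_ne_zero_iff.mp hx t' (Finset.mem_erase.mpr ⟨hne, ht'⟩)
    rw [Fin.sum_univ_succ]
    simp only [Fin.cons_zero, Fin.cons_succ]
    intro h0
    apply this
    simp only [p, eval_finsetSum, eval_mul, eval_C, eval_pow, eval_X]
    rw [← h0, mul_neg, Finset.mul_sum, ← sub_eq_neg_add, ← Finset.sum_sub_distrib]
    apply Finset.sum_congr rfl
    intro i _; ring

/-- if `p` is prime, divides `1 + M * y` and is at most `B` with `B! ∣ M`: contradiction. -/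
lemma no_small_prime {M y B p : ℕ} (hp : p.Prime) (hpB : p ≤ B) (hB : B.factorial ∣ M)
    (hd : p ∣ 1 + M * y) : False := by
  have h1 : p ∣ M := (Nat.dvd_factorial hp.pos hpB).trans hB
  have h2 : p ∣ 1 := (Nat.dvd_add_left (h1.mul_right y)).mp hd
  exact hp.one_lt.ne' (Nat.dvd_one.mp h2)

theorem thmQ {r : ℕ} (T : Finset (Fin (r+1) → ℤ)) (hT1 : ∀ t ∈ T, 1 ≤ t 0)
    (hT : ∀ t ∈ T, ∀ t' ∈ T, t ≠ t' → ∃ i j, t i * t' j ≠ t j * t' i)
    (H : (Fin (r+1) → ℤ) → ℝ) (hH : ∀ t ∈ T, 0 < H t) (eps : ℝ) (he : 0 < eps) (B0 : ℕ) :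
    ∃ (kap : ℕ) (q : (Fin (r+1) → ℤ) → ℕ) (A : Fin (r+1) → ℤ), 1 ≤ kap ∧ B0 ≤ kap ∧
      (∀ t ∈ T, Odd (q t) ∧ 1 < q t ∧ kap * H t ≤ q t ∧ (q t : ℝ) ≤ (1+eps) * (kap * H t)) ∧
      (∀ t ∈ T, ∀ n : ℕ, 1 ≤ n → n ≤ B0 → Nat.Coprime (q t) n) ∧
      (∀ t ∈ T, ∀ t' ∈ T, t ≠ t' → Nat.Coprime (q t) (q t')) ∧
      (∀ t ∈ T, (q t : ℤ) ∣ ∑ i, t i * A i) ∧
      (∀ t ∈ T, ∀ t' ∈ T, t ≠ t' → IsCoprime (∑ i, t i * A i) (q t' : ℤ)) := by
  classical
  rcases T.eq_empty_or_nonempty with hTe | hTne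
  · subst hTe
    refine ⟨B0 + 1, fun _ => 1, fun _ => 0, by omega, by omega, ?_, ?_, ?_, ?_, ?_⟩ <;> simp
  choose! a ha ha' using exists_orth T hT1 hT
  set c : ℕ := T.card with hc
  have hcpos : 0 < c := Finset.card_pos.mpr hTne
  -- the scale Lam
  obtain ⟨Lam, hLam⟩ : ∃ Lam : ℕ, 1 ≤ Lam ∧ B0 ≤ Lam ∧ ∀ t ∈ T, (2 * c + 1 : ℝ) ≤ eps * (Lam * H t) := by
    have : ∀ t ∈ T, ∃ L : ℕ, (2 * c + 1 : ℝ) ≤ eps * (L * H t) := by
      intro t ht
      obtain ⟨L, hL⟩ := exists_nat_ge ((2 * c + 1 : ℝ) / (eps * H t))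
      refine ⟨L, ?_⟩
      have hpos : 0 < eps * H t := mul_pos he (hH t ht)
      rw [div_le_iff₀ hpos] at hL
      linarith [hL, mul_comm (L : ℝ) (eps * H t), mul_assoc eps (H t) (L : ℝ), mul_comm (H t) (L : ℝ)]
    choose! L hL using this
    refine ⟨T.sup L + 1 + B0, by omega, by omega, ?_⟩
    intro t ht
    refine (hL t ht).trans ?_
    have h1 : (L t : ℝ) ≤ ((T.sup L + 1 + B0 : ℕ) : ℝ) := by
      have : L t ≤ T.sup L := Finset.le_sup ht
      exact_mod_cast this.trans (by omega)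
    have h2 := hH t ht
    have h3 : (L t : ℝ) * H t ≤ ((T.sup L + 1 + B0 : ℕ) : ℝ) * H t := mul_le_mul_of_nonneg_right h1 h2.le
    exact mul_le_mul_of_nonneg_left h3 he.le
  obtain ⟨hLam1, hLamB, hLam2⟩ := hLam
  -- indices
  let e := T.equivFin
  let j : (Fin (r+1) → ℤ) → ℕ := fun t => if h : t ∈ T then (e ⟨t, h⟩ : ℕ) else 0
  have hj : ∀ t ∈ T, j t < c := by
    intro t ht
    simp only [j, ht, dif_pos]
    exact (e ⟨t, ht⟩).2
  have hjinj : ∀ t ∈ T, ∀ t' ∈ T, j t = j t' → t = t' := by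
    intro t ht t' ht' h
    simp only [j, ht, ht', dif_pos] at h
    have := e.injective (Fin.ext h)
    exact congrArg Subtype.val this
  let m : (Fin (r+1) → ℤ) → ℕ := fun t => ⌈Lam * H t / c⌉₊
  let y : (Fin (r+1) → ℤ) → ℕ := fun t => c * m t + j t
  have hy_inj : ∀ t ∈ T, ∀ t' ∈ T, y t = y t' → t = t' := by
    intro t ht t' ht' h
    apply hjinj t ht t' ht'
    have h1 : (c * m t + j t) % c = (c * m t' + j t') % c := congrArg (· % c) h
    rw [Nat.mul_add_mod, Nat.mul_add_mod, Nat.mod_eq_of_lt (hj t ht), Nat.mod_eq_of_lt (hj t' ht')] at h1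
    exact h1
  have hcR : (0 : ℝ) < c := by exact_mod_cast hcpos
  have hy_lo : ∀ t ∈ T, (Lam * H t : ℝ) ≤ y t := by
    intro t ht
    have h1 : (Lam * H t / c : ℝ) ≤ m t := Nat.le_ceil _
    rw [div_le_iff₀ hcR] at h1
    have h2 : (y t : ℝ) = c * m t + j t := by simp [y]
    rw [h2]
    have : (0 : ℝ) ≤ j t := Nat.cast_nonneg _
    linarith [mul_comm (m t : ℝ) (c : ℝ)]
  have hy_hi : ∀ t ∈ T, (y t : ℝ) ≤ Lam * H t + 2 * c := by
    intro t ht
    have h0 : (0 : ℝ) ≤ Lam * H t / c := by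
      have := hH t ht
      positivity
    have h1 : (m t : ℝ) < Lam * H t / c + 1 := Nat.ceil_lt_add_one h0
    have h2 : (y t : ℝ) = c * m t + j t := by simp [y]
    rw [h2]
    have h3 : (j t : ℝ) ≤ c := by exact_mod_cast (hj t ht).le
    have h4 : (c : ℝ) * m t ≤ c * (Lam * H t / c + 1) := mul_le_mul_of_nonneg_left h1.le hcR.le
    have h5 : (c : ℝ) * (Lam * H t / c + 1) = Lam * H t + c := by field_simp
    linarith
  have hy_pos : ∀ t ∈ T, 1 ≤ y t := by
    intro t ht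
    have h1 := hy_lo t ht
    have h2 : (0 : ℝ) < Lam * H t := by
      have := hH t ht
      have : (0:ℝ) < Lam := by exact_mod_cast hLam1
      positivity
    have h3 : (0 : ℝ) < y t := by linarith
    exact_mod_cast h3
  -- bounds
  let Y : ℕ := T.sup y
  let B : ℕ := B0 + ∑ t ∈ T, ∑ t' ∈ T, (∑ i, t' i * a t i).natAbs
  let M : ℕ := 2 * (Y.factorial * B.factorial)
  have hM2 : 2 ∣ M := ⟨_, rfl⟩
  have hMY : Y.factorial ∣ M := ⟨2 * B.factorial, by simp only [M]; ring⟩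
  have hMB : B.factorial ∣ M := ⟨2 * Y.factorial, by simp only [M]; ring⟩
  have hMpos : 1 ≤ M := by
    have h1 := Nat.factorial_pos Y
    have h2 := Nat.factorial_pos B
    have : 0 < M := by positivity
    omega
  let q : (Fin (r+1) → ℤ) → ℕ := fun t => 1 + M * y t
  have hqcop : ∀ t ∈ T, ∀ t' ∈ T, t ≠ t' → Nat.Coprime (q t) (q t') := by
    intro t ht t' ht' hne
    rw [Nat.coprime_iff_gcd_eq_one]
    by_contra hg
    obtain ⟨p, hp, hpd⟩ := Nat.exists_prime_and_dvd hg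
    have h1 : p ∣ 1 + M * y t := hpd.trans (Nat.gcd_dvd_left _ _)
    have h2 : p ∣ 1 + M * y t' := hpd.trans (Nat.gcd_dvd_right _ _)
    have hyne : y t ≠ y t' := fun h => hne (hy_inj t ht t' ht' h)
    have h3 : (p : ℤ) ∣ (M : ℤ) * ((y t : ℤ) - y t') := by
      have h1' : (p : ℤ) ∣ 1 + (M : ℤ) * y t := by exact_mod_cast h1
      have h2' : (p : ℤ) ∣ 1 + (M : ℤ) * y t' := by exact_mod_cast h2
      have := dvd_sub h1' h2'
      have heq : (1 + (M : ℤ) * y t) - (1 + (M : ℤ) * y t') = (M : ℤ) * ((y t : ℤ) - y t') := by ring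
      rwa [heq] at this
    have hpZ : Prime (p : ℤ) := Nat.prime_iff_prime_int.mp hp
    rcases hpZ.dvd_or_dvd h3 with h4 | h4
    · have h5 : p ∣ M := by exact_mod_cast h4
      have h6 : p ∣ 1 := (Nat.dvd_add_left (h5.mul_right _)).mp h1
      exact hp.one_lt.ne' (Nat.dvd_one.mp h6)
    · have h5 : ((y t : ℤ) - y t') ≠ 0 := by
        intro h; apply hyne; omega
      have h6 : p ≤ ((y t : ℤ) - y t').natAbs := by
        have := Int.natAbs_dvd_natAbs.mpr h4
        simp only [Int.natAbs_natCast] at this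
        exact Nat.le_of_dvd (Int.natAbs_pos.mpr h5) this
      have h7 : y t ≤ Y := Finset.le_sup ht
      have h8 : y t' ≤ Y := Finset.le_sup ht'
      have h9 : p ≤ Y := by omega
      exact no_small_prime hp h9 hMY h1
  -- CRT
  have hcrt : ∀ i : Fin (r+1), ∃ A : ℤ, ∀ t ∈ T, (q t : ℤ) ∣ A - a t i := by
    intro i
    let res : (Fin (r+1) → ℤ) → ℕ := fun t => (a t i % (q t : ℤ)).toNat
    have hq0 : ∀ t ∈ T, q t ≠ 0 := by intro t _; simp [q]
    have hpp : Set.Pairwise (↑T) (Function.onFun Nat.Coprime q) := by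
      intro t ht t' ht' hne
      exact hqcop t ht t' ht' hne
    obtain ⟨k, hk⟩ := Nat.chineseRemainderOfFinset res q T hq0 hpp
    refine ⟨k, fun t ht => ?_⟩
    have h1 := hk t ht
    have h2 : (k : ℤ) ≡ (res t : ℤ) [ZMOD (q t : ℤ)] := (Int.natCast_modEq_iff).mpr h1
    have hq0' : (q t : ℤ) ≠ 0 := by exact_mod_cast hq0 t ht
    have h3 : (res t : ℤ) = a t i % (q t : ℤ) := Int.toNat_of_nonneg (Int.emod_nonneg _ hq0')
    rw [h3] at h2
    have h4 : (k : ℤ) ≡ a t i [ZMOD (q t : ℤ)] := h2.trans (Int.mod_modEq _ _)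
    exact h4.symm.dvd
  choose A hA using hcrt
  have hAsum : ∀ t' : Fin (r+1) → ℤ, ∀ t ∈ T, (q t : ℤ) ∣ (∑ i, t' i * A i) - ∑ i, t' i * a t i := by
    intro t' t ht
    rw [← Finset.sum_sub_distrib]
    apply Finset.dvd_sum
    intro i _
    rw [← mul_sub]
    exact (hA i t ht).mul_left _
  refine ⟨M * Lam, q, A, ?_, ?_, ?_, ?_, hqcop, ?_, ?_⟩
  · exact Nat.one_le_iff_ne_zero.mpr (by positivity)
  · calc B0 ≤ Lam := hLamB
      _ = 1 * Lam := by ring
      _ ≤ M * Lam := Nat.mul_le_mul_right _ hMpos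
  · intro t ht
    refine ⟨?_, ?_, ?_, ?_⟩
    · have : Even (M * y t) := (even_iff_two_dvd.mpr hM2).mul_right _
      rw [show q t = M * y t + 1 by simp only [q]; ring]
      exact this.add_one
    · have := hy_pos t ht
      have : 0 < M * y t := Nat.mul_pos (by omega) (by omega)
      simp only [q]; omega
    · have h1 := hy_lo t ht
      have h2 : (0 : ℝ) ≤ M := Nat.cast_nonneg _
      push_cast [q]
      nlinarith [mul_le_mul_of_nonneg_left h1 h2]
    · have h1 := hy_hi t ht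
      have h2 : (1 : ℝ) ≤ M := by exact_mod_cast hMpos
      have h3 := hLam2 t ht
      push_cast [q]
      have h4 : (1 : ℝ) + M * y t ≤ M * (1 + y t) := by linarith
      have h5 : (M : ℝ) * (1 + y t) ≤ M * (Lam * H t + (2 * c + 1)) :=
        mul_le_mul_of_nonneg_left (by linarith) (by linarith)
      have h6 : (M : ℝ) * (Lam * H t + (2 * c + 1)) ≤ M * (Lam * H t + eps * (Lam * H t)) :=
        mul_le_mul_of_nonneg_left (by linarith) (by linarith)
      calc (1 : ℝ) + M * y t ≤ M * (Lam * H t + eps * (Lam * H t)) := h4.trans (h5.trans h6)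
        _ = (1 + eps) * (M * Lam * H t) := by ring
  · intro t ht n hn1 hnB
    rw [Nat.coprime_iff_gcd_eq_one]
    by_contra hg
    obtain ⟨p, hp, hpd⟩ := Nat.exists_prime_and_dvd hg
    have h1 : p ∣ 1 + M * y t := hpd.trans (Nat.gcd_dvd_left _ _)
    have h2 : p ∣ n := hpd.trans (Nat.gcd_dvd_right _ _)
    have h3 : p ≤ B := (Nat.le_of_dvd (by omega) h2).trans (hnB.trans (by simp only [B]; omega))
    exact no_small_prime hp h3 hMB h1
  · intro t ht
    have h1 := hAsum t t ht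
    rw [ha t ht, sub_zero] at h1
    exact h1
  · intro t ht t' ht' hne
    have h0 : ∑ i, t i * a t' i ≠ 0 := ha' t' ht' t ht hne
    have hcop : IsCoprime (∑ i, t i * a t' i) (q t' : ℤ) := by
      rw [Int.isCoprime_iff_gcd_eq_one]
      by_contra hg
      obtain ⟨p, hp, hpd⟩ := Nat.exists_prime_and_dvd hg
      have h1 : (p : ℤ) ∣ ∑ i, t i * a t' i := by
        have : (p : ℤ) ∣ (Int.gcd (∑ i, t i * a t' i) (q t' : ℤ) : ℤ) := by exact_mod_cast hpd
        exact this.trans (Int.gcd_dvd_left ..)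
      have h2 : p ∣ 1 + M * y t' := by
        have : (p : ℤ) ∣ (Int.gcd (∑ i, t i * a t' i) (q t' : ℤ) : ℤ) := by exact_mod_cast hpd
        have := this.trans (Int.gcd_dvd_right ..)
        exact_mod_cast this
      have h3 : p ≤ (∑ i, t i * a t' i).natAbs := by
        have := Int.natAbs_dvd_natAbs.mpr h1
        simp only [Int.natAbs_natCast] at this
        exact Nat.le_of_dvd (Int.natAbs_pos.mpr h0) this
      have h4 : (∑ i, t i * a t' i).natAbs ≤ B := by
        have h5 : (∑ i, t i * a t' i).natAbs ≤ ∑ t'' ∈ T, (∑ i, t'' i * a t' i).natAbs :=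
          Finset.single_le_sum (f := fun t'' : Fin (r+1) → ℤ => (∑ i, t'' i * a t' i).natAbs)
            (fun _ _ => Nat.zero_le _) ht
        have h6 : ∑ t'' ∈ T, (∑ i, t'' i * a t' i).natAbs ≤
            ∑ t ∈ T, ∑ t'' ∈ T, (∑ i, t'' i * a t i).natAbs :=
          Finset.single_le_sum
            (f := fun t : Fin (r+1) → ℤ => ∑ t'' ∈ T, (∑ i, t'' i * a t i).natAbs)
            (fun _ _ => Nat.zero_le _) ht'
        simp only [B]
        omega
      exact no_small_prime hp (h3.trans h4) hMB h2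
    obtain ⟨k, hk⟩ := hAsum t t' ht'
    have h5 : ∑ i, t i * A i = ∑ i, t i * a t' i + (q t' : ℤ) * k := by linarith
    rw [h5]
    exact hcop.add_mul_left_left k

end Crest.Agent.R075
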