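import Mathlib
import Crest.Agent.R075.ThmF2
import Crest.Agent.R075.ThmQ_Mg
import Crest.Agent.R075.Amp

-- ▼ part R075/ThmF
section

/-! Row 75, THM F, part 3: mass estimate and final statement. -/

set_option autoImplicit false

namespace Crest.Agent.R075.ThmF

open Finset Real

/-- sum of an even function over the odd integers of `(-2M, 2M)` -/
lemma sum_B (M : ℕ) (h : ℤ → ℝ) (heven : ∀ m, h (-m) = h m) :
    ∑ m ∈ B (2 * M), h m = 2 * ∑ k ∈ range M, h (2 * k + 1) := by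
  have h1 : ∑ m ∈ B (2 * M), h m
      = ∑ m ∈ (B (2 * M)).filter (fun m => 0 < m), h m
        + ∑ m ∈ (B (2 * M)).filter (fun m => ¬ 0 < m), h m :=
    (Finset.sum_filter_add_sum_filter_not _ _ _).symm
  have h2 : ∑ m ∈ (B (2 * M)).filter (fun m => 0 < m), h m = ∑ k ∈ range M, h (2 * k + 1) := by
    symm
    refine Finset.sum_nbij' (fun k => 2 * (k : ℤ) + 1) (fun m => (m / 2).toNat) ?_ ?_ ?_ ?_ ?_
    · intro k hk
      rw [Finset.mem_range] at hk
      rw [Finset.mem_filter, mem_B]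
      push_cast
      refine ⟨⟨⟨by omega, by omega⟩, ⟨k, rfl⟩⟩, by omega⟩
    · intro m hm
      rw [Finset.mem_filter, mem_B] at hm
      obtain ⟨⟨⟨h1, h2⟩, ⟨j, hj⟩⟩, h4⟩ := hm
      push_cast at h1 h2
      rw [Finset.mem_range]
      omega
    · intro k _
      omega
    · intro m hm
      rw [Finset.mem_filter, mem_B] at hm
      obtain ⟨⟨⟨h1, h2⟩, ⟨j, hj⟩⟩, h4⟩ := hm
      omega
    · intro k _; rfl
  have h3 : ∑ m ∈ (B (2 * M)).filter (fun m => ¬ 0 < m), h m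
      = ∑ m ∈ (B (2 * M)).filter (fun m => 0 < m), h m := by
    refine Finset.sum_nbij' (fun m => -m) (fun m => -m) ?_ ?_ ?_ ?_ ?_
    · intro m hm
      rw [Finset.mem_filter, mem_B] at hm
      obtain ⟨⟨⟨h1, h2⟩, ⟨j, hj⟩⟩, h4⟩ := hm
      rw [Finset.mem_filter]
      refine ⟨neg_mem_B ?_, by omega⟩
      rw [mem_B]; exact ⟨⟨h1, h2⟩, ⟨j, hj⟩⟩
    · intro m hm
      rw [Finset.mem_filter] at hm
      rw [Finset.mem_filter]
      exact ⟨neg_mem_B hm.1, by omega⟩
    · intro m _; simp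
    · intro m _; simp
    · intro m _; rw [heven]
  rw [h1, h3, h2]; ring

/-- `sum_{k} 1/(2k+1)^2 = pi^2/8` -/
lemma hasSum_odd_sq : HasSum (fun k : ℕ => 1 / ((2 * k + 1 : ℝ)) ^ 2) (π ^ 2 / 8) := by
  obtain ⟨f, hf⟩ : ∃ f : ℕ → ℝ, f = fun n : ℕ => (1 : ℝ) / (n : ℝ) ^ 2 := ⟨_, rfl⟩
  have h1 : HasSum f (π ^ 2 / 6) := by rw [hf]; exact hasSum_zeta_two
  have hs : Summable (fun k : ℕ => f (2 * k + 1)) :=
    h1.summable.comp_injective (i := fun k : ℕ => 2 * k + 1) (fun a b h => by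
      have h' : 2 * a + 1 = 2 * b + 1 := h
      omega)
  obtain ⟨s, hs⟩ := hs
  have h3 : HasSum (fun k : ℕ => f (2 * k)) (1 / 4 * (π ^ 2 / 6)) := by
    have h := h1.mul_left (1/4 : ℝ)
    have e : (fun k : ℕ => f (2 * k)) = fun k : ℕ => (1/4 : ℝ) * f k := by
      funext k; rw [hf]; push_cast; ring
    rw [e]; exact h
  have h5 : HasSum f (1 / 4 * (π ^ 2 / 6) + s) := HasSum.even_add_odd h3 hs
  have h6 : 1 / 4 * (π ^ 2 / 6) + s = π ^ 2 / 6 := HasSum.unique h5 h1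
  have h7 : s = π ^ 2 / 8 := by linarith
  have e2 : (fun k : ℕ => 1 / ((2 * k + 1 : ℝ)) ^ 2) = fun k : ℕ => f (2 * k + 1) := by
    funext k; rw [hf]; push_cast; rfl
  rw [e2, ← h7]; exact hs

/-- the mass of the Fejer mean -/
noncomputable def mass (M : ℕ) : ℝ := ∑ m ∈ B (2 * M), aK (2 * M) m ^ 2

lemma mass_eq (M : ℕ) : mass M
    = 2 * ∑ k ∈ range M, (1 - (2 * k + 1 : ℝ) / (2 * M)) ^ 2 * (4 / π ^ 2 * (1 / (2 * k + 1 : ℝ) ^ 2)) := by
  unfold mass
  rw [sum_B M (fun m => aK (2 * M) m ^ 2) (fun m => by simp only [aK_neg])]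
  congr 1
  refine Finset.sum_congr rfl fun k _ => ?_
  unfold aK
  rw [mul_pow, sh_sq _ ⟨k, rfl⟩]
  have : |(((2 * (k : ℤ) + 1 : ℤ)) : ℝ)| = 2 * k + 1 := by
    push_cast; exact abs_of_nonneg (by positivity)
  rw [this]
  push_cast
  have hpi := pi_ne_zero
  field_simp

lemma mass_nonneg (M : ℕ) : 0 ≤ mass M := Finset.sum_nonneg fun _ _ => by positivity

lemma partial_le (M : ℕ) : 2 * ∑ k ∈ range M, 4 / π ^ 2 * (1 / (2 * k + 1 : ℝ) ^ 2) ≤ 1 := by
  have h := sum_le_hasSum (range M) (fun k _ => by positivity) hasSum_odd_sq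
  rw [← Finset.mul_sum]
  have hpi : (0 : ℝ) < π ^ 2 := by positivity
  calc 2 * (4 / π ^ 2 * ∑ k ∈ range M, 1 / (2 * k + 1 : ℝ) ^ 2)
      ≤ 2 * (4 / π ^ 2 * (π ^ 2 / 8)) := by
        have : 0 ≤ 4 / π ^ 2 := by positivity
        nlinarith [mul_le_mul_of_nonneg_left h this]
    _ = 1 := by field_simp; norm_num

lemma mass_le_one (M : ℕ) : mass M ≤ 1 := by
  rw [mass_eq]
  refine le_trans ?_ (partial_le M)
  refine mul_le_mul_of_nonneg_left (Finset.sum_le_sum fun k hk => ?_) (by norm_num)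
  rw [Finset.mem_range] at hk
  have hM : (0 : ℝ) < M := by exact_mod_cast (by omega : 0 < M)
  have hk' : (k : ℝ) + 1 ≤ M := by exact_mod_cast hk
  have h1 : (2 * k + 1 : ℝ) / (2 * M) ≤ 1 := by rw [div_le_one (by positivity)]; linarith
  have h2 : 0 ≤ (2 * k + 1 : ℝ) / (2 * M) := by positivity
  have h3 : (1 - (2 * k + 1 : ℝ) / (2 * M)) ^ 2 ≤ 1 := by nlinarith
  exact mul_le_of_le_one_left (by positivity) h3

lemma mass_ge (M : ℕ) (hM : 0 < M) :
    2 * ∑ k ∈ range M, 4 / π ^ 2 * (1 / (2 * k + 1 : ℝ) ^ 2)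
      - 8 / π ^ 2 * ((M : ℝ)⁻¹ * ∑ k ∈ range M, 1 / (2 * k + 1 : ℝ)) ≤ mass M := by
  rw [mass_eq]
  have hM' : (0 : ℝ) < M := by exact_mod_cast hM
  rw [Finset.mul_sum, Finset.mul_sum, Finset.mul_sum, Finset.mul_sum, ← Finset.sum_sub_distrib]
  refine Finset.sum_le_sum fun k _ => ?_
  have hk : (0 : ℝ) < 2 * k + 1 := by positivity
  have hpi : (0 : ℝ) < π ^ 2 := by positivity
  have h1 : 8 / π ^ 2 * ((M : ℝ)⁻¹ * (1 / (2 * k + 1 : ℝ)))
      = 2 * (2 * ((2 * k + 1 : ℝ) / (2 * M))) * (4 / π ^ 2 * (1 / (2 * k + 1 : ℝ) ^ 2)) := by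
    field_simp; norm_num
  rw [h1]
  have h2 : 0 ≤ 4 / π ^ 2 * (1 / (2 * k + 1 : ℝ) ^ 2) := by positivity
  have h3 : 1 - 2 * ((2 * k + 1 : ℝ) / (2 * M)) ≤ (1 - (2 * k + 1 : ℝ) / (2 * M)) ^ 2 := by
    nlinarith [sq_nonneg ((2 * k + 1 : ℝ) / (2 * M))]
  nlinarith [mul_le_mul_of_nonneg_right h3 h2]

lemma tendsto_mass : Filter.Tendsto mass Filter.atTop (nhds 1) := by
  have h1 : Filter.Tendsto (fun M : ℕ => 2 * ∑ k ∈ range M, 4 / π ^ 2 * (1 / (2 * k + 1 : ℝ) ^ 2))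
      Filter.atTop (nhds 1) := by
    have h2 := (hasSum_odd_sq.mul_left (4 / π ^ 2)).tendsto_sum_nat.const_mul 2
    have h3 : 2 * (4 / π ^ 2 * (π ^ 2 / 8)) = 1 := by
      have hpi := pi_ne_zero
      field_simp; norm_num
    rw [h3] at h2
    exact h2
  have h4 : Filter.Tendsto (fun M : ℕ => (M : ℝ)⁻¹ * ∑ k ∈ range M, 1 / (2 * k + 1 : ℝ))
      Filter.atTop (nhds 0) := by
    apply Filter.Tendsto.cesaro
    have h5 : Filter.Tendsto (fun k : ℕ => 1 / ((k : ℝ) + 1)) Filter.atTop (nhds 0) :=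
      tendsto_one_div_add_atTop_nhds_zero_nat
    refine squeeze_zero (fun k => by positivity) (fun k => ?_) h5
    apply one_div_le_one_div_of_le (by positivity)
    have : (0 : ℝ) ≤ k := by positivity
    linarith
  have h6 := h1.sub (h4.const_mul (8 / π ^ 2))
  simp only [mul_zero, sub_zero] at h6
  refine tendsto_of_tendsto_of_tendsto_of_le_of_le' h6 tendsto_const_nhds ?_
    (Filter.Eventually.of_forall mass_le_one)
  filter_upwards [Filter.eventually_gt_atTop 0] with M hM using mass_ge M hM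

/-- mass on multiples of `c` -/
lemma mass_c_le (M c : ℕ) (hc : 0 < c) :
    ∑ m ∈ (B (2 * M)).filter (fun m => (c : ℤ) ∣ m), aK (2 * M) m ^ 2 ≤ 1 / (c : ℝ) ^ 2 := by
  have hc' : (0 : ℝ) < c := by exact_mod_cast hc
  have hcz : (c : ℤ) ≠ 0 := by exact_mod_cast hc.ne'
  have hpi : (0 : ℝ) < π ^ 2 := by positivity
  -- compare with `sum_{j in B} 4/(pi^2 j^2)`
  have h1 : ∀ m ∈ (B (2 * M)).filter (fun m => (c : ℤ) ∣ m), aK (2 * M) m ^ 2
      ≤ 1 / (c : ℝ) ^ 2 * (4 / π ^ 2 * (1 / (((m / c : ℤ)) : ℝ) ^ 2)) := by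
    intro m hm
    rw [Finset.mem_filter, mem_B] at hm
    obtain ⟨⟨⟨hm1, hm2⟩, hodd⟩, ⟨j, hj⟩⟩ := hm
    have hj' : m / (c : ℤ) = j := by rw [hj]; exact Int.mul_ediv_cancel_left _ hcz
    rw [hj']
    unfold aK
    rw [mul_pow, sh_sq m hodd]
    have hm0 : (0 : ℝ) < |(m : ℝ)| := by
      rw [abs_pos]; intro h
      have : m = 0 := by exact_mod_cast h
      rw [this] at hodd; exact absurd hodd (by decide)
    have hM : (0 : ℝ) < ((2 * M : ℕ) : ℝ) := by
      have : (0 : ℤ) < 2 * (M : ℤ) := by push_cast at hm1 hm2; omega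
      exact_mod_cast this
    have habs : |(m : ℝ)| ≤ ((2 * M : ℕ) : ℝ) := by
      rw [abs_le]
      constructor
      · have : -(((2 * M : ℕ) : ℤ)) ≤ m := hm1.le
        exact_mod_cast this
      · have : m ≤ ((2 * M : ℕ) : ℤ) := hm2.le
        exact_mod_cast this
    have h2 : |(m : ℝ)| / ((2 * M : ℕ) : ℝ) ≤ 1 := by rw [div_le_one hM]; exact habs
    have h3 : 0 ≤ |(m : ℝ)| / ((2 * M : ℕ) : ℝ) := by positivity
    have h4 : (1 - |(m : ℝ)| / ((2 * M : ℕ) : ℝ)) ^ 2 ≤ 1 := by nlinarith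
    have h5 : (4 : ℝ) / (π ^ 2 * (m : ℝ) ^ 2) = 1 / (c : ℝ) ^ 2 * (4 / π ^ 2 * (1 / (j : ℝ) ^ 2)) := by
      rw [hj]; push_cast
      have hj0 : (j : ℝ) ≠ 0 := by
        intro h
        apply hm0.ne'
        rw [hj]; push_cast; rw [h]; simp
      field_simp
    rw [← h5]
    exact mul_le_of_le_one_left (by positivity) h4
  refine (Finset.sum_le_sum h1).trans ?_
  rw [← Finset.mul_sum]
  have h6 : ∑ m ∈ (B (2 * M)).filter (fun m => (c : ℤ) ∣ m), 4 / π ^ 2 * (1 / (((m / c : ℤ)) : ℝ) ^ 2)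
      ≤ 1 := by
    have hinj : Set.InjOn (fun m : ℤ => m / (c : ℤ)) ((B (2 * M)).filter (fun m => (c : ℤ) ∣ m)) := by
      intro a ha b hb hab
      have ha' := (Finset.mem_filter.1 (Finset.mem_coe.1 ha)).2
      have hb' := (Finset.mem_filter.1 (Finset.mem_coe.1 hb)).2
      obtain ⟨x, rfl⟩ := ha'
      obtain ⟨y, rfl⟩ := hb'
      have hab' : (c : ℤ) * x / c = (c : ℤ) * y / c := hab
      rw [Int.mul_ediv_cancel_left _ hcz, Int.mul_ediv_cancel_left _ hcz] at hab'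
      rw [hab']
    rw [← Finset.sum_image (f := fun j : ℤ => 4 / π ^ 2 * (1 / ((j : ℝ)) ^ 2)) hinj]
    refine (Finset.sum_le_sum_of_subset_of_nonneg (t := B (2 * M)) ?_ (fun _ _ _ => by positivity)).trans ?_
    · intro j hj
      rw [Finset.mem_image] at hj
      obtain ⟨m, hm, rfl⟩ := hj
      rw [Finset.mem_filter, mem_B] at hm
      obtain ⟨⟨⟨hm1, hm2⟩, hodd⟩, ⟨x, hx⟩⟩ := hm
      rw [hx, Int.mul_ediv_cancel_left _ hcz, mem_B]
      have hoddx : Odd x := by rw [hx] at hodd; exact (Int.odd_mul.1 hodd).2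
      have hc1 : (1 : ℤ) ≤ c := by exact_mod_cast hc
      refine ⟨⟨?_, ?_⟩, hoddx⟩
      · rcases le_or_gt 0 x with h | h
        · nlinarith
        · nlinarith
      · rcases le_or_gt 0 x with h | h
        · nlinarith
        · nlinarith
    · rw [sum_B M (fun j : ℤ => 4 / π ^ 2 * (1 / ((j : ℝ)) ^ 2)) (fun j => by push_cast; ring)]
      have := partial_le M
      push_cast
      exact this
  calc 1 / (c : ℝ) ^ 2 * ∑ m ∈ (B (2 * M)).filter (fun m => (c : ℤ) ∣ m), 4 / π ^ 2 * (1 / (((m / c : ℤ)) : ℝ) ^ 2)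
      ≤ 1 / (c : ℝ) ^ 2 * 1 := mul_le_mul_of_nonneg_left h6 (by positivity)
    _ = _ := mul_one _

variable {R : ℕ}

lemma Am_sq (K : ℕ) (t : Fin R → ℤ) : Am K t ^ 2 = ∏ i, aK K (t i) ^ 2 := by
  unfold Am; rw [Finset.prod_pow]

lemma sum_box (K : ℕ) : ∑ t ∈ box R K, Am K t ^ 2 = (∑ m ∈ B K, aK K m ^ 2) ^ R := by
  simp only [Am_sq]
  have h := Finset.prod_univ_sum (fun _ : Fin R => B K) (fun _ m => aK K m ^ 2)
  unfold box
  rw [← h]
  simp

lemma sum_box_c (K c : ℕ) : ∑ t ∈ (box R K).filter (fun t => ∀ i, (c : ℤ) ∣ t i), Am K t ^ 2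
    = (∑ m ∈ (B K).filter (fun m => (c : ℤ) ∣ m), aK K m ^ 2) ^ R := by
  have hset : (box R K).filter (fun t => ∀ i, (c : ℤ) ∣ t i)
      = Fintype.piFinset (fun _ : Fin R => (B K).filter (fun m => (c : ℤ) ∣ m)) := by
    ext t
    simp only [Finset.mem_filter, mem_box, Fintype.mem_piFinset]
    constructor
    · rintro ⟨h1, h2⟩ i; exact ⟨h1 i, h2 i⟩
    · intro h; exact ⟨fun i => (h i).1, fun i => (h i).2⟩
  simp only [Am_sq]
  have h := Finset.prod_univ_sum (fun _ : Fin R => (B K).filter (fun m => (c : ℤ) ∣ m)) (fun _ m => aK K m ^ 2)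
  rw [hset, ← h]
  simp

/-- the relevant odd `c >= 3` -/
noncomputable def C3 (K : ℕ) : Finset ℕ := (range K).filter (fun c => Odd c ∧ 3 ≤ c)

lemma tail_le (K n : ℕ) : ∑ c ∈ C3 K, (1 / (c : ℝ)) ^ (n + 2) ≤ 2 * (1/3) ^ n := by
  have h1 : ∀ c ∈ C3 K, (1 / (c : ℝ)) ^ (n + 2) ≤ (1/3) ^ n * (1 / (c : ℝ) ^ 2) := by
    intro c hc
    have h3 : 3 ≤ c := (Finset.mem_filter.1 hc).2.2
    have h3' : (3 : ℝ) ≤ c := by exact_mod_cast h3
    rw [pow_add]
    have h4 : (1 / (c : ℝ)) ^ n ≤ (1/3) ^ n :=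
      pow_le_pow_left₀ (by positivity) (one_div_le_one_div_of_le (by norm_num) h3') n
    have h5 : (1 / (c : ℝ)) ^ 2 = 1 / (c : ℝ) ^ 2 := by rw [div_pow, one_pow]
    rw [h5]
    exact mul_le_mul_of_nonneg_right h4 (by positivity)
  refine (Finset.sum_le_sum h1).trans ?_
  rw [← Finset.mul_sum, mul_comm]
  refine mul_le_mul_of_nonneg_right ?_ (by positivity)
  refine (sum_le_hasSum (C3 K) (fun _ _ => by positivity) hasSum_zeta_two).trans ?_
  have := pi_lt_d2
  have := pi_pos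
  nlinarith

lemma sup_bound (K n : ℕ) : ∑ c ∈ (range K).filter Odd, (1 / (c : ℝ)) ^ (n + 2) ≤ 1 + 2 * (1/3) ^ n := by
  have h1 : (range K).filter Odd ⊆ insert 1 (C3 K) := by
    intro c hc
    rw [Finset.mem_filter, Finset.mem_range] at hc
    rw [Finset.mem_insert, C3, Finset.mem_filter, Finset.mem_range]
    obtain ⟨h, ⟨k, hk⟩⟩ := hc
    rcases Nat.eq_zero_or_pos k with h0 | h0
    · left; omega
    · right; exact ⟨h, ⟨k, hk⟩, by omega⟩
  refine (Finset.sum_le_sum_of_subset_of_nonneg h1 (fun _ _ _ => by positivity)).trans ?_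
  have h2 : (1 : ℕ) ∉ C3 K := by
    intro h; have := (Finset.mem_filter.1 h).2.2; omega
  rw [Finset.sum_insert h2]
  have := tail_le K n
  simpa using this

lemma prim_mass_ge (M n : ℕ) :
    mass M ^ (n + 2) - 2 * (1/3) ^ n ≤ ∑ t ∈ pbox (n + 1 + 1) (2 * M), Am (2 * M) t ^ 2 := by
  have h1 : ∑ t ∈ box (n + 1 + 1) (2 * M), Am (2 * M) t ^ 2
      = ∑ t ∈ pbox (n + 1 + 1) (2 * M), Am (2 * M) t ^ 2
        + ∑ t ∈ (box (n + 1 + 1) (2 * M)).filter (fun t => ¬ gg t = 1), Am (2 * M) t ^ 2 :=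
    (Finset.sum_filter_add_sum_filter_not _ _ _).symm
  have h2 : ∑ t ∈ (box (n + 1 + 1) (2 * M)).filter (fun t => ¬ gg t = 1), Am (2 * M) t ^ 2
      ≤ ∑ c ∈ C3 (2 * M), ∑ t ∈ (box (n + 1 + 1) (2 * M)).filter (fun t => ∀ i, (c : ℤ) ∣ t i), Am (2 * M) t ^ 2 := by
    have h3 : ∀ c ∈ C3 (2 * M), ∑ t ∈ (box (n + 1 + 1) (2 * M)).filter (fun t => ∀ i, (c : ℤ) ∣ t i), Am (2 * M) t ^ 2
        = ∑ t ∈ box (n + 1 + 1) (2 * M), if c ∣ gg t then Am (2 * M) t ^ 2 else 0 := by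
      intro c _
      rw [Finset.sum_filter]
      refine Finset.sum_congr rfl fun t _ => ?_
      simp only [dvd_gg]
    rw [Finset.sum_congr rfl h3, Finset.sum_comm, Finset.sum_filter]
    refine Finset.sum_le_sum fun t ht => ?_
    obtain ⟨hne, hodd, hlt⟩ := gg_pos_lt t ht
    by_cases h : gg t = 1
    · rw [if_neg (by simpa using h)]
      exact Finset.sum_nonneg fun _ _ => by positivity
    · rw [if_pos h]
      have hmem : gg t ∈ C3 (2 * M) := by
        rw [C3, Finset.mem_filter, Finset.mem_range]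
        refine ⟨hlt, hodd, ?_⟩
        obtain ⟨k, hk⟩ := hodd
        omega
      have := Finset.single_le_sum (f := fun c => if c ∣ gg t then Am (2 * M) t ^ 2 else 0)
        (fun c _ => by positivity) hmem
      simpa using this
  have h4 : ∑ c ∈ C3 (2 * M), ∑ t ∈ (box (n + 1 + 1) (2 * M)).filter (fun t => ∀ i, (c : ℤ) ∣ t i), Am (2 * M) t ^ 2
      ≤ 2 * (1/3) ^ n := by
    refine le_trans (Finset.sum_le_sum fun c hc => ?_) (tail_le (2 * M) n)
    have hc3 : 3 ≤ c := (Finset.mem_filter.1 hc).2.2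
    have hc1 : (1 : ℝ) ≤ c := by exact_mod_cast (by omega : 1 ≤ c)
    rw [sum_box_c]
    have h5 := mass_c_le M c (by omega)
    have h6 : (1 : ℝ) / (c : ℝ) ^ 2 ≤ 1 / c := by
      apply one_div_le_one_div_of_le (by positivity)
      nlinarith
    exact pow_le_pow_left₀ (Finset.sum_nonneg fun _ _ => by positivity) (h5.trans h6) _
  have h7 : ∑ t ∈ box (n + 1 + 1) (2 * M), Am (2 * M) t ^ 2 = mass M ^ (n + 2) := sum_box (2 * M)
  linarith

/-- vectors of `pbox` with positive first entry -/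
noncomputable def TT (n M : ℕ) : Finset (Fin (n + 1 + 1) → ℤ) :=
  (pbox (n + 1 + 1) (2 * M)).filter (fun t => 1 ≤ t 0)

lemma gg_neg (t : Fin R → ℤ) : gg (-t) = gg t := by
  unfold gg
  congr 1
  funext i
  simp

lemma neg_mem_pbox {K : ℕ} {t : Fin R → ℤ} (h : t ∈ pbox R K) : -t ∈ pbox R K := by
  rw [pbox, Finset.mem_filter, mem_box] at h ⊢
  exact ⟨fun i => neg_mem_B (h.1 i), by rw [gg_neg]; exact h.2⟩

lemma sum_pbox (n M : ℕ) (G : (Fin (n + 1 + 1) → ℤ) → ℝ) (hG : ∀ t, G (-t) = G t) :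
    ∑ t ∈ pbox (n + 1 + 1) (2 * M), G t = 2 * ∑ t ∈ TT n M, G t := by
  have h1 : ∑ t ∈ pbox (n + 1 + 1) (2 * M), G t = ∑ t ∈ TT n M, G t
      + ∑ t ∈ (pbox (n + 1 + 1) (2 * M)).filter (fun t => ¬ 1 ≤ t 0), G t :=
    (Finset.sum_filter_add_sum_filter_not _ _ _).symm
  have h2 : ∑ t ∈ (pbox (n + 1 + 1) (2 * M)).filter (fun t => ¬ 1 ≤ t 0), G t = ∑ t ∈ TT n M, G t := by
    refine Finset.sum_nbij' (fun m => -m) (fun m => -m) ?_ ?_ ?_ ?_ ?_
    · intro t ht
      rw [Finset.mem_filter] at ht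
      rw [TT, Finset.mem_filter]
      refine ⟨neg_mem_pbox ht.1, ?_⟩
      have h3 : t ∈ box (n + 1 + 1) (2 * M) := (Finset.mem_filter.1 ht.1).1
      obtain ⟨k, hk⟩ := (mem_B.1 (mem_box.1 h3 0)).2
      have h4 := ht.2
      simp only [Pi.neg_apply]
      omega
    · intro t ht
      rw [TT, Finset.mem_filter] at ht
      rw [Finset.mem_filter]
      refine ⟨neg_mem_pbox ht.1, ?_⟩
      have h4 := ht.2
      simp only [Pi.neg_apply]
      omega
    · intro m _; simp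
    · intro m _; simp
    · intro m _; rw [hG]
  rw [h1, h2]; ring

lemma Am_neg (K : ℕ) (t : Fin R → ℤ) : Am K (-t) = Am K t := by
  unfold Am
  refine Finset.prod_congr rfl fun i _ => ?_
  rw [Pi.neg_apply, aK_neg]

/-- THM F. -/
theorem thmF (eps : ℝ) (he : 0 < eps) :
    ∃ (r : ℕ) (T : Finset (Fin (r+1) → ℤ)) (fh : (Fin (r+1) → ℤ) → ℝ),
      T.Nonempty ∧ (∀ t ∈ T, ∀ i, Odd (t i)) ∧ (∀ t ∈ T, 1 ≤ t 0) ∧
      (∀ t ∈ T, ∀ c : ℤ, (∀ i, c ∣ t i) → IsUnit c) ∧ (∀ t ∈ T, fh t ≠ 0) ∧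
      (∀ t ∈ T, ∀ t' ∈ T, t ≠ t' → ∃ i j, t i * t' j ≠ t j * t' i) ∧
      (∀ φ : Fin (r+1) → ℝ, |2 * ∑ t ∈ T, fh t * cos (2 * π * ∑ i, (t i : ℝ) * φ i)| ≤ 1 + eps) ∧
      1 - eps ≤ 2 * ∑ t ∈ T, fh t ^ 2 ∧ 2 * ∑ t ∈ T, fh t ^ 2 ≤ 1 := by
  obtain ⟨n, hn⟩ : ∃ n : ℕ, ((1/3 : ℝ)) ^ n < eps / 4 :=
    exists_pow_lt_of_lt_one (by positivity) (by norm_num)
  have h1 : Filter.Tendsto (fun M => mass M ^ (n + 2)) Filter.atTop (nhds 1) := by
    have := tendsto_mass.pow (n + 2)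
    simpa using this
  obtain ⟨M, hM1, hM⟩ : ∃ M : ℕ, 1 - eps / 2 < mass M ^ (n + 2) ∧ 1 ≤ M := by
    have h2 := (h1.eventually (lt_mem_nhds (show 1 - eps / 2 < 1 by linarith))).and
      (Filter.eventually_ge_atTop 1)
    exact h2.exists
  have hprim : ∀ t ∈ TT n M, ∀ c : ℤ, (∀ i, c ∣ t i) → IsUnit c := by
    intro t ht c hc
    have h2 : gg t = 1 := (Finset.mem_filter.1 (Finset.mem_filter.1 ht).1).2
    have h3 : c.natAbs ∣ gg t := by
      rw [dvd_gg]
      intro i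
      rw [Int.natAbs_dvd]
      exact hc i
    rw [h2, Nat.dvd_one] at h3
    exact Int.isUnit_iff_natAbs_eq.2 h3
  have hodd : ∀ t ∈ TT n M, ∀ i, Odd (t i) := by
    intro t ht i
    have h3 : t ∈ box (n + 1 + 1) (2 * M) := (Finset.mem_filter.1 (Finset.mem_filter.1 ht).1).1
    exact (mem_B.1 (mem_box.1 h3 i)).2
  have hpos : ∀ t ∈ TT n M, 1 ≤ t 0 := fun t ht => (Finset.mem_filter.1 ht).2
  refine ⟨n + 1, TT n M, Am (2 * M), ?_, hodd, hpos, hprim, ?_, ?_, ?_, ?_, ?_⟩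
  · refine ⟨fun _ => 1, ?_⟩
    rw [TT, Finset.mem_filter, pbox, Finset.mem_filter, mem_box]
    refine ⟨⟨fun i => ?_, ?_⟩, le_refl _⟩
    · rw [mem_B]; push_cast; exact ⟨⟨by omega, by omega⟩, ⟨0, by norm_num⟩⟩
    · have h2 : gg (fun _ : Fin (n + 1 + 1) => (1 : ℤ)) ∣ 1 := by
        have h3 := (dvd_gg (fun _ : Fin (n + 1 + 1) => (1 : ℤ)) (gg (fun _ : Fin (n + 1 + 1) => (1 : ℤ)))).1 dvd_rfl 0
        exact_mod_cast h3
      exact Nat.dvd_one.1 h2
  · intro t ht
    unfold Am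
    rw [Finset.prod_ne_zero_iff]
    intro i _
    have h3 : t ∈ box (n + 1 + 1) (2 * M) := (Finset.mem_filter.1 (Finset.mem_filter.1 ht).1).1
    obtain ⟨⟨ha, hb⟩, ho⟩ := mem_B.1 (mem_box.1 h3 i)
    unfold aK
    refine mul_ne_zero ?_ ?_
    · have hK : (0 : ℝ) < ((2 * M : ℕ) : ℝ) := by exact_mod_cast (by omega : 0 < 2 * M)
      have hlt : |((t i : ℤ) : ℝ)| < ((2 * M : ℕ) : ℝ) := by
        rw [abs_lt]
        constructor
        · exact_mod_cast ha
        · exact_mod_cast hb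
      have : |((t i : ℤ) : ℝ)| / ((2 * M : ℕ) : ℝ) < 1 := by rw [div_lt_one hK]; exact hlt
      linarith
    · intro h
      have h4 := sh_sq (t i) ho
      rw [h] at h4
      have h5 : (0 : ℝ) < 4 / (π ^ 2 * ((t i : ℤ) : ℝ) ^ 2) := by
        have : ((t i : ℤ) : ℝ) ≠ 0 := by
          intro h6
          have : t i = 0 := by exact_mod_cast h6
          rw [this] at ho; exact absurd ho (by decide)
        have := pi_pos
        positivity
      rw [← h4] at h5
      norm_num at h5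
  · intro t ht t' ht' hne
    by_contra hcon
    push Not at hcon
    apply hne
    have h0 := hpos t ht
    have h0' := hpos t' ht'
    set g : ℤ := ((Int.gcd (t 0) (t' 0) : ℕ) : ℤ) with hg
    have hgpos : 0 < g := by
      rw [hg]; exact_mod_cast Int.gcd_pos_of_ne_zero_left _ (by omega)
    obtain ⟨x, hx⟩ : g ∣ t 0 := Int.gcd_dvd_left _ _
    obtain ⟨y, hy⟩ : g ∣ t' 0 := Int.gcd_dvd_right _ _
    have hcop : IsCoprime x y := by
      have h2 : Int.gcd (g * x) (g * y) = g.natAbs * Int.gcd x y := Int.gcd_mul_left _ _ _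
      rw [← hx, ← hy] at h2
      have h3 : Int.gcd x y = 1 := by
        have h4 : (g.natAbs : ℤ) = g := Int.natAbs_of_nonneg hgpos.le
        have h5 : (Int.gcd (t 0) (t' 0) : ℤ) = g := rfl
        have h6 : g.natAbs = Int.gcd (t 0) (t' 0) := by
          have : (g.natAbs : ℤ) = (Int.gcd (t 0) (t' 0) : ℤ) := by rw [h4]
          exact_mod_cast this
        rw [h6] at h2
        have h7 : 0 < Int.gcd (t 0) (t' 0) := by
          have : (0 : ℤ) < (Int.gcd (t 0) (t' 0) : ℤ) := hgpos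
          exact_mod_cast this
        have h8 : Int.gcd (t 0) (t' 0) * 1 = Int.gcd (t 0) (t' 0) * Int.gcd x y := by
          rw [mul_one]; exact h2
        exact (Nat.eq_of_mul_eq_mul_left h7 h8).symm
      exact Int.isCoprime_iff_gcd_eq_one.2 h3
    have hrel : ∀ i, x * t' i = y * t i := by
      intro i
      have h2 := hcon 0 i
      rw [hx, hy] at h2
      have h3 : g * (x * t' i) = g * (y * t i) := by linear_combination h2
      exact mul_left_cancel₀ hgpos.ne' h3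
    have hx1 : IsUnit x := by
      apply hprim t ht
      intro i
      have : x ∣ y * t i := ⟨t' i, (hrel i).symm⟩
      exact hcop.dvd_of_dvd_mul_left this
    have hy1 : IsUnit y := by
      apply hprim t' ht'
      intro i
      have : y ∣ x * t' i := ⟨t i, hrel i⟩
      exact hcop.symm.dvd_of_dvd_mul_left this
    have hxpos : 0 < x := by
      rw [hx] at h0
      by_contra h
      push Not at h
      nlinarith
    have hypos : 0 < y := by
      rw [hy] at h0'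
      by_contra h
      push Not at h
      nlinarith
    have hx2 : x = 1 := by
      rcases Int.isUnit_iff.1 hx1 with h | h
      · exact h
      · omega
    have hy2 : y = 1 := by
      rcases Int.isUnit_iff.1 hy1 with h | h
      · exact h
      · omega
    funext i
    have := hrel i
    rw [hx2, hy2, one_mul, one_mul] at this
    exact this.symm
  · intro φ
    have h2 := norm_prim_le (R := n + 1) (K := 2 * M) (by omega) φ
    have h3 : 2 * ∑ t ∈ TT n M, Am (2 * M) t * cos (2 * π * ∑ i, (t i : ℝ) * φ i)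
        = (∑ t ∈ pbox (n + 1 + 1) (2 * M), (Am (2 * M) t : ℂ) * ee (dot t φ)).re := by
      rw [← sum_pbox n M (fun t => Am (2 * M) t * cos (2 * π * ∑ i, (t i : ℝ) * φ i))]
      · rw [Complex.re_sum]
        refine Finset.sum_congr rfl fun t _ => ?_
        rw [Complex.re_ofReal_mul, ee_re]; rfl
      · intro t
        rw [Am_neg]
        have : 2 * π * ∑ i, (((-t) i : ℤ) : ℝ) * φ i = - (2 * π * ∑ i, (t i : ℝ) * φ i) := by
          rw [← mul_neg, ← Finset.sum_neg_distrib]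
          congr 1
          refine Finset.sum_congr rfl fun i _ => ?_
          simp
        rw [this, cos_neg]
    rw [h3]
    refine (Complex.abs_re_le_norm _).trans (h2.trans ((sup_bound (2 * M) n).trans ?_))
    linarith
  · rw [← sum_pbox n M (fun t => Am (2 * M) t ^ 2) (fun t => by simp only [Am_neg])]
    have := prim_mass_ge M n
    linarith
  · rw [← sum_pbox n M (fun t => Am (2 * M) t ^ 2) (fun t => by simp only [Am_neg])]
    have h2 : ∑ t ∈ pbox (n + 1 + 1) (2 * M), Am (2 * M) t ^ 2 ≤ ∑ t ∈ box (n + 1 + 1) (2 * M), Am (2 * M) t ^ 2 :=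
      Finset.sum_le_sum_of_subset_of_nonneg (Finset.filter_subset _ _) (fun _ _ _ => by positivity)
    refine h2.trans ?_
    rw [sum_box]
    exact pow_le_one₀ (mass_nonneg M) (mass_le_one M)

end Crest.Agent.R075.ThmF
end

-- ▼ part R075/Design

/-!
# Row 75, THM D: existence of the tiling (helper332)
-/

set_option autoImplicit false

namespace Crest.Agent.R075

open Finset

/-- statement of the packing lemma (774), with `pblk` -/
def PackStmt : Prop :=
  ∀ {R : ℕ} (T : Finset (Fin (R+1) → ℤ)), (∀ t ∈ T, 1 ≤ t 0) →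
    (∀ t ∈ T, ∀ t2 ∈ T, t ≠ t2 → ∃ i j, t i * t2 j ≠ t j * t2 i) →
    ∀ (p : (Fin (R+1) → ℤ) → ℝ), (∀ t ∈ T, 0 < p t) → 2 * ∑ t ∈ T, p t ≤ 1 →
    ∀ (L : ℕ), 0 < L → (∀ t ∈ T, t 0 ∣ (L : ℤ)) → ∀ (eps : ℝ), 0 < eps →
    ∃ l0 : ℕ, ∀ l ≥ l0, l.Prime → ∃ (sigma : ZMod l → (Fin (R+1) → ℤ))
      (W : Finset ((Fin (R+1) → ZMod l) × ℕ)), W.Nonempty ∧ (∀ B, sigma (-1 - B) = - sigma B) ∧
      (∀ g ∈ W, g.2 < L) ∧ (∀ g ∈ W, ∀ t ∈ T, sigma (pblk l L t g) = t) ∧
      (∀ t ∈ T, ∀ B : ZMod l, ∀ r : ℤ,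
        ((W.filter fun g => pblk l L t g = B ∧ t 0 * g.2 % L = r).card : ℝ)
          ≤ (1+eps) * W.card * t 0 / (p t * (L * l)))

lemma inv_sqrt_bound {th e1 : ℝ} (h1 : 1 ≤ th) (h2 : th ≤ 1 + e1) :
    |1 / Real.sqrt th - 1| ≤ e1 := by
  have h0 : 0 < th := by linarith
  have hs : 1 ≤ Real.sqrt th := by
    rw [show (1:ℝ) = Real.sqrt 1 by simp]; exact Real.sqrt_le_sqrt h1
  have hs2 : Real.sqrt th ≤ th := by
    have := Real.sq_sqrt h0.le
    nlinarith
  have h3 : 1 / Real.sqrt th ≤ 1 := by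
    rw [div_le_one (by linarith)]; exact hs
  have h4 : 1 - e1 ≤ 1 / Real.sqrt th := by
    rw [le_div_iff₀ (by linarith)]
    by_cases he : e1 ≤ 1
    · have : (1 - e1) * Real.sqrt th ≤ (1 - e1) * (1 + e1) :=
        mul_le_mul_of_nonneg_left (by linarith) (by linarith)
      nlinarith [sq_nonneg e1]
    · have : (1 - e1) * Real.sqrt th ≤ 0 :=
        mul_nonpos_of_nonpos_of_nonneg (by linarith) (by linarith)
      linarith
  rw [abs_le]; constructor <;> linarith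

set_option maxHeartbeats 1000000 in
theorem tiling_of_pack (henum : EnumTiles) (hpack : PackStmt) (ε : ℝ) (hε : 0 < ε) :
    Nonempty (Tiling ε) := by
  classical
  -- constants
  set e : ℝ := min ε 1 / 100 with he
  have he0 : 0 < e := by rw [he]; positivity
  have he1 : e ≤ 1 / 100 := by
    rw [he]; have := min_le_right ε 1; linarith
  have heε : 100 * e ≤ ε := by
    rw [he]; have := min_le_left ε 1; linarith
  obtain ⟨R, T, f, hTne, hodd, hpos, -, hf0, hnp, hE, hlow, hup⟩ := ThmF.thmF e he0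
  set c : ℝ := (T.card : ℝ) with hc
  have hc0 : 0 ≤ c := by rw [hc]; positivity
  set e1 : ℝ := e / (c + 1) with he1d
  have he10 : 0 < e1 := by rw [he1d]; positivity
  have he1e : e1 ≤ e := by
    rw [he1d]; exact div_le_self he0.le (by linarith)
  have hce1 : c * e1 ≤ e := by
    rw [he1d, mul_div_assoc', div_le_iff₀ (by linarith)]
    nlinarith
  -- L
  set L : ℕ := ∏ t ∈ T, (t 0).toNat with hL
  have hcast : ∀ t ∈ T, (((t 0).toNat : ℕ) : ℤ) = t 0 := fun t ht =>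
    Int.toNat_of_nonneg (by have := hpos t ht; omega)
  have hLodd : Odd L := by
    rw [hL]
    apply Finset.prod_induction _ Odd (fun a b => Odd.mul) odd_one
    intro t ht
    have := hodd t ht 0
    rw [← hcast t ht] at this
    exact_mod_cast this
  have hdvdN : ∀ t ∈ T, (t 0).toNat ∣ L := fun t ht => Finset.dvd_prod_of_mem _ ht
  have hdvd : ∀ t ∈ T, t 0 ∣ (L : ℤ) := by
    intro t ht
    rw [← hcast t ht]
    exact_mod_cast hdvdN t ht
  -- packing
  have hp : ∀ t ∈ T, 0 < (f t) ^ 2 := fun t ht => by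
    have := hf0 t ht; positivity
  obtain ⟨l0, hl0⟩ := hpack T hpos hnp (fun t => (f t) ^ 2) hp hup L hLodd.pos hdvd e he0
  obtain ⟨l, hl_ge, hlp⟩ := Nat.exists_infinite_primes (max l0 3)
  have hlodd : Odd l := hlp.odd_of_ne_two (by
    intro h2; rw [h2] at hl_ge; have := le_max_right l0 3; omega)
  obtain ⟨sigma, W, hWne, hsig, hWL, hW, hload⟩ := hl0 l (le_trans (le_max_left _ _) hl_ge) hlp
  have hWc : (0:ℝ) < W.card := by
    have := Finset.card_pos.mpr hWne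
    exact_mod_cast this
  have hLpos : (0:ℝ) < L := by exact_mod_cast hLodd.pos
  have hlpos : (0:ℝ) < l := by exact_mod_cast hlodd.pos
  have ht0 : ∀ t ∈ T, (0:ℝ) < t 0 := fun t ht => by
    have := hpos t ht
    have h2 : (0:ℤ) < t 0 := by omega
    exact_mod_cast h2
  -- torsion
  set H : (Fin (R+1) → ℤ) → ℝ := fun t => (1+e) * W.card * t 0 / ((f t) ^ 2 * (L * l)) with hH
  have hHpos : ∀ t ∈ T, 0 < H t := by
    intro t ht
    have h1 := hp t ht
    have h2 := ht0 t ht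
    simp only [hH]
    positivity
  obtain ⟨kap, q, A, hkap, -, hq, hqB, hqc, hqA, hqA2⟩ := thmQ T hpos hnp H hHpos e1 he10 L
  have hkap0 : (0:ℝ) < kap := by exact_mod_cast hkap
  have hq0 : ∀ t ∈ T, (0:ℝ) < q t := fun t ht => by
    have := (hq t ht).2.1
    exact_mod_cast (by omega : 0 < q t)
  let P : PackData R := {
    T := T
    hpos := hpos
    L := L
    l := l
    L_odd := hLodd
    l_odd := hlodd
    hdvd := hdvd
    sigma := sigma
    hsigma := hsig
    W := W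
    hW := hW
    kap := kap
    q := q
    q_odd := fun t ht => (hq t ht).1
    q_cop := hqc
    q_copL := by
      intro t ht
      apply Nat.Coprime.symm
      apply hqB t ht
      · have := hpos t ht; omega
      · exact Nat.le_of_dvd hLodd.pos (hdvdN t ht)
    load := by
      intro t ht B r
      have h1 := hload t ht B r
      have h2 := (hq t ht).2.2.1
      have h3 : (kap : ℝ) * ((W.filter fun g => pblk l L t g = B ∧ t 0 * g.2 % L = r).card : ℝ)
        ≤ kap * H t := mul_le_mul_of_nonneg_left h1 hkap0.le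
      have h4 : (kap : ℝ) * ((W.filter fun g => pblk l L t g = B ∧ t 0 * g.2 % L = r).card : ℝ) ≤ q t :=
        le_trans h3 h2
      exact_mod_cast h4 }
  -- the cells
  set C := P.cells with hC
  -- theta_t = q_t / (kap H_t)
  have hth : ∀ t ∈ T, 1 ≤ q t / (kap * H t) ∧ q t / (kap * H t) ≤ 1 + e1 := by
    intro t ht
    have h1 := hHpos t ht
    have h2 := (hq t ht).2.2
    have h3 : 0 < kap * H t := by positivity
    constructor
    · rw [le_div_iff₀ h3]; linarith [h2.1]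
    · rw [div_le_iff₀ h3]; linarith [h2.2]
  -- number of pieces
  set Pn : ℝ := (W.card : ℝ) * kap with hPn
  have hPn0 : 0 < Pn := by rw [hPn]; positivity
  have hcard : (Fintype.card (P.Wt × Fin P.kap) : ℝ) = Pn := by
    have h1 : Fintype.card (P.Wt × Fin P.kap) = W.card * kap := by
      rw [Fintype.card_prod, Fintype.card_fin, Fintype.card_coe]
    rw [h1]; push_cast; rfl
  set De : ℝ := (1 - 7 * e) / Pn with hDe
  have hDe0 : 0 < De := by
    rw [hDe]; apply div_pos _ hPn0; linarith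
  -- the main algebraic identity
  have hmain : ∀ t ∈ T, (t 0 : ℝ) / (L * l * q t)
      = (f t) ^ 2 / ((1 + e) * Pn * (q t / (kap * H t))) := by
    intro t ht
    have h1 := hHpos t ht
    have h2 := hp t ht
    have h3 := hq0 t ht
    have h4 := ht0 t ht
    have h5 : H t = (1+e) * W.card * t 0 / ((f t) ^ 2 * (L * l)) := rfl
    have h6 : (1 + e) * Pn * (q t / (kap * H t)) = q t * ((f t) ^ 2 * (L * l)) / t 0 := by
      rw [h5, hPn]
      have : (0:ℝ) < 1 + e := by linarith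
      field_simp
    rw [h6]
    have h7 := hf0 t ht
    field_simp
  have hfle : ∀ t ∈ T, |f t| ≤ 1 := by
    intro t ht
    have h1 : (f t) ^ 2 ≤ ∑ t ∈ T, (f t) ^ 2 :=
      Finset.single_le_sum (f := fun t => (f t) ^ 2) (fun i _ => sq_nonneg _) ht
    rw [← sq_le_one_iff_abs_le_one]
    have h2 := hp t ht
    linarith
  -- amplitude
  set rho : ℝ := 1 / Real.sqrt ((1 + e) * (1 - 7 * e)) with hrho
  have hprod : 0 < (1 + e) * (1 - 7 * e) := by
    apply mul_pos <;> linarith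
  have hrho0 : 0 < rho := by rw [hrho]; positivity
  have hrho1 : rho ≤ 1 + 8 * e := by
    rw [hrho, div_le_iff₀ (Real.sqrt_pos.mpr hprod)]
    have h1 : 1 - 7 * e ≤ Real.sqrt ((1 + e) * (1 - 7 * e)) := by
      apply Real.le_sqrt_of_sq_le
      nlinarith
    nlinarith
  have hamp : ∀ t : P.Ty, |Real.sqrt ((t.1 0 : ℝ) / (((L * l : ℕ) : ℝ) * (q t.1 : ℝ) * De))
      - rho * (|f t.1|)| ≤ rho * e1 := by
    intro t
    obtain ⟨h1, h2⟩ := hth t.1 t.2
    set th : ℝ := q t.1 / (kap * H t.1) with hthd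
    have hth0 : 0 < th := by linarith
    have h3 : (t.1 0 : ℝ) / (((L * l : ℕ) : ℝ) * (q t.1 : ℝ) * De)
        = (f t.1) ^ 2 * (1 / ((1 + e) * (1 - 7 * e))) * (1 / th) := by
      have h4 : (t.1 0 : ℝ) / (((L * l : ℕ) : ℝ) * (q t.1 : ℝ) * De)
          = ((t.1 0 : ℝ) / (L * l * q t.1)) / De := by
        push_cast; rw [div_div]
      rw [h4, hmain t.1 t.2, ← hthd, hDe]
      have a1 : (1 + e) ≠ 0 := by linarith
      have a2 : (1 - 7 * e) ≠ 0 := by linarith
      field_simp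
    rw [h3, Real.sqrt_mul (by positivity), Real.sqrt_mul (by positivity), Real.sqrt_sq_eq_abs,
      Real.sqrt_div zero_le_one, Real.sqrt_div zero_le_one, Real.sqrt_one, ← hrho]
    have h5 : |f t.1| * rho * (1 / Real.sqrt th) - rho * |f t.1|
        = rho * |f t.1| * (1 / Real.sqrt th - 1) := by ring
    rw [h5, abs_mul, abs_mul, abs_abs, abs_of_pos hrho0]
    have h6 := inv_sqrt_bound h1 h2
    have h7 := hfle t.1 t.2
    calc rho * |f t.1| * |1 / Real.sqrt th - 1| ≤ rho * 1 * e1 := by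
          apply mul_le_mul _ h6 (abs_nonneg _) (by positivity)
          exact mul_le_mul_of_nonneg_left h7 hrho0.le
      _ = rho * e1 := by ring
  obtain ⟨al, hal⟩ := amp_bound (ι := P.Ty) (fun t => t.1) (fun t => hpos t.1 t.2) (fun t => f t.1) (1 + e)
    (by
      intro φ
      have h1 := hE φ
      have h2 : ∑ t : P.Ty, f t.1 * Real.cos (2 * Real.pi * ∑ i, (t.1 i : ℝ) * φ i)
          = ∑ t ∈ T, f t * Real.cos (2 * Real.pi * ∑ i, (t i : ℝ) * φ i) :=
        Finset.sum_coe_sort T (fun t => f t * Real.cos (2 * Real.pi * ∑ i, (t i : ℝ) * φ i))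
      rw [h2]; exact h1)
    (fun t => q t.1) (fun t => (hq t.1 t.2).1) A (fun t => hqA t.1 t.2)
    (fun t t2 h => hqA2 t.1 t.2 t2.1 t2.2 (fun h' => h (Subtype.ext h'))) (L * l)
    (Nat.mul_pos hLodd.pos hlodd.pos)
  have hL' : (0:ℤ) < L := by exact_mod_cast hLodd.pos
  refine tiling_of_cells henum C ε hε.le De hDe0 ?_ al ?_
  · -- time
    rw [hcard]
    have h1 : ∑ t : P.Ty, (C.t1 t : ℝ) / (C.h * C.q t) = ∑ t ∈ T, (t 0 : ℝ) / (L * l * q t) := by
      rw [← Finset.sum_coe_sort T (fun t => (t 0 : ℝ) / (L * l * q t))]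
      apply Finset.sum_congr rfl
      intro t _
      have e1 : (C.t1 t : ℝ) = (t.1 0 : ℝ) := by
        have : ((C.t1 t : ℕ) : ℤ) = t.1 0 := hcast t.1 t.2
        exact_mod_cast this
      have e2 : (C.h : ℝ) = L * l := by
        have : C.h = L * l := rfl
        rw [this]; push_cast; ring
      have e3 : C.q t = q t.1 := rfl
      rw [e1, e2, e3]
    rw [h1]
    have h2 : (∑ t ∈ T, (f t) ^ 2) / ((1 + e) * Pn * (1 + e1)) ≤ ∑ t ∈ T, (t 0 : ℝ) / (L * l * q t) := by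
      rw [Finset.sum_div]
      apply Finset.sum_le_sum
      intro t ht
      rw [hmain t ht]
      obtain ⟨h3, h4⟩ := hth t ht
      apply div_le_div_of_nonneg_left (sq_nonneg _)
      · positivity
      · apply mul_le_mul_of_nonneg_left h4; positivity
    have h3 : (1 - e) / ((1 + e) * (1 + e1)) ≤ 2 * Pn * ∑ t ∈ T, (t 0 : ℝ) / (L * l * q t) := by
      calc (1 - e) / ((1 + e) * (1 + e1)) ≤ (2 * ∑ t ∈ T, (f t) ^ 2) / ((1 + e) * (1 + e1)) := by
            apply div_le_div_of_nonneg_right hlow; positivity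
        _ = 2 * Pn * ((∑ t ∈ T, (f t) ^ 2) / ((1 + e) * Pn * (1 + e1))) := by
            have : (1 + e1) ≠ 0 := by linarith
            field_simp
        _ ≤ _ := by apply mul_le_mul_of_nonneg_left h2; positivity
    have h4 : 1 - 3 * e ≤ (1 - e) / ((1 + e) * (1 + e1)) := by
      rw [le_div_iff₀ (by positivity)]
      have h5 : (1 + e) * (1 + e1) ≤ (1 + e) * (1 + e) := by
        apply mul_le_mul_of_nonneg_left <;> linarith
      have h6 : (1 - 3 * e) * ((1 + e) * (1 + e1)) ≤ (1 - 3 * e) * ((1 + e) * (1 + e)) :=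
        mul_le_mul_of_nonneg_left h5 (by linarith)
      nlinarith [mul_pos he0 he0, mul_pos (mul_pos he0 he0) he0]
    have h5 : Pn * De = 1 - 7 * e := by
      rw [hDe]; field_simp
    rw [h5]
    have h6 := h4.trans h3
    linarith
  · -- amplitude
    intro i k G
    have h1 := hal rho De (rho * e1) hDe0 hrho0.le hamp (fun r => uu l L i.1.1 r) (P.a i) k G
    have h2 : rho * (1 + e) + 2 * (Fintype.card P.Ty : ℝ) * (rho * e1) ≤ 1 + ε := by
      have hcT : (Fintype.card P.Ty : ℝ) = c := by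
        rw [hc, Fintype.card_coe]
      rw [hcT]
      have h3 : rho * (1 + e) ≤ (1 + 8 * e) * (1 + e) :=
        mul_le_mul_of_nonneg_right hrho1 (by linarith)
      have h4 : 2 * c * (rho * e1) ≤ 2 * ((1 + 8 * e) * e) := by
        have : rho * (c * e1) ≤ (1 + 8 * e) * e := mul_le_mul hrho1 hce1 (by positivity) (by linarith)
        calc 2 * c * (rho * e1) = 2 * (rho * (c * e1)) := by ring
          _ ≤ _ := by linarith
      nlinarith
    refine le_trans (le_of_eq ?_) (le_trans h1 h2)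
    congr 2
    apply Finset.sum_congr rfl
    intro t _
    apply Finset.sum_congr rfl
    intro j _
    have a1 : (C.t1 t : ℝ) = (t.1 0 : ℝ) := by
      have : ((C.t1 t : ℕ) : ℤ) = t.1 0 := hcast t.1 t.2
      exact_mod_cast this
    have a2 : (C.M : ℝ) = ((L * l : ℕ) : ℝ) * ((∏ t2 : P.Ty, q t2.1 : ℕ) : ℝ) := by
      have : C.M = (L * l) * ∏ t2 : P.Ty, q t2.1 := rfl
      rw [this]; push_cast; ring
    have a3 : (C.s i t : ℝ) + C.h * C.v i t
        = ((∑ r, t.1 r * uu l L i.1.1 r : ℤ) : ℝ) + ((L * l : ℕ) : ℝ) * (t.1 0 : ℝ) * (P.a i : ℝ) := by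
      have b1 := sum_uu l L hLodd.pos hlodd.pos t.1 i.1.1
      have b2 : (C.s i t : ℤ) = sS l L t.1 i.1.1 := rfl
      have b3 : C.v i t = NN l L t.1 i.1.1 / l + ((t.1 0).toNat : ℤ) * P.a i := rfl
      have b4 : C.h = L * l := rfl
      have b5 := hcast t.1 t.2
      have b6 : (C.s i t : ℤ) + C.h * C.v i t
          = (∑ r, t.1 r * uu l L i.1.1 r) + (L * l : ℕ) * t.1 0 * P.a i := by
        rw [b1, b2, b3, b4, b5]; ring
      exact_mod_cast b6
    have a4 : C.q t = q t.1 := rfl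
    have a5 : (C.h : ℝ) = ((L * l : ℕ) : ℝ) := rfl
    rw [a3, a1, a2, a4, a5]

end Crest.Agent.R075
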