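import Mathlib

-- ▼ part R075/Pack
section

set_option autoImplicit false
set_option linter.unusedSectionVars false

namespace Crest.Agent.R075.Pack

open Finset

/-! ### Weighted sums over assignments -/

section Exp

variable {ι κ : Type*} [Fintype ι] [DecidableEq ι] [DecidableEq κ]

/-- weighted sum over all assignments `ι → V` -/
noncomputable def Ex (V : Finset κ) (P : κ → ℝ) (F : (ι → κ) → ℝ) : ℝ :=
  ∑ x ∈ Fintype.piFinset (fun _ : ι => V), (∏ i, P (x i)) * F x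

lemma Ex_prod (V : Finset κ) (P : κ → ℝ) (f : ι → κ → ℝ) :
    Ex V P (fun x => ∏ i, f i (x i)) = ∏ i, ∑ v ∈ V, P v * f i v := by
  unfold Ex
  rw [Finset.prod_univ_sum]
  exact sum_congr rfl fun x _ => by rw [← prod_mul_distrib]

lemma Ex_ind (V : Finset κ) (P : κ → ℝ) (hP : ∑ v ∈ V, P v = 1)
    {J : Type*} [DecidableEq J] (S : Finset J) (b : J → ι)
    (hb : ∀ j ∈ S, ∀ j' ∈ S, b j = b j' → j = j') (c : J → κ) (hc : ∀ j ∈ S, c j ∈ V) :
    Ex V P (fun x : ι → κ => ∏ j ∈ S, if x (b j) = c j then (1:ℝ) else 0) =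
      ∏ j ∈ S, P (c j) := by
  have h1 : (fun x : ι → κ => ∏ j ∈ S, if x (b j) = c j then (1:ℝ) else 0) =
      fun x : ι → κ => ∏ i, (fun (i : ι) (v : κ) =>
        ∏ j ∈ S with b j = i, if v = c j then (1:ℝ) else 0) i (x i) := by
    funext x
    rw [← Finset.prod_fiberwise S b]
    refine prod_congr rfl fun i _ => prod_congr rfl fun j hj => ?_
    rw [mem_filter] at hj
    rw [hj.2]
  rw [h1]
  refine (Ex_prod V P (fun (i : ι) (v : κ) =>
        ∏ j ∈ S with b j = i, if v = c j then (1:ℝ) else 0)).trans ?_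
  rw [← Finset.prod_fiberwise S b]
  refine prod_congr rfl fun i _ => ?_
  rcases (S.filter fun j => b j = i).eq_empty_or_nonempty with h | ⟨j, hj⟩
  · simp only [h, prod_empty, mul_one, hP]
  · have hs : (S.filter fun j => b j = i) = {j} := by
      rw [mem_filter] at hj
      ext j'
      rw [mem_filter, mem_singleton]
      constructor
      · rintro ⟨h1, h2⟩
        exact hb _ h1 _ hj.1 (h2.trans hj.2.symm)
      · rintro rfl
        exact hj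
    rw [mem_filter] at hj
    simp only [hs, prod_singleton]
    simp only [mul_ite, mul_one, mul_zero]
    rw [Finset.sum_ite_eq' V (c j) P, if_pos (hc j hj.1)]

lemma Ex_add (V : Finset κ) (P : κ → ℝ) (F G : (ι → κ) → ℝ) :
    Ex V P (fun x => F x + G x) = Ex V P F + Ex V P G := by
  unfold Ex
  rw [← sum_add_distrib]
  exact sum_congr rfl fun x _ => by ring

lemma Ex_smul (V : Finset κ) (P : κ → ℝ) (c : ℝ) (F : (ι → κ) → ℝ) :
    Ex V P (fun x => c * F x) = c * Ex V P F := by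
  unfold Ex
  rw [mul_sum]
  exact sum_congr rfl fun x _ => by ring

lemma Ex_sum (V : Finset κ) (P : κ → ℝ) {J : Type*} (S : Finset J) (F : J → (ι → κ) → ℝ) :
    Ex V P (fun x => ∑ j ∈ S, F j x) = ∑ j ∈ S, Ex V P (F j) := by
  unfold Ex
  rw [sum_comm]
  exact sum_congr rfl fun x _ => by rw [mul_sum]

lemma Ex_one (V : Finset κ) (P : κ → ℝ) (hP : ∑ v ∈ V, P v = 1) :
    Ex V P (fun _ : ι → κ => (1:ℝ)) = 1 := by
  have := Ex_prod (ι := ι) V P (fun _ _ => (1:ℝ))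
  simp only [prod_const_one, mul_one, hP] at this
  exact this

lemma Ex_mono (V : Finset κ) (P : κ → ℝ) (hP0 : ∀ v ∈ V, 0 ≤ P v) (F G : (ι → κ) → ℝ)
    (h : ∀ x, F x ≤ G x) : Ex V P F ≤ Ex V P G := by
  unfold Ex
  refine sum_le_sum fun x hx => mul_le_mul_of_nonneg_left (h x) ?_
  refine prod_nonneg fun i _ => hP0 _ ?_
  exact Fintype.mem_piFinset.1 hx i

lemma exists_ge (V : Finset κ) (P : κ → ℝ) (hP0 : ∀ v ∈ V, 0 ≤ P v) (hP : ∑ v ∈ V, P v = 1)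
    (F : (ι → κ) → ℝ) : ∃ x, Ex V P F ≤ F x := by
  by_contra hcon
  push Not at hcon
  have hpos : ∃ x ∈ Fintype.piFinset (fun _ : ι => V), 0 < ∏ i, P (x i) := by
    by_contra h0
    push Not at h0
    have h1 := Ex_one (ι := ι) V P hP
    unfold Ex at h1
    have h2 : ∑ x ∈ Fintype.piFinset (fun _ : ι => V), (∏ i, P (x i)) * (1:ℝ) ≤ 0 :=
      sum_nonpos fun x hx => by rw [mul_one]; exact h0 x hx
    linarith
  obtain ⟨x0, hx0, hx0p⟩ := hpos
  have hlt : Ex V P F < Ex V P (fun _ : ι → κ => Ex V P F) := by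
    conv_lhs => unfold Ex
    conv_rhs => unfold Ex
    refine sum_lt_sum ?_ ⟨x0, hx0, ?_⟩
    · intro x hx
      refine mul_le_mul_of_nonneg_left (hcon x).le ?_
      exact prod_nonneg fun i _ => hP0 _ (Fintype.mem_piFinset.1 hx i)
    · exact mul_lt_mul_of_pos_left (hcon x0) hx0p
  have h3 : Ex V P (fun _ : ι → κ => Ex V P F) = Ex V P F := by
    have := Ex_smul (ι := ι) V P (Ex V P F) (fun _ => 1)
    rw [Ex_one V P hP] at this
    simpa using this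
  rw [h3] at hlt
  exact lt_irrefl _ hlt

end Exp

/-! ### counting -/

lemma card_fiber {V W : Type*} [AddCommGroup V] [Fintype V] [AddCommGroup W] [Fintype W]
    [DecidableEq W] (φ : V →+ W) (h : Function.Surjective φ) (c : W) :
    (univ.filter fun v => φ v = c).card * Fintype.card W = Fintype.card V := by
  classical
  have h1 : Fintype.card V = ∑ d : W, (univ.filter fun v => φ v = d).card := by
    rw [← card_univ (α := V)]
    exact card_eq_sum_card_fiberwise (fun _ _ => mem_univ _)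
  have h2 : ∀ d : W, (univ.filter fun v => φ v = d).card = (univ.filter fun v => φ v = c).card := by
    intro d
    obtain ⟨v0, hv0⟩ := h (c - d)
    refine card_bij (fun v _ => v + v0) ?_ ?_ ?_
    · intro v hv
      rw [mem_filter] at hv ⊢
      refine ⟨mem_univ _, ?_⟩
      rw [map_add, hv.2, hv0]; abel
    · intro v _ v' _ hvv
      exact add_right_cancel hvv
    · intro v hv
      rw [mem_filter] at hv
      refine ⟨v - v0, ?_, by abel⟩
      rw [mem_filter]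
      refine ⟨mem_univ _, ?_⟩
      rw [map_sub, hv.2, hv0]; abel
  rw [h1, sum_congr rfl (fun d _ => h2 d), sum_const, card_univ, smul_eq_mul, mul_comm]


/-! ### the random antisymmetric assignment -/

section Sig

variable {R ℓ : ℕ} [NeZero ℓ]

def rep (B : ZMod ℓ) : ZMod ℓ := if B.val ≤ (-1 - B).val then B else -1 - B

def sg (B : ZMod ℓ) : ℤ :=
  if B.val < (-1 - B).val then 1 else if (-1 - B).val < B.val then -1 else 0

def sig (x : ZMod ℓ → (Fin (R+1) → ℤ)) (B : ZMod ℓ) : Fin (R+1) → ℤ := sg B • x (rep B)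

lemma mir_mir (B : ZMod ℓ) : -1 - (-1 - B) = B := by ring

lemma rep_mir (B : ZMod ℓ) : rep (-1 - B) = rep B := by
  unfold rep
  rw [mir_mir]
  by_cases h1 : B.val ≤ (-1 - B).val <;> by_cases h2 : (-1 - B).val ≤ B.val
  · rw [if_pos h1, if_pos h2]
    exact ZMod.val_injective ℓ (le_antisymm h2 h1)
  · rw [if_pos h1, if_neg h2]
  · rw [if_neg h1, if_pos h2]
  · omega

lemma sg_mir (B : ZMod ℓ) : sg (-1 - B) = - sg B := by
  unfold sg
  rw [mir_mir]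
  rcases lt_trichotomy B.val (-1 - B).val with h | h | h
  · rw [if_neg (by omega), if_pos h, if_pos h]
  · rw [if_neg (by omega), if_neg (by omega), if_neg (by omega), if_neg (by omega)]; rfl
  · rw [if_pos h, if_neg (by omega), if_pos h]; rfl

lemma sig_mir (x : ZMod ℓ → (Fin (R+1) → ℤ)) (B : ZMod ℓ) : sig x (-1 - B) = - sig x B := by
  unfold sig
  rw [sg_mir, rep_mir, neg_smul]

lemma rep_eq {B B' : ZMod ℓ} (h : rep B = rep B') : B = B' ∨ B = -1 - B' := by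
  unfold rep at h
  split_ifs at h with h1 h2 h2
  · exact Or.inl h
  · exact Or.inr h
  · right; rw [← h]; ring
  · left
    have : -1 - (-1 - B) = -1 - (-1 - B') := by rw [h]
    rwa [mir_mir, mir_mir] at this

lemma sg_sq {B : ZMod ℓ} (h : B ≠ -1 - B) : sg B * sg B = 1 := by
  unfold sg
  have : B.val ≠ (-1 - B).val := fun h' => h (ZMod.val_injective ℓ h')
  rcases lt_or_gt_of_ne this with h' | h'
  · rw [if_pos h']; rfl
  · rw [if_neg (by omega), if_pos h']; rfl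

lemma sg_cases {B : ZMod ℓ} (h : B ≠ -1 - B) : sg B = 1 ∨ sg B = -1 := by
  unfold sg
  have : B.val ≠ (-1 - B).val := fun h' => h (ZMod.val_injective ℓ h')
  rcases lt_or_gt_of_ne this with h' | h'
  · rw [if_pos h']; exact Or.inl rfl
  · rw [if_neg (by omega), if_pos h']; exact Or.inr rfl

lemma sig_eq_iff (x : ZMod ℓ → (Fin (R+1) → ℤ)) {B : ZMod ℓ} (h : B ≠ -1 - B)
    (t : Fin (R+1) → ℤ) : sig x B = t ↔ x (rep B) = sg B • t := by
  unfold sig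
  constructor
  · rintro rfl
    rw [smul_smul, sg_sq h, one_smul]
  · intro h'
    rw [h', smul_smul, sg_sq h, one_smul]

variable (T : Finset (Fin (R+1) → ℤ)) (p : (Fin (R+1) → ℤ) → ℝ)

def Vs : Finset (Fin (R+1) → ℤ) := insert 0 (T ∪ T.image (fun t => -t))

noncomputable def Pw (v : Fin (R+1) → ℤ) : ℝ :=
  if v = 0 then 1 - 2 * ∑ t ∈ T, p t else if v ∈ T then p v else p (-v)

variable {T p}

lemma zero_not_mem (hpos : ∀ t ∈ T, 1 ≤ t 0) : (0 : Fin (R+1) → ℤ) ∉ T := by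
  intro h
  have := hpos _ h
  simp at this

lemma neg_not_mem (hpos : ∀ t ∈ T, 1 ≤ t 0) {t : Fin (R+1) → ℤ} (ht : t ∈ T) : -t ∉ T := by
  intro h
  have h1 := hpos _ h
  have h2 := hpos _ ht
  simp only [Pi.neg_apply] at h1
  omega

lemma ne_zero_of_mem (hpos : ∀ t ∈ T, 1 ≤ t 0) {t : Fin (R+1) → ℤ} (ht : t ∈ T) : t ≠ 0 := by
  rintro rfl
  exact zero_not_mem hpos ht

lemma Pw_pos (hpos : ∀ t ∈ T, 1 ≤ t 0) {t : Fin (R+1) → ℤ} (ht : t ∈ T) : Pw T p t = p t := by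
  unfold Pw
  rw [if_neg (ne_zero_of_mem hpos ht), if_pos ht]

lemma Pw_neg (hpos : ∀ t ∈ T, 1 ≤ t 0) {t : Fin (R+1) → ℤ} (ht : t ∈ T) : Pw T p (-t) = p t := by
  unfold Pw
  rw [if_neg (neg_ne_zero.2 (ne_zero_of_mem hpos ht)), if_neg (neg_not_mem hpos ht), neg_neg]

lemma Pw_sum (hpos : ∀ t ∈ T, 1 ≤ t 0) : ∑ v ∈ Vs T, Pw T p v = 1 := by
  unfold Vs
  rw [sum_insert, sum_union, sum_image]
  · rw [sum_congr rfl (fun t ht => Pw_pos (p := p) hpos ht),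
      sum_congr rfl (fun t ht => Pw_neg (p := p) hpos ht)]
    unfold Pw
    rw [if_pos rfl]; ring
  · intro a _ b _ h
    exact neg_injective h
  · rw [disjoint_left]
    intro a ha hb
    rw [mem_image] at hb
    obtain ⟨b, hb, rfl⟩ := hb
    exact neg_not_mem hpos hb ha
  · rw [mem_union, not_or]
    refine ⟨zero_not_mem hpos, ?_⟩
    rw [mem_image]
    rintro ⟨b, hb, hb0⟩
    exact ne_zero_of_mem hpos hb (neg_eq_zero.1 hb0)

lemma Pw_nonneg (hp : ∀ t ∈ T, 0 < p t) (hsum : 2 * ∑ t ∈ T, p t ≤ 1) :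
    ∀ v ∈ Vs T, 0 ≤ Pw T p v := by
  intro v hv
  unfold Vs at hv
  unfold Pw
  split_ifs with h1 h2
  · linarith
  · exact (hp v h2).le
  · rw [mem_insert, mem_union, mem_image] at hv
    rcases hv with h | h | ⟨b, hb, rfl⟩
    · exact absurd h h1
    · exact absurd h h2
    · rw [neg_neg]; exact (hp b hb).le

lemma Ex_req (hpos : ∀ t ∈ T, 1 ≤ t 0) {J : Type*} [DecidableEq J] (S : Finset J)
    (B : J → ZMod ℓ) (τ : J → (Fin (R+1) → ℤ)) (hτ : ∀ j ∈ S, τ j ∈ T)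
    (hfix : ∀ j ∈ S, B j ≠ -1 - B j)
    (hdist : ∀ j ∈ S, ∀ j' ∈ S, j ≠ j' → B j ≠ B j' ∧ B j ≠ -1 - B j') :
    Ex (Vs T) (Pw T p) (fun x : ZMod ℓ → (Fin (R+1) → ℤ) =>
      ∏ j ∈ S, if sig x (B j) = τ j then (1:ℝ) else 0) = ∏ j ∈ S, p (τ j) := by
  have h1 : (fun x : ZMod ℓ → (Fin (R+1) → ℤ) =>
      ∏ j ∈ S, if sig x (B j) = τ j then (1:ℝ) else 0) =
      fun x => ∏ j ∈ S, if x (rep (B j)) = sg (B j) • τ j then (1:ℝ) else 0 := by
    funext x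
    refine prod_congr rfl fun j hj => ?_
    simp only [sig_eq_iff x (hfix j hj) (τ j)]
  rw [h1, Ex_ind (Vs T) (Pw T p) (Pw_sum hpos) S (fun j => rep (B j)) _
    (fun j => sg (B j) • τ j) _]
  · refine prod_congr rfl fun j hj => ?_
    rcases sg_cases (hfix j hj) with h | h
    · rw [h, one_smul, Pw_pos hpos (hτ j hj)]
    · rw [h, neg_smul, one_smul, Pw_neg hpos (hτ j hj)]
  · intro j hj j' hj' h
    by_contra hne
    have := hdist j hj j' hj' hne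
    rcases rep_eq h with h2 | h2
    · exact this.1 h2
    · exact this.2 h2
  · intro j hj
    unfold Vs
    rw [mem_insert, mem_union, mem_image]
    rcases sg_cases (hfix j hj) with h | h
    · rw [h, one_smul]; exact Or.inr (Or.inl (hτ j hj))
    · rw [h, neg_smul, one_smul]; exact Or.inr (Or.inr ⟨_, hτ j hj, rfl⟩)

end Sig


/-! ### pieces -/

section Piece

variable {R : ℕ}

/-- the block of the type-`t` arc of the piece `g = (w, ρ)` -/
def blk (ℓ L : ℕ) (t : Fin (R+1) → ℤ) (g : (Fin (R+1) → ZMod ℓ) × ℕ) : ZMod ℓ :=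
  (∑ i, (t i : ZMod ℓ) * g.1 i) + ((t 0 * g.2 / L : ℤ) : ZMod ℓ)

/-- the arc (block, offset) -/
def key (ℓ L : ℕ) (t : Fin (R+1) → ℤ) (g : (Fin (R+1) → ZMod ℓ) × ℕ) : ZMod ℓ × ℤ :=
  (blk ℓ L t g, t 0 * g.2 % L)

def Gs (R ℓ L : ℕ) [NeZero ℓ] : Finset ((Fin (R+1) → ZMod ℓ) × ℕ) := univ ×ˢ range L

noncomputable def xi (ℓ L : ℕ) [NeZero ℓ] (T : Finset (Fin (R+1) → ℤ))
    (x : ZMod ℓ → (Fin (R+1) → ℤ)) (g : (Fin (R+1) → ZMod ℓ) × ℕ) : ℝ :=
  ∏ t ∈ T, if sig x (blk ℓ L t g) = t then (1:ℝ) else 0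

noncomputable def eta (ℓ L : ℕ) [NeZero ℓ] (t : Fin (R+1) → ℤ)
    (x : ZMod ℓ → (Fin (R+1) → ℤ)) (g : (Fin (R+1) → ZMod ℓ) × ℕ) : ℝ :=
  if sig x (blk ℓ L t g) = t then (1:ℝ) else 0

def good1 (ℓ L : ℕ) (T : Finset (Fin (R+1) → ℤ)) (g : (Fin (R+1) → ZMod ℓ) × ℕ) : Prop :=
  (∀ t ∈ T, ∀ t' ∈ T, blk ℓ L t g ≠ -1 - blk ℓ L t' g) ∧
    ∀ t ∈ T, ∀ t' ∈ T, t ≠ t' → blk ℓ L t g ≠ blk ℓ L t' g

def good2 (ℓ L : ℕ) (T : Finset (Fin (R+1) → ℤ)) (t : Fin (R+1) → ℤ)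
    (g g' : (Fin (R+1) → ZMod ℓ) × ℕ) : Prop :=
  good1 ℓ L T g ∧ good1 ℓ L T g' ∧ ∀ t' ∈ T.erase t, ∀ t'' ∈ T.erase t,
    blk ℓ L t' g ≠ blk ℓ L t'' g' ∧ blk ℓ L t' g ≠ -1 - blk ℓ L t'' g'

variable {ℓ L : ℕ} [NeZero ℓ] {T : Finset (Fin (R+1) → ℤ)} {p : (Fin (R+1) → ℤ) → ℝ}

lemma Ex_xi (hpos : ∀ t ∈ T, 1 ≤ t 0) {g : (Fin (R+1) → ZMod ℓ) × ℕ} (hg : good1 ℓ L T g) :
    Ex (Vs T) (Pw T p) (fun x => xi ℓ L T x g) = ∏ t ∈ T, p t := by
  unfold xi
  exact Ex_req hpos T (fun t => blk ℓ L t g) (fun t => t) (fun t ht => ht)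
    (fun t ht => hg.1 t ht t ht) (fun t ht t' ht' hne => ⟨hg.2 t ht t' ht' hne, hg.1 t ht t' ht'⟩)

lemma Ex_eta (hpos : ∀ t ∈ T, 1 ≤ t 0) {g : (Fin (R+1) → ZMod ℓ) × ℕ} (hg : good1 ℓ L T g)
    {t : Fin (R+1) → ℤ} (ht : t ∈ T) :
    Ex (Vs T) (Pw T p) (fun x => eta ℓ L t x g) = p t := by
  have h := Ex_req (p := p) hpos {t} (fun t => blk ℓ L t g) (fun t => t)
    (fun t' ht' => by rw [mem_singleton] at ht'; rw [ht']; exact ht)
    (fun t' ht' => by rw [mem_singleton] at ht'; rw [ht']; exact hg.1 t ht t ht)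
    (fun t1 h1 t2 h2 hne => by
      rw [mem_singleton] at h1 h2; exact absurd (h1.trans h2.symm) hne)
  simp only [prod_singleton] at h
  exact h

lemma xi_mul_eta {x : ZMod ℓ → (Fin (R+1) → ℤ)} {g : (Fin (R+1) → ZMod ℓ) × ℕ}
    {t : Fin (R+1) → ℤ} (ht : t ∈ T) : xi ℓ L T x g * eta ℓ L t x g = xi ℓ L T x g := by
  unfold xi eta
  rw [← mul_prod_erase T _ ht]
  split_ifs <;> ring

lemma Ex_xi_xi (hpos : ∀ t ∈ T, 1 ≤ t 0) {t : Fin (R+1) → ℤ} (ht : t ∈ T)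
    {g g' : (Fin (R+1) → ZMod ℓ) × ℕ} (hg : good2 ℓ L T t g g')
    (hb : blk ℓ L t g = blk ℓ L t g') :
    Ex (Vs T) (Pw T p) (fun x => xi ℓ L T x g * xi ℓ L T x g') =
      p t * (∏ t' ∈ T.erase t, p t') ^ 2 := by
  classical
  obtain ⟨h1, h2, h3⟩ := hg
  let S : Finset ((Fin (R+1) → ℤ) × Bool) := T ×ˢ {true} ∪ (T.erase t) ×ˢ {false}
  let B : ((Fin (R+1) → ℤ) × Bool) → ZMod ℓ := fun j => blk ℓ L j.1 (if j.2 then g else g')
  have hdisj : Disjoint (T ×ˢ ({true} : Finset Bool)) ((T.erase t) ×ˢ {false}) := by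
    rw [disjoint_left]
    rintro ⟨a, b⟩ h h'
    simp only [mem_product, mem_singleton] at h h'
    rw [h.2] at h'
    exact absurd h'.2 (by simp)
  have hkey : (fun x : ZMod ℓ → (Fin (R+1) → ℤ) => xi ℓ L T x g * xi ℓ L T x g') =
      fun x => ∏ j ∈ S, if sig x (B j) = j.1 then (1:ℝ) else 0 := by
    funext x
    rw [prod_union hdisj, prod_product, prod_product]
    simp only [prod_singleton, B, if_true]
    have : ∀ x : ZMod ℓ → (Fin (R+1) → ℤ), xi ℓ L T x g' = eta ℓ L t x g *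
        ∏ t' ∈ T.erase t, if sig x (blk ℓ L t' g') = t' then (1:ℝ) else 0 := by
      intro x
      unfold xi eta
      rw [← mul_prod_erase T _ ht, hb]
    rw [this, ← mul_assoc, xi_mul_eta ht]
    rfl
  rw [hkey, Ex_req hpos S B (fun j => j.1)]
  · rw [prod_union hdisj, prod_product, prod_product]
    simp only [prod_singleton]
    rw [← mul_prod_erase T _ ht]; ring
  · rintro ⟨a, b⟩ hj
    rw [mem_union, mem_product, mem_product] at hj
    rcases hj with h | h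
    · exact h.1
    · exact mem_of_mem_erase h.1
  · rintro ⟨a, b⟩ hj
    rw [mem_union, mem_product, mem_product] at hj
    simp only [mem_singleton] at hj
    rcases hj with ⟨ha, rfl⟩ | ⟨ha, rfl⟩
    · exact h1.1 a ha a ha
    · exact h2.1 a (mem_of_mem_erase ha) a (mem_of_mem_erase ha)
  · rintro ⟨a, b⟩ hj ⟨a', b'⟩ hj' hne
    rw [mem_union, mem_product, mem_product] at hj hj'
    simp only [mem_singleton] at hj hj'
    rcases hj with ⟨ha, rfl⟩ | ⟨ha, rfl⟩ <;> rcases hj' with ⟨ha', rfl⟩ | ⟨ha', rfl⟩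
    · have hne' : a ≠ a' := fun h => hne (by rw [h])
      exact ⟨h1.2 a ha a' ha' hne', h1.1 a ha a' ha'⟩
    · have haT' := mem_of_mem_erase ha'
      by_cases hat : a = t
      · subst hat
        have hne' : a ≠ a' := (ne_of_mem_erase ha').symm
        simp only [B, if_true, Bool.false_eq_true, if_false]
        rw [hb]
        exact ⟨h2.2 a ha a' haT' hne', h2.1 a ha a' haT'⟩
      · exact h3 a (mem_erase.2 ⟨hat, ha⟩) a' ha'
    · have haT := mem_of_mem_erase ha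
      by_cases hat : a' = t
      · subst hat
        have hne' : a ≠ a' := ne_of_mem_erase ha
        simp only [B, if_true, Bool.false_eq_true, if_false]
        rw [hb]
        exact ⟨h2.2 a haT a' ha' hne', h2.1 a haT a' ha'⟩
      · have := h3 a' (mem_erase.2 ⟨hat, ha'⟩) a ha
        refine ⟨fun h => this.1 h.symm, fun h => this.2 ?_⟩
        simp only [B, if_true, Bool.false_eq_true, if_false] at h
        rw [h]; ring
    · have hne' : a ≠ a' := fun h => hne (by rw [h])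
      exact ⟨h2.2 a (mem_of_mem_erase ha) a' (mem_of_mem_erase ha') hne',
        h2.1 a (mem_of_mem_erase ha) a' (mem_of_mem_erase ha')⟩

lemma eta_sq {x : ZMod ℓ → (Fin (R+1) → ℤ)} {g : (Fin (R+1) → ZMod ℓ) × ℕ}
    {t : Fin (R+1) → ℤ} : eta ℓ L t x g * eta ℓ L t x g = eta ℓ L t x g := by
  unfold eta
  split_ifs <;> ring

lemma eta_congr {x : ZMod ℓ → (Fin (R+1) → ℤ)} {g g' : (Fin (R+1) → ZMod ℓ) × ℕ}
    {t : Fin (R+1) → ℤ} (hb : blk ℓ L t g = blk ℓ L t g') : eta ℓ L t x g = eta ℓ L t x g' := by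
  unfold eta
  rw [hb]

lemma cross_zero (hpos : ∀ t ∈ T, 1 ≤ t 0) {t : Fin (R+1) → ℤ} (ht : t ∈ T)
    {g g' : (Fin (R+1) → ZMod ℓ) × ℕ} (hg : good2 ℓ L T t g g')
    (hb : blk ℓ L t g = blk ℓ L t g') (q : ℝ) (hq : q = ∏ t' ∈ T.erase t, p t') :
    Ex (Vs T) (Pw T p) (fun x => (xi ℓ L T x g - q * eta ℓ L t x g) *
      (xi ℓ L T x g' - q * eta ℓ L t x g')) = 0 := by
  have h1 : (fun x : ZMod ℓ → (Fin (R+1) → ℤ) => (xi ℓ L T x g - q * eta ℓ L t x g) *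
      (xi ℓ L T x g' - q * eta ℓ L t x g')) = fun x => (xi ℓ L T x g * xi ℓ L T x g' +
        (-q) * xi ℓ L T x g) + ((-q) * xi ℓ L T x g' + q^2 * eta ℓ L t x g) := by
    funext x
    have e1 := xi_mul_eta (L := L) (x := x) (g := g) ht
    have e2 := xi_mul_eta (L := L) (x := x) (g := g') ht
    have e3 := eta_sq (L := L) (x := x) (g := g) (t := t)
    have e4 := eta_congr (x := x) hb
    rw [← e4] at e2 ⊢
    linear_combination (-q) * e1 - q * e2 + q^2 * e3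
  rw [h1, Ex_add, Ex_add, Ex_add, Ex_smul, Ex_smul, Ex_smul, Ex_xi_xi hpos ht hg hb,
    Ex_xi hpos hg.1, Ex_xi hpos hg.2.1, Ex_eta hpos hg.1 ht, ← mul_prod_erase T p ht, ← hq]
  ring

lemma xi_mem {x : ZMod ℓ → (Fin (R+1) → ℤ)} {g : (Fin (R+1) → ZMod ℓ) × ℕ} :
    xi ℓ L T x g = 0 ∨ (xi ℓ L T x g = 1 ∧ ∀ t ∈ T, sig x (blk ℓ L t g) = t) := by
  by_cases h : ∀ t ∈ T, sig x (blk ℓ L t g) = t
  · right
    refine ⟨?_, h⟩
    unfold xi
    exact prod_eq_one fun t ht => if_pos (h t ht)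
  · left
    push Not at h
    obtain ⟨t, ht, hne⟩ := h
    unfold xi
    exact prod_eq_zero ht (if_neg hne)

lemma eta_mem {x : ZMod ℓ → (Fin (R+1) → ℤ)} {g : (Fin (R+1) → ZMod ℓ) × ℕ}
    {t : Fin (R+1) → ℤ} : eta ℓ L t x g = 0 ∨ eta ℓ L t x g = 1 := by
  unfold eta
  split_ifs
  · exact Or.inr rfl
  · exact Or.inl rfl

lemma cross_le (hp : ∀ t ∈ T, 0 < p t) (hsum : 2 * ∑ t ∈ T, p t ≤ 1) (hpos : ∀ t ∈ T, 1 ≤ t 0)
    {t : Fin (R+1) → ℤ}
    (g g' : (Fin (R+1) → ZMod ℓ) × ℕ) (q : ℝ) (hq0 : 0 ≤ q) (hq1 : q ≤ 1) :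
    Ex (Vs T) (Pw T p) (fun x => (xi ℓ L T x g - q * eta ℓ L t x g) *
      (xi ℓ L T x g' - q * eta ℓ L t x g')) ≤ 1 := by
  rw [← Ex_one (ι := ZMod ℓ) (Vs T) (Pw T p) (Pw_sum hpos)]
  refine Ex_mono _ _ (Pw_nonneg hp hsum) _ _ fun x => ?_
  have key : ∀ g : (Fin (R+1) → ZMod ℓ) × ℕ, |xi ℓ L T x g - q * eta ℓ L t x g| ≤ 1 := by
    intro g
    rw [abs_le]
    rcases xi_mem (L := L) (T := T) (x := x) (g := g) with h | h <;>
    rcases eta_mem (L := L) (x := x) (g := g) (t := t) with h' | h' <;>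
    · first
        | rw [h.1, h']
        | rw [h, h']
      constructor <;> linarith
  calc (xi ℓ L T x g - q * eta ℓ L t x g) * (xi ℓ L T x g' - q * eta ℓ L t x g')
      ≤ |(xi ℓ L T x g - q * eta ℓ L t x g) * (xi ℓ L T x g' - q * eta ℓ L t x g')| := le_abs_self _
    _ = |xi ℓ L T x g - q * eta ℓ L t x g| * |xi ℓ L T x g' - q * eta ℓ L t x g'| := abs_mul _ _
    _ ≤ 1 * 1 := mul_le_mul (key g) (key g') (abs_nonneg _) zero_le_one
    _ = 1 := one_mul 1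

end Piece

end Crest.Agent.R075.Pack
end

-- ▼ part R075/PackCount
section

set_option autoImplicit false
set_option linter.unusedSectionVars false

namespace Crest.Agent.R075.Pack

open Finset

section Count

variable {R ℓ : ℕ} [hℓ : Fact ℓ.Prime]

def dotH (a : Fin (R+1) → ℤ) : (Fin (R+1) → ZMod ℓ) →+ ZMod ℓ :=
  AddMonoidHom.mk' (fun w => ∑ i, (a i : ZMod ℓ) * w i) (by
    intro w w'
    rw [← sum_add_distrib]
    exact sum_congr rfl fun i _ => by rw [Pi.add_apply]; ring)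

lemma dotH_apply (a : Fin (R+1) → ℤ) (w : Fin (R+1) → ZMod ℓ) :
    dotH a w = ∑ i, (a i : ZMod ℓ) * w i := rfl

lemma dotH_single (a : Fin (R+1) → ℤ) (i : Fin (R+1)) (x : ZMod ℓ) :
    dotH a (Pi.single i x) = (a i : ZMod ℓ) * x := by
  rw [dotH_apply, sum_eq_single i]
  · rw [Pi.single_eq_same]
  · intro j _ hj
    rw [Pi.single_eq_of_ne hj, mul_zero]
  · intro h; exact absurd (mem_univ i) h

lemma card_W : Fintype.card (Fin (R+1) → ZMod ℓ) = ℓ ^ (R+1) := by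
  rw [Fintype.card_fun, ZMod.card, Fintype.card_fin]

lemma card_one (a : Fin (R+1) → ℤ) {i : Fin (R+1)} (h : (a i : ZMod ℓ) ≠ 0) (c : ZMod ℓ) :
    (univ.filter fun w : Fin (R+1) → ZMod ℓ => dotH a w = c).card = ℓ ^ R := by
  have h1 := card_fiber (dotH (ℓ := ℓ) a) (fun y => ⟨Pi.single i ((a i : ZMod ℓ)⁻¹ * y), by
    rw [dotH_single, mul_inv_cancel_left₀ h]⟩) c
  rw [card_W, ZMod.card, pow_succ] at h1
  exact Nat.eq_of_mul_eq_mul_right hℓ.out.pos h1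

def phi (t a a' : Fin (R+1) → ℤ) :
    ((Fin (R+1) → ZMod ℓ) × (Fin (R+1) → ZMod ℓ)) →+ (ZMod ℓ × ZMod ℓ) :=
  AddMonoidHom.mk' (fun w => (dotH t w.1 - dotH t w.2, dotH a w.1 + dotH a' w.2)) (by
    intro w w'
    simp only [Prod.fst_add, Prod.snd_add, map_add, Prod.mk_add_mk]
    refine Prod.ext ?_ ?_ <;> simp only <;> ring)

lemma phi_apply (t a a' : Fin (R+1) → ℤ) (w : (Fin (R+1) → ZMod ℓ) × (Fin (R+1) → ZMod ℓ)) :
    phi t a a' w = (dotH t w.1 - dotH t w.2, dotH a w.1 + dotH a' w.2) := rfl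

lemma surj1 (t a : Fin (R+1) → ℤ) (ht : (t 0 : ZMod ℓ) ≠ 0) {i : Fin (R+1)}
    (ha : (a i : ZMod ℓ) ≠ 0) : Function.Surjective (phi (ℓ := ℓ) t a 0) := by
  rintro ⟨c1, c2⟩
  obtain ⟨w, hw⟩ : ∃ w : Fin (R+1) → ZMod ℓ, dotH a w = c2 :=
    ⟨Pi.single i ((a i : ZMod ℓ)⁻¹ * c2), by rw [dotH_single, mul_inv_cancel_left₀ ha]⟩
  refine ⟨(w, Pi.single 0 ((t 0 : ZMod ℓ)⁻¹ * (dotH t w - c1))), ?_⟩
  rw [phi_apply]
  simp only
  rw [dotH_single, mul_inv_cancel_left₀ ht, hw]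
  refine Prod.ext ?_ ?_
  · simp only; ring
  · simp [dotH_apply]

lemma surj1' (t a : Fin (R+1) → ℤ) (ht : (t 0 : ZMod ℓ) ≠ 0) {i : Fin (R+1)}
    (ha : (a i : ZMod ℓ) ≠ 0) : Function.Surjective (phi (ℓ := ℓ) t 0 a) := by
  rintro ⟨c1, c2⟩
  obtain ⟨w, hw⟩ : ∃ w : Fin (R+1) → ZMod ℓ, dotH a w = c2 :=
    ⟨Pi.single i ((a i : ZMod ℓ)⁻¹ * c2), by rw [dotH_single, mul_inv_cancel_left₀ ha]⟩
  refine ⟨(Pi.single 0 ((t 0 : ZMod ℓ)⁻¹ * (c1 + dotH t w)), w), ?_⟩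
  rw [phi_apply]
  simp only
  rw [dotH_single, mul_inv_cancel_left₀ ht, hw]
  refine Prod.ext ?_ ?_
  · simp only; ring
  · simp [dotH_apply]

lemma surj2 (t a a' : Fin (R+1) → ℤ) {i j : Fin (R+1)}
    (h : ((t i * a j - t j * a i : ℤ) : ZMod ℓ) ≠ 0) :
    Function.Surjective (phi (ℓ := ℓ) t a a') := by
  rintro ⟨c1, c2⟩
  push_cast at h
  set D : ZMod ℓ := (t i : ZMod ℓ) * a j - t j * a i with hD
  refine ⟨(Pi.single i (D⁻¹ * (c1 * a j - c2 * t j)) + Pi.single j (D⁻¹ * (t i * c2 - a i * c1)),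
    0), ?_⟩
  rw [phi_apply]
  simp only [map_add, dotH_single, map_zero]
  refine Prod.ext ?_ ?_
  · simp only
    field_simp
    rw [hD]; ring
  · simp only
    field_simp
    rw [hD]; ring

lemma card_two (t a a' : Fin (R+1) → ℤ) (hs : Function.Surjective (phi (ℓ := ℓ) t a a'))
    (c1 c2 : ZMod ℓ) :
    (univ.filter fun w : (Fin (R+1) → ZMod ℓ) × (Fin (R+1) → ZMod ℓ) =>
      dotH t w.1 - dotH t w.2 = c1 ∧ dotH a w.1 + dotH a' w.2 = c2).card = ℓ ^ (2 * R) := by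
  have h1 := card_fiber (phi (ℓ := ℓ) t a a') hs (c1, c2)
  have h2 : (univ.filter fun w : (Fin (R+1) → ZMod ℓ) × (Fin (R+1) → ZMod ℓ) =>
      phi t a a' w = (c1, c2)) = (univ.filter fun w => 
      dotH t w.1 - dotH t w.2 = c1 ∧ dotH a w.1 + dotH a' w.2 = c2) := by
    refine filter_congr fun w _ => ?_
    rw [phi_apply, Prod.mk.injEq]
  rw [h2, Fintype.card_prod, Fintype.card_prod, card_W, ZMod.card] at h1
  have h3 : ℓ ^ (R+1) * ℓ ^ (R+1) = ℓ ^ (2*R) * (ℓ * ℓ) := by ring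
  rw [h3] at h1
  exact Nat.eq_of_mul_eq_mul_right (Nat.mul_pos hℓ.out.pos hℓ.out.pos) h1

lemma blk_eq (L : ℕ) (t : Fin (R+1) → ℤ) (g : (Fin (R+1) → ZMod ℓ) × ℕ) :
    blk ℓ L t g = dotH t g.1 + ((t 0 * g.2 / L : ℤ) : ZMod ℓ) := rfl

lemma card_event (L : ℕ) (t a a' : Fin (R+1) → ℤ)
    (hs : Function.Surjective (phi (ℓ := ℓ) t a a'))
    (E : Finset (((Fin (R+1) → ZMod ℓ) × ℕ) × ((Fin (R+1) → ZMod ℓ) × ℕ)))
    (c : ℕ → ℕ → ZMod ℓ)
    (hE : ∀ g ∈ E, (g.1.2 < L ∧ g.2.2 < L) ∧ key ℓ L t g.1 = key ℓ L t g.2 ∧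
      dotH a g.1.1 + dotH a' g.2.1 = c g.1.2 g.2.2) :
    E.card ≤ L ^ 2 * ℓ ^ (2 * R) := by
  have h := card_le_mul_card_image_of_maps_to
    (s := E) (t := range L ×ˢ range L) (f := fun g => (g.1.2, g.2.2)) ?_ (ℓ ^ (2 * R)) ?_
  · rw [card_product, card_range] at h
    calc _ ≤ _ := h
      _ = _ := by ring
  · intro g hg
    exact mem_product.2 ⟨mem_range.2 (hE g hg).1.1, mem_range.2 (hE g hg).1.2⟩
  · rintro ⟨r, r'⟩ _
    rw [← card_two t a a' hs ((t 0 * r' / L : ℤ) - (t 0 * r / L : ℤ)) (c r r')]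
    refine card_le_card_of_injOn (fun g => (g.1.1, g.2.1)) ?_ ?_
    · intro g hg
      rw [mem_coe, mem_filter] at hg
      obtain ⟨hgE, hr⟩ := hg
      obtain ⟨_, hkey, hcond⟩ := hE g hgE
      rw [Prod.mk.injEq] at hr
      rw [mem_coe, mem_filter]
      refine ⟨mem_univ _, ?_, ?_⟩
      · unfold key at hkey
        rw [Prod.mk.injEq, blk_eq, blk_eq] at hkey
        have := hkey.1
        rw [hr.1, hr.2] at this
        linear_combination this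
      · simp only
        rw [hcond, hr.1, hr.2]
    · intro g hg g' hg' hgg
      rw [mem_coe, mem_filter] at hg hg'
      simp only [Prod.mk.injEq] at hgg
      have h1 := hg.2.trans hg'.2.symm
      rw [Prod.mk.injEq] at h1
      exact Prod.ext (Prod.ext hgg.1 h1.1) (Prod.ext hgg.2 h1.2)

structure Gen (ℓ : ℕ) (T : Finset (Fin (R+1) → ℤ)) : Prop where
  h0 : ∀ t ∈ T, ((t 0 : ℤ) : ZMod ℓ) ≠ 0
  hd : ∀ t ∈ T, ∀ t' ∈ T, t ≠ t' → ∃ i, ((t i - t' i : ℤ) : ZMod ℓ) ≠ 0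
  hs : ∀ t ∈ T, ∀ t' ∈ T, ((t 0 + t' 0 : ℤ) : ZMod ℓ) ≠ 0
  hm : ∀ t ∈ T, ∀ t' ∈ T, t ≠ t' → ∃ i j, ((t i * t' j - t j * t' i : ℤ) : ZMod ℓ) ≠ 0

variable {T : Finset (Fin (R+1) → ℤ)}

lemma dotH_sub (a b : Fin (R+1) → ℤ) (w : Fin (R+1) → ZMod ℓ) :
    dotH (a - b) w = dotH a w - dotH b w := by
  simp only [dotH_apply, ← sum_sub_distrib, Pi.sub_apply]
  exact sum_congr rfl fun i _ => by push_cast; ring

lemma dotH_add (a b : Fin (R+1) → ℤ) (w : Fin (R+1) → ZMod ℓ) :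
    dotH (a + b) w = dotH a w + dotH b w := by
  simp only [dotH_apply, ← sum_add_distrib, Pi.add_apply]
  exact sum_congr rfl fun i _ => by push_cast; ring

lemma dotH_neg (a : Fin (R+1) → ℤ) (w : Fin (R+1) → ZMod ℓ) :
    dotH (-a) w = - dotH a w := by
  simp only [dotH_apply, ← sum_neg_distrib, Pi.neg_apply]
  exact sum_congr rfl fun i _ => by push_cast; ring

lemma dotH_zero (w : Fin (R+1) → ZMod ℓ) : dotH (0 : Fin (R+1) → ℤ) w = 0 := by
  simp [dotH_apply]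

open Classical in
lemma card_bad (hG : Gen ℓ T) (L : ℕ) {t : Fin (R+1) → ℤ} (ht : t ∈ T) :
    ((Gs R ℓ L ×ˢ Gs R ℓ L).filter fun g => key ℓ L t g.1 = key ℓ L t g.2 ∧
      ¬ good2 ℓ L T t g.1 g.2).card ≤ 6 * (T.card ^ 2 * (L ^ 2 * ℓ ^ (2 * R))) := by
  set G2 := Gs R ℓ L ×ˢ Gs R ℓ L with hG2
  let K : ((Fin (R+1) → ZMod ℓ) × ℕ) × ((Fin (R+1) → ZMod ℓ) × ℕ) → Prop :=
    fun g => key ℓ L t g.1 = key ℓ L t g.2
  let E0 : ((Fin (R+1) → ℤ) × (Fin (R+1) → ℤ)) →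
      Finset (((Fin (R+1) → ZMod ℓ) × ℕ) × ((Fin (R+1) → ZMod ℓ) × ℕ)) := fun s =>
    G2.filter fun g => K g ∧ (s.1 ≠ s.2 ∧ blk ℓ L s.1 g.1 = blk ℓ L s.2 g.1)
  let E1 : ((Fin (R+1) → ℤ) × (Fin (R+1) → ℤ)) →
      Finset (((Fin (R+1) → ZMod ℓ) × ℕ) × ((Fin (R+1) → ZMod ℓ) × ℕ)) := fun s =>
    G2.filter fun g => K g ∧ (blk ℓ L s.1 g.1 = -1 - blk ℓ L s.2 g.1)
  let E2 : ((Fin (R+1) → ℤ) × (Fin (R+1) → ℤ)) →
      Finset (((Fin (R+1) → ZMod ℓ) × ℕ) × ((Fin (R+1) → ZMod ℓ) × ℕ)) := fun s =>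
    G2.filter fun g => K g ∧ (s.1 ≠ s.2 ∧ blk ℓ L s.1 g.2 = blk ℓ L s.2 g.2)
  let E3 : ((Fin (R+1) → ℤ) × (Fin (R+1) → ℤ)) →
      Finset (((Fin (R+1) → ZMod ℓ) × ℕ) × ((Fin (R+1) → ZMod ℓ) × ℕ)) := fun s =>
    G2.filter fun g => K g ∧ (blk ℓ L s.1 g.2 = -1 - blk ℓ L s.2 g.2)
  let E4 : ((Fin (R+1) → ℤ) × (Fin (R+1) → ℤ)) →
      Finset (((Fin (R+1) → ZMod ℓ) × ℕ) × ((Fin (R+1) → ZMod ℓ) × ℕ)) := fun s =>
    G2.filter fun g => K g ∧ (s.1 ≠ t ∧ blk ℓ L s.1 g.1 = blk ℓ L s.2 g.2)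
  let E5 : ((Fin (R+1) → ℤ) × (Fin (R+1) → ℤ)) →
      Finset (((Fin (R+1) → ZMod ℓ) × ℕ) × ((Fin (R+1) → ZMod ℓ) × ℕ)) := fun s =>
    G2.filter fun g => K g ∧ (s.1 ≠ t ∧ blk ℓ L s.1 g.1 = -1 - blk ℓ L s.2 g.2)
  have hGm : ∀ g ∈ G2, g.1.2 < L ∧ g.2.2 < L := by
    intro g hg
    rw [hG2, mem_product] at hg
    unfold Gs at hg
    rw [mem_product, mem_product] at hg
    exact ⟨mem_range.1 hg.1.2, mem_range.1 hg.2.2⟩
  have hsub : (G2.filter fun g => key ℓ L t g.1 = key ℓ L t g.2 ∧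
      ¬ good2 ℓ L T t g.1 g.2) ⊆ (T ×ˢ T).biUnion E0 ∪ ((T ×ˢ T).biUnion E1 ∪
        ((T ×ˢ T).biUnion E2 ∪ ((T ×ˢ T).biUnion E3 ∪ ((T ×ˢ T).biUnion E4 ∪
        (T ×ˢ T).biUnion E5)))) := by
    intro g hg
    rw [mem_filter] at hg
    obtain ⟨hg1, hK, hbad⟩ := hg
    simp only [mem_union, mem_biUnion]
    by_contra hcon
    push Not at hcon
    obtain ⟨c0, c1, c2, c3, c4, c5⟩ := hcon
    apply hbad
    refine ⟨⟨?_, ?_⟩, ⟨?_, ?_⟩, ?_⟩
    · intro a ha b hb h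
      exact c1 (a, b) (mem_product.2 ⟨ha, hb⟩) (mem_filter.2 ⟨hg1, hK, h⟩)
    · intro a ha b hb hne h
      exact c0 (a, b) (mem_product.2 ⟨ha, hb⟩) (mem_filter.2 ⟨hg1, hK, hne, h⟩)
    · intro a ha b hb h
      exact c3 (a, b) (mem_product.2 ⟨ha, hb⟩) (mem_filter.2 ⟨hg1, hK, h⟩)
    · intro a ha b hb hne h
      exact c2 (a, b) (mem_product.2 ⟨ha, hb⟩) (mem_filter.2 ⟨hg1, hK, hne, h⟩)
    · intro a ha b hb
      have ha' := mem_erase.1 ha
      have hb' := mem_erase.1 hb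
      refine ⟨fun h => ?_, fun h => ?_⟩
      · exact c4 (a, b) (mem_product.2 ⟨ha'.2, hb'.2⟩) (mem_filter.2 ⟨hg1, hK, ha'.1, h⟩)
      · exact c5 (a, b) (mem_product.2 ⟨ha'.2, hb'.2⟩) (mem_filter.2 ⟨hg1, hK, ha'.1, h⟩)
  have e0 : ∀ s ∈ T ×ˢ T, (E0 s).card ≤ L ^ 2 * ℓ ^ (2 * R) := by
    rintro ⟨a, b⟩ hab
    rw [mem_product] at hab
    by_cases hne : a = b
    · have : E0 (a, b) = ∅ := by
        apply filter_eq_empty_iff.2
        rintro g _ ⟨_, h, _⟩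
        exact h hne
      rw [this, card_empty]; exact Nat.zero_le _
    · obtain ⟨i, hi⟩ := hG.hd a hab.1 b hab.2 hne
      refine card_event L t (a - b) 0 (surj1 t (a-b) (hG.h0 t ht) (i := i) (by simpa using hi))
        (E0 (a, b))
        (fun r _ => ((b 0 * r / L : ℤ) : ZMod ℓ) - ((a 0 * r / L : ℤ) : ZMod ℓ)) ?_
      intro g hg
      obtain ⟨hgG, hK, _, h⟩ := mem_filter.1 hg
      refine ⟨hGm g hgG, hK, ?_⟩
      simp only [blk_eq] at h
      rw [dotH_sub, dotH_zero]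
      linear_combination h
  have e1 : ∀ s ∈ T ×ˢ T, (E1 s).card ≤ L ^ 2 * ℓ ^ (2 * R) := by
    rintro ⟨a, b⟩ hab
    rw [mem_product] at hab
    refine card_event L t (a + b) 0 (surj1 t (a+b) (hG.h0 t ht) (i := 0) (by
        simpa using hG.hs a hab.1 b hab.2))
      (E1 (a, b))
      (fun r _ => -1 - ((b 0 * r / L : ℤ) : ZMod ℓ) - ((a 0 * r / L : ℤ) : ZMod ℓ)) ?_
    intro g hg
    obtain ⟨hgG, hK, h⟩ := mem_filter.1 hg
    refine ⟨hGm g hgG, hK, ?_⟩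
    simp only [blk_eq] at h
    rw [dotH_add, dotH_zero]
    linear_combination h
  have e2 : ∀ s ∈ T ×ˢ T, (E2 s).card ≤ L ^ 2 * ℓ ^ (2 * R) := by
    rintro ⟨a, b⟩ hab
    rw [mem_product] at hab
    by_cases hne : a = b
    · have : E2 (a, b) = ∅ := by
        apply filter_eq_empty_iff.2
        rintro g _ ⟨_, h, _⟩
        exact h hne
      rw [this, card_empty]; exact Nat.zero_le _
    · obtain ⟨i, hi⟩ := hG.hd a hab.1 b hab.2 hne
      refine card_event L t 0 (a - b) (surj1' t (a-b) (hG.h0 t ht) (i := i) (by simpa using hi))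
        (E2 (a, b))
        (fun _ r => ((b 0 * r / L : ℤ) : ZMod ℓ) - ((a 0 * r / L : ℤ) : ZMod ℓ)) ?_
      intro g hg
      obtain ⟨hgG, hK, _, h⟩ := mem_filter.1 hg
      refine ⟨hGm g hgG, hK, ?_⟩
      simp only [blk_eq] at h
      rw [dotH_sub, dotH_zero]
      linear_combination h
  have e3 : ∀ s ∈ T ×ˢ T, (E3 s).card ≤ L ^ 2 * ℓ ^ (2 * R) := by
    rintro ⟨a, b⟩ hab
    rw [mem_product] at hab
    refine card_event L t 0 (a + b) (surj1' t (a+b) (hG.h0 t ht) (i := 0) (by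
        simpa using hG.hs a hab.1 b hab.2))
      (E3 (a, b))
      (fun _ r => -1 - ((b 0 * r / L : ℤ) : ZMod ℓ) - ((a 0 * r / L : ℤ) : ZMod ℓ)) ?_
    intro g hg
    obtain ⟨hgG, hK, h⟩ := mem_filter.1 hg
    refine ⟨hGm g hgG, hK, ?_⟩
    simp only [blk_eq] at h
    rw [dotH_add, dotH_zero]
    linear_combination h
  have e4 : ∀ s ∈ T ×ˢ T, (E4 s).card ≤ L ^ 2 * ℓ ^ (2 * R) := by
    rintro ⟨a, b⟩ hab
    rw [mem_product] at hab
    by_cases hne : a = t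
    · have : E4 (a, b) = ∅ := by
        apply filter_eq_empty_iff.2
        rintro g _ ⟨_, h, _⟩
        exact h hne
      rw [this, card_empty]; exact Nat.zero_le _
    · obtain ⟨i, j, hij⟩ := hG.hm t ht a hab.1 (Ne.symm hne)
      refine card_event L t a (-b) (surj2 t a (-b) hij)
        (E4 (a, b))
        (fun r r' => ((b 0 * r' / L : ℤ) : ZMod ℓ) - ((a 0 * r / L : ℤ) : ZMod ℓ)) ?_
      intro g hg
      obtain ⟨hgG, hK, _, h⟩ := mem_filter.1 hg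
      refine ⟨hGm g hgG, hK, ?_⟩
      simp only [blk_eq] at h
      rw [dotH_neg]
      linear_combination h
  have e5 : ∀ s ∈ T ×ˢ T, (E5 s).card ≤ L ^ 2 * ℓ ^ (2 * R) := by
    rintro ⟨a, b⟩ hab
    rw [mem_product] at hab
    by_cases hne : a = t
    · have : E5 (a, b) = ∅ := by
        apply filter_eq_empty_iff.2
        rintro g _ ⟨_, h, _⟩
        exact h hne
      rw [this, card_empty]; exact Nat.zero_le _
    · obtain ⟨i, j, hij⟩ := hG.hm t ht a hab.1 (Ne.symm hne)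
      refine card_event L t a b (surj2 t a b hij)
        (E5 (a, b))
        (fun r r' => -1 - ((b 0 * r' / L : ℤ) : ZMod ℓ) - ((a 0 * r / L : ℤ) : ZMod ℓ)) ?_
      intro g hg
      obtain ⟨hgG, hK, _, h⟩ := mem_filter.1 hg
      refine ⟨hGm g hgG, hK, ?_⟩
      simp only [blk_eq] at h
      linear_combination h
  have hcard : (T ×ˢ T).card = T.card ^ 2 := by rw [card_product]; ring
  have f0 := card_biUnion_le_card_mul (T ×ˢ T) E0 _ e0
  have f1 := card_biUnion_le_card_mul (T ×ˢ T) E1 _ e1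
  have f2 := card_biUnion_le_card_mul (T ×ˢ T) E2 _ e2
  have f3 := card_biUnion_le_card_mul (T ×ˢ T) E3 _ e3
  have f4 := card_biUnion_le_card_mul (T ×ˢ T) E4 _ e4
  have f5 := card_biUnion_le_card_mul (T ×ˢ T) E5 _ e5
  rw [hcard] at f0 f1 f2 f3 f4 f5
  refine (card_le_card hsub).trans ?_
  refine (card_union_le _ _).trans ?_
  refine (Nat.add_le_add_left (card_union_le _ _) _).trans ?_
  refine (Nat.add_le_add_left (Nat.add_le_add_left (card_union_le _ _) _) _).trans ?_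
  refine (Nat.add_le_add_left (Nat.add_le_add_left (Nat.add_le_add_left
    (card_union_le _ _) _) _) _).trans ?_
  refine (Nat.add_le_add_left (Nat.add_le_add_left (Nat.add_le_add_left
    (Nat.add_le_add_left (card_union_le _ _) _) _) _) _).trans ?_
  omega

end Count

end Crest.Agent.R075.Pack
end

-- ▼ part R075/PackMain

set_option autoImplicit false
set_option linter.unusedSectionVars false

namespace Crest.Agent.R075.Pack

open Finset

section Main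

variable {R ℓ : ℕ} [hℓ : Fact ℓ.Prime]

lemma card_event1 (L : ℕ) (a : Fin (R+1) → ℤ) {i : Fin (R+1)} (ha : (a i : ZMod ℓ) ≠ 0)
    (E : Finset ((Fin (R+1) → ZMod ℓ) × ℕ)) (c : ℕ → ZMod ℓ)
    (hE : ∀ g ∈ E, g.2 < L ∧ dotH a g.1 = c g.2) :
    E.card ≤ L * ℓ ^ R := by
  have h := card_le_mul_card_image_of_maps_to
    (s := E) (t := range L) (f := fun g => g.2) ?_ (ℓ ^ R) ?_
  · rw [card_range] at h
    calc _ ≤ _ := h
      _ = _ := by ring
  · intro g hg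
    exact mem_range.2 (hE g hg).1
  · intro r _
    rw [← card_one a ha (c r)]
    refine card_le_card_of_injOn (fun g => g.1) ?_ ?_
    · intro g hg
      rw [mem_coe, mem_filter] at hg
      rw [mem_coe, mem_filter]
      refine ⟨mem_univ _, ?_⟩
      rw [(hE g hg.1).2, hg.2]
    · intro g hg g' hg' hgg
      rw [mem_coe, mem_filter] at hg hg'
      exact Prod.ext hgg (hg.2.trans hg'.2.symm)

variable {T : Finset (Fin (R+1) → ℤ)}

open Classical in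
lemma card_bad1 (hG : Gen ℓ T) (L : ℕ) :
    ((Gs R ℓ L).filter fun g => ¬ good1 ℓ L T g).card ≤ 2 * (T.card ^ 2 * (L * ℓ ^ R)) := by
  let E0 : ((Fin (R+1) → ℤ) × (Fin (R+1) → ℤ)) → Finset ((Fin (R+1) → ZMod ℓ) × ℕ) := fun s =>
    (Gs R ℓ L).filter fun g => (s.1 ≠ s.2 ∧ blk ℓ L s.1 g = blk ℓ L s.2 g)
  let E1 : ((Fin (R+1) → ℤ) × (Fin (R+1) → ℤ)) → Finset ((Fin (R+1) → ZMod ℓ) × ℕ) := fun s =>
    (Gs R ℓ L).filter fun g => (blk ℓ L s.1 g = -1 - blk ℓ L s.2 g)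
  have hGm : ∀ g ∈ Gs R ℓ L, g.2 < L := by
    intro g hg
    unfold Gs at hg
    rw [mem_product] at hg
    exact mem_range.1 hg.2
  have hsub : ((Gs R ℓ L).filter fun g => ¬ good1 ℓ L T g) ⊆ (T ×ˢ T).biUnion E0 ∪
      (T ×ˢ T).biUnion E1 := by
    intro g hg
    rw [mem_filter] at hg
    obtain ⟨hg1, hbad⟩ := hg
    simp only [mem_union, mem_biUnion]
    by_contra hcon
    push Not at hcon
    obtain ⟨c0, c1⟩ := hcon
    apply hbad
    refine ⟨?_, ?_⟩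
    · intro a ha b hb h
      exact c1 (a, b) (mem_product.2 ⟨ha, hb⟩) (mem_filter.2 ⟨hg1, h⟩)
    · intro a ha b hb hne h
      exact c0 (a, b) (mem_product.2 ⟨ha, hb⟩) (mem_filter.2 ⟨hg1, hne, h⟩)
  have e0 : ∀ s ∈ T ×ˢ T, (E0 s).card ≤ L * ℓ ^ R := by
    rintro ⟨a, b⟩ hab
    rw [mem_product] at hab
    by_cases hne : a = b
    · have : E0 (a, b) = ∅ := by
        apply filter_eq_empty_iff.2
        rintro g _ ⟨h, _⟩
        exact h hne
      rw [this, card_empty]; exact Nat.zero_le _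
    · obtain ⟨i, hi⟩ := hG.hd a hab.1 b hab.2 hne
      refine card_event1 L (a - b) (i := i) (by simpa using hi) (E0 (a, b))
        (fun r => ((b 0 * r / L : ℤ) : ZMod ℓ) - ((a 0 * r / L : ℤ) : ZMod ℓ)) ?_
      intro g hg
      obtain ⟨hgG, _, h⟩ := mem_filter.1 hg
      refine ⟨hGm g hgG, ?_⟩
      simp only [blk_eq] at h
      rw [dotH_sub]
      linear_combination h
  have e1 : ∀ s ∈ T ×ˢ T, (E1 s).card ≤ L * ℓ ^ R := by
    rintro ⟨a, b⟩ hab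
    rw [mem_product] at hab
    refine card_event1 L (a + b) (i := 0) (by simpa using hG.hs a hab.1 b hab.2) (E1 (a, b))
      (fun r => -1 - ((b 0 * r / L : ℤ) : ZMod ℓ) - ((a 0 * r / L : ℤ) : ZMod ℓ)) ?_
    intro g hg
    obtain ⟨hgG, h⟩ := mem_filter.1 hg
    refine ⟨hGm g hgG, ?_⟩
    simp only [blk_eq] at h
    rw [dotH_add]
    linear_combination h
  have hcard : (T ×ˢ T).card = T.card ^ 2 := by rw [card_product]; ring
  have f0 := card_biUnion_le_card_mul (T ×ˢ T) E0 _ e0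
  have f1 := card_biUnion_le_card_mul (T ×ˢ T) E1 _ e1
  rw [hcard] at f0 f1
  refine (card_le_card hsub).trans ?_
  refine (card_union_le _ _).trans ?_
  omega

lemma card_res (a m : ℕ) (hm : 0 < m) (c : ℕ) :
    ((range (a * m)).filter fun r => r % m = c % m).card = a := by
  have h := Nat.count_modEq_card (b := a * m) (r := m) hm c
  rw [Nat.count_eq_card_filter_range, Nat.mul_div_cancel _ hm, Nat.mul_mod_left,
    if_neg (Nat.not_lt_zero _), add_zero] at h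
  exact h

lemma card_key {t : Fin (R+1) → ℤ} (ht : (t 0 : ZMod ℓ) ≠ 0) {a m : ℕ} (ha : t 0 = a)
    (ha0 : 0 < a) (hm : 0 < m) {g0 : (Fin (R+1) → ZMod ℓ) × ℕ} :
    ((Gs R ℓ (a * m)).filter fun g => key ℓ (a * m) t g = key ℓ (a * m) t g0).card =
      a * ℓ ^ R := by
  classical
  have hcond : ∀ r : ℕ, (t 0 * r % ((a * m : ℕ) : ℤ) = t 0 * g0.2 % ((a * m : ℕ) : ℤ)) ↔
      r % m = g0.2 % m := by
    intro r
    rw [ha]
    push_cast
    rw [Int.mul_emod_mul_of_pos _ _ (by exact_mod_cast ha0),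
      Int.mul_emod_mul_of_pos _ _ (by exact_mod_cast ha0)]
    constructor
    · intro h
      have h2 : ((r : ℤ) % m) = ((g0.2 : ℤ) % m) :=
        mul_left_cancel₀ (by exact_mod_cast ha0.ne') h
      exact_mod_cast h2
    · intro h
      have h2 : ((r : ℤ) % m) = ((g0.2 : ℤ) % m) := by exact_mod_cast h
      rw [h2]
  unfold Gs
  rw [card_filter, sum_product_right]
  have h1 : ∀ r ∈ range (a * m), (∑ w : Fin (R+1) → ZMod ℓ,
      if key ℓ (a * m) t (w, r) = key ℓ (a * m) t g0 then 1 else 0) =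
      if r % m = g0.2 % m then ℓ ^ R else 0 := by
    intro r _
    by_cases hr : r % m = g0.2 % m
    · rw [if_pos hr, ← card_filter, ← card_one t ht (blk ℓ (a * m) t g0 -
        ((t 0 * r / (a * m : ℕ) : ℤ) : ZMod ℓ))]
      congr 1
      refine filter_congr fun w _ => ?_
      unfold key
      rw [Prod.mk.injEq]
      constructor
      · rintro ⟨h, _⟩
        rw [← h, blk_eq]
        simp
      · intro h
        refine ⟨?_, (hcond r).2 hr⟩
        rw [blk_eq]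
        simp only
        rw [h]; ring
    · rw [if_neg hr]
      refine sum_eq_zero fun w _ => if_neg ?_
      intro h
      unfold key at h
      rw [Prod.mk.injEq] at h
      exact hr ((hcond r).1 h.2)
  rw [sum_congr rfl h1, ← sum_filter, sum_const, card_res a m hm, smul_eq_mul]

/-- size of an arc -/
lemma card_key' {L : ℕ} (hL : 0 < L) {t : Fin (R+1) → ℤ} (ht : (t 0 : ZMod ℓ) ≠ 0)
    (ht1 : 1 ≤ t 0) (hd : t 0 ∣ (L : ℤ)) (b : ZMod ℓ × ℤ)
    (hb : ∃ g0, b = key ℓ L t g0) :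
    ((((Gs R ℓ L).filter fun g => key ℓ L t g = b).card : ℕ) : ℝ) = (t 0 : ℝ) * (ℓ : ℝ) ^ R := by
  obtain ⟨g0, rfl⟩ := hb
  obtain ⟨a, ha⟩ := Int.eq_ofNat_of_zero_le (by omega : 0 ≤ t 0)
  obtain ⟨m, hm⟩ := hd
  have ha0 : 0 < a := by omega
  have hm0 : 0 < m := by
    by_contra h
    push Not at h
    have : (L : ℤ) ≤ 0 := by rw [hm]; exact mul_nonpos_of_nonneg_of_nonpos (by omega) h
    omega
  obtain ⟨m', rfl⟩ := Int.eq_ofNat_of_zero_le hm0.le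
  have hL' : L = a * m' := by
    rw [ha] at hm
    exact_mod_cast hm
  subst hL'
  rw [card_key ht ha ha0 (by exact_mod_cast hm0), ha]
  push_cast
  ring

noncomputable def Xl (ℓ L : ℕ) [NeZero ℓ] (T : Finset (Fin (R+1) → ℤ))
    (x : ZMod ℓ → (Fin (R+1) → ℤ)) (t : Fin (R+1) → ℤ) (b : ZMod ℓ × ℤ) : ℝ :=
  ∑ g ∈ (Gs R ℓ L).filter fun g => key ℓ L t g = b, xi ℓ L T x g

noncomputable def dd (ℓ L : ℕ) [NeZero ℓ] (T : Finset (Fin (R+1) → ℤ)) (q : ℝ)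
    (x : ZMod ℓ → (Fin (R+1) → ℤ)) (t : Fin (R+1) → ℤ) (g : (Fin (R+1) → ZMod ℓ) × ℕ) : ℝ :=
  xi ℓ L T x g - q * eta ℓ L t x g

noncomputable def Mt (ℓ L : ℕ) [NeZero ℓ] (T : Finset (Fin (R+1) → ℤ)) (q : ℝ)
    (x : ZMod ℓ → (Fin (R+1) → ℤ)) (t : Fin (R+1) → ℤ) : ℝ :=
  ∑ g ∈ (Gs R ℓ L ×ˢ Gs R ℓ L).filter (fun g => key ℓ L t g.1 = key ℓ L t g.2),
    dd ℓ L T q x t g.1 * dd ℓ L T q x t g.2

lemma Mt_eq (L : ℕ) (q : ℝ) (x : ZMod ℓ → (Fin (R+1) → ℤ)) (t : Fin (R+1) → ℤ) :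
    Mt ℓ L T q x t = ∑ b ∈ (Gs R ℓ L).image (key ℓ L t),
      (∑ g ∈ (Gs R ℓ L).filter fun g => key ℓ L t g = b, dd ℓ L T q x t g) ^ 2 := by
  unfold Mt
  rw [sum_filter, sum_product]
  rw [← sum_fiberwise_of_maps_to (s := Gs R ℓ L) (t := (Gs R ℓ L).image (key ℓ L t))
    (g := key ℓ L t) (fun g hg => mem_image_of_mem _ hg)]
  refine sum_congr rfl fun b _ => ?_
  rw [pow_two, sum_mul_sum]
  refine sum_congr rfl fun g hg => ?_
  rw [mem_filter] at hg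
  rw [← sum_filter]
  refine sum_congr ?_ fun g' _ => rfl
  refine filter_congr fun g' _ => ?_
  simp only [hg.2]
  exact eq_comm

lemma Ex_Mt_le (hG : Gen ℓ T) {p : (Fin (R+1) → ℤ) → ℝ} (hp : ∀ t ∈ T, 0 < p t)
    (hsum : 2 * ∑ t ∈ T, p t ≤ 1) (hpos : ∀ t ∈ T, 1 ≤ t 0) (L : ℕ)
    {t : Fin (R+1) → ℤ} (ht : t ∈ T) (q : ℝ) (hq : q = ∏ t' ∈ T.erase t, p t') (hq0 : 0 ≤ q)
    (hq1 : q ≤ 1) :
    Ex (Vs T) (Pw T p) (fun x => Mt ℓ L T q x t) ≤
      6 * ((T.card : ℝ) ^ 2 * ((L : ℝ) ^ 2 * (ℓ : ℝ) ^ (2 * R))) := by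
  classical
  unfold Mt
  rw [Ex_sum]
  have hb := card_bad hG L ht
  have hb' : ((((Gs R ℓ L ×ˢ Gs R ℓ L).filter fun g => key ℓ L t g.1 = key ℓ L t g.2 ∧
      ¬ good2 ℓ L T t g.1 g.2).card : ℕ) : ℝ) ≤
      6 * ((T.card : ℝ) ^ 2 * ((L : ℝ) ^ 2 * (ℓ : ℝ) ^ (2 * R))) := by
    exact_mod_cast hb
  refine le_trans ?_ hb'
  have hc : ((((Gs R ℓ L ×ˢ Gs R ℓ L).filter fun g => key ℓ L t g.1 = key ℓ L t g.2 ∧
      ¬ good2 ℓ L T t g.1 g.2).card : ℕ) : ℝ) =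
      ∑ g ∈ (Gs R ℓ L ×ˢ Gs R ℓ L).filter (fun g => key ℓ L t g.1 = key ℓ L t g.2),
        if ¬ good2 ℓ L T t g.1 g.2 then (1:ℝ) else 0 := by
    rw [← filter_filter, card_filter]
    push_cast
    rfl
  rw [hc]
  refine sum_le_sum fun g hg => ?_
  rw [mem_filter] at hg
  by_cases hgood : good2 ℓ L T t g.1 g.2
  · rw [if_neg (not_not.2 hgood)]
    have hk := hg.2
    unfold key at hk
    rw [Prod.mk.injEq] at hk
    exact (cross_zero hpos ht hgood hk.1 q hq).le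
  · rw [if_pos hgood]
    exact cross_le hp hsum hpos g.1 g.2 q hq0 hq1

lemma Xl_bound {L : ℕ} (hL : 0 < L) (hG : Gen ℓ T) (hpos : ∀ t ∈ T, 1 ≤ t 0)
    (hdvd : ∀ t ∈ T, t 0 ∣ (L : ℤ)) {t : Fin (R+1) → ℤ} (ht : t ∈ T)
    {q e mu : ℝ} (hq : 0 < q) (he : 0 < e) (hmu : mu = (t 0 : ℝ) * (ℓ : ℝ) ^ R * q)
    (x : ZMod ℓ → (Fin (R+1) → ℤ)) :
    ∑ g ∈ (Gs R ℓ L).filter (fun g => (1 + e) * mu < Xl ℓ L T x t (key ℓ L t g)),
      xi ℓ L T x g ≤ (1 + e) / e ^ 2 / mu * Mt ℓ L T q x t := by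
  classical
  have ht1 := hpos t ht
  have hmu0 : 0 < mu := by
    rw [hmu]
    have h1 : (0:ℝ) < t 0 := by exact_mod_cast (by omega : 0 < t 0)
    have h2 : (0:ℝ) < (ℓ : ℝ) ^ R := pow_pos (by exact_mod_cast hℓ.out.pos) _
    positivity
  rw [Mt_eq, mul_sum, sum_filter]
  rw [← sum_fiberwise_of_maps_to (s := Gs R ℓ L) (t := (Gs R ℓ L).image (key ℓ L t))
    (g := key ℓ L t) (fun g hg => mem_image_of_mem _ hg)]
  refine sum_le_sum fun b hb => ?_
  by_cases hX : (1 + e) * mu < Xl ℓ L T x t b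
  · have h1 : (∑ g ∈ (Gs R ℓ L).filter fun g => key ℓ L t g = b,
        if (1 + e) * mu < Xl ℓ L T x t (key ℓ L t g) then xi ℓ L T x g else 0) =
        Xl ℓ L T x t b := by
      unfold Xl
      refine sum_congr rfl fun g hg => ?_
      rw [mem_filter] at hg
      rw [hg.2]
      exact if_pos hX
    rw [h1]
    have hex : ∃ g1 ∈ (Gs R ℓ L).filter fun g => key ℓ L t g = b, xi ℓ L T x g1 ≠ 0 := by
      by_contra hcon
      push Not at hcon
      have : Xl ℓ L T x t b = 0 := sum_eq_zero hcon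
      rw [this] at hX
      nlinarith
    obtain ⟨g1, hg1, hxi⟩ := hex
    have hsig : sig x (blk ℓ L t g1) = t := by
      rcases xi_mem (L := L) (T := T) (x := x) (g := g1) with h | h
      · exact absurd h hxi
      · exact h.2 t ht
    rw [mem_filter] at hg1
    have heta : ∀ g ∈ (Gs R ℓ L).filter (fun g => key ℓ L t g = b), eta ℓ L t x g = 1 := by
      intro g hg
      rw [mem_filter] at hg
      have hk := hg.2.trans hg1.2.symm
      unfold key at hk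
      rw [Prod.mk.injEq] at hk
      unfold eta
      rw [hk.1, if_pos hsig]
    have h2 : ∑ g ∈ (Gs R ℓ L).filter (fun g => key ℓ L t g = b), dd ℓ L T q x t g =
        Xl ℓ L T x t b - mu := by
      unfold dd Xl
      rw [sum_sub_distrib]
      congr 1
      rw [sum_congr rfl (fun g hg => by rw [heta g hg, mul_one]), sum_const, nsmul_eq_mul,
        card_key' hL (hG.h0 t ht) ht1 (hdvd t ht) b ⟨g1, hg1.2.symm⟩, hmu]
    rw [h2]
    set y := Xl ℓ L T x t b - mu with hy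
    have hy1 : e * mu < y := by rw [hy]; linarith
    have hX2 : Xl ℓ L T x t b = mu + y := by rw [hy]; ring
    rw [hX2, div_div, div_mul_eq_mul_div, le_div_iff₀ (by positivity)]
    have hemu : 0 < e * mu := by positivity
    have e1 : (e * mu) * (e * mu) ≤ y * y := mul_le_mul hy1.le hy1.le hemu.le (by linarith)
    have e2 : (e * mu) * (e * y) ≤ y * (e * y) :=
      mul_le_mul_of_nonneg_right hy1.le (by nlinarith)
    nlinarith
  · have h1 : (∑ g ∈ (Gs R ℓ L).filter fun g => key ℓ L t g = b,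
        if (1 + e) * mu < Xl ℓ L T x t (key ℓ L t g) then xi ℓ L T x g else 0) = 0 := by
      refine sum_eq_zero fun g hg => ?_
      rw [mem_filter] at hg
      rw [hg.2]
      exact if_neg hX
    rw [h1]
    positivity

/-- the pieces that are kept -/
noncomputable def Wx (ℓ L : ℕ) [NeZero ℓ] (T : Finset (Fin (R+1) → ℤ)) (c : (Fin (R+1) → ℤ) → ℝ)
    (x : ZMod ℓ → (Fin (R+1) → ℤ)) : Finset ((Fin (R+1) → ZMod ℓ) × ℕ) :=
  (Gs R ℓ L).filter fun g => (∀ t ∈ T, sig x (blk ℓ L t g) = t) ∧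
    ∀ t ∈ T, Xl ℓ L T x t (key ℓ L t g) ≤ c t

lemma Wx_card (L : ℕ) (c : (Fin (R+1) → ℤ) → ℝ) (x : ZMod ℓ → (Fin (R+1) → ℤ)) :
    ∑ g ∈ Gs R ℓ L, xi ℓ L T x g ≤ ((Wx ℓ L T c x).card : ℝ) +
      ∑ t ∈ T, ∑ g ∈ (Gs R ℓ L).filter (fun g => c t < Xl ℓ L T x t (key ℓ L t g)),
        xi ℓ L T x g := by
  classical
  unfold Wx
  rw [card_filter]
  push_cast
  simp_rw [sum_filter]
  rw [sum_comm, ← sum_add_distrib]
  refine sum_le_sum fun g _ => ?_
  have hnn : ∀ t ∈ T, (0:ℝ) ≤ if c t < Xl ℓ L T x t (key ℓ L t g) then xi ℓ L T x g else 0 := by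
    intro t _
    split_ifs
    · rcases xi_mem (L := L) (T := T) (x := x) (g := g) with h | h
      · rw [h]
      · rw [h.1]; exact zero_le_one
    · exact le_refl _
  rcases xi_mem (L := L) (T := T) (x := x) (g := g) with h | ⟨h, hs⟩
  · rw [h] at hnn ⊢
    have := sum_nonneg hnn
    split_ifs <;> linarith
  · by_cases hall : ∀ t ∈ T, Xl ℓ L T x t (key ℓ L t g) ≤ c t
    · rw [if_pos ⟨hs, hall⟩, h]
      rw [h] at hnn
      have := sum_nonneg hnn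
      linarith
    · rw [if_neg (fun h' => hall h'.2)]
      push Not at hall
      obtain ⟨t, ht, hlt⟩ := hall
      have := single_le_sum hnn ht
      rw [if_pos hlt] at this
      linarith

lemma core (hG : Gen ℓ T) {p : (Fin (R+1) → ℤ) → ℝ} (hp : ∀ t ∈ T, 0 < p t)
    (hsum : 2 * ∑ t ∈ T, p t ≤ 1) (hpos : ∀ t ∈ T, 1 ≤ t 0) {L : ℕ} (hL : 0 < L)
    (hdvd : ∀ t ∈ T, t 0 ∣ (L : ℤ)) {e : ℝ} (he : 0 < e) :
    ∃ x : ZMod ℓ → (Fin (R+1) → ℤ),
      (L : ℝ) * (ℓ : ℝ) ^ (R+1) * ∏ t ∈ T, p t - (2 * ((T.card : ℝ) ^ 2 * L) * ∏ t ∈ T, p t +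
        ∑ t ∈ T, (1 + e) / e ^ 2 * 6 * ((T.card : ℝ) ^ 2 * (L : ℝ) ^ 2) /
          ((t 0 : ℝ) * ∏ t' ∈ T.erase t, p t')) * (ℓ : ℝ) ^ R ≤
      ((Wx ℓ L T (fun t => (1 + e) * ((t 0 : ℝ) * (ℓ : ℝ) ^ R * ∏ t' ∈ T.erase t, p t')) x).card :
        ℝ) := by
  classical
  have hℓ0 : (0:ℝ) < ℓ := by exact_mod_cast hℓ.out.pos
  have hP0 : 0 < ∏ t ∈ T, p t := prod_pos hp
  have hple : ∀ t ∈ T, p t ≤ 1 := by
    intro t ht
    have := single_le_sum (fun t' ht' => (hp t' ht').le) ht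
    have h0 : 0 ≤ ∑ t ∈ T, p t := sum_nonneg fun t ht => (hp t ht).le
    linarith
  have hq0 : ∀ t ∈ T, 0 < ∏ t' ∈ T.erase t, p t' := fun t _ =>
    prod_pos fun t' ht' => hp t' (mem_of_mem_erase ht')
  have hq1 : ∀ t ∈ T, ∏ t' ∈ T.erase t, p t' ≤ 1 := fun t _ =>
    prod_le_one (fun t' ht' => (hp t' (mem_of_mem_erase ht')).le)
      (fun t' ht' => hple t' (mem_of_mem_erase ht'))
  let q : (Fin (R+1) → ℤ) → ℝ := fun t => ∏ t' ∈ T.erase t, p t'
  let mu : (Fin (R+1) → ℤ) → ℝ := fun t => (t 0 : ℝ) * (ℓ : ℝ) ^ R * q t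
  let F : (ZMod ℓ → (Fin (R+1) → ℤ)) → ℝ := fun x => ∑ g ∈ Gs R ℓ L, xi ℓ L T x g +
    ∑ t ∈ T, (-((1 + e) / e ^ 2 / mu t)) * Mt ℓ L T (q t) x t
  obtain ⟨x, hx⟩ := exists_ge (ι := ZMod ℓ) (Vs T) (Pw T p) (Pw_nonneg hp hsum) (Pw_sum hpos) F
  refine ⟨x, ?_⟩
  have hmu0 : ∀ t ∈ T, 0 < mu t := by
    intro t ht
    have h1 : (0:ℝ) < t 0 := by exact_mod_cast (by have := hpos t ht; omega : 0 < t 0)
    have h2 := hq0 t ht
    exact mul_pos (mul_pos h1 (pow_pos hℓ0 _)) h2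
  -- upper bound for F x
  have hF : F x ≤ ((Wx ℓ L T (fun t => (1 + e) * mu t) x).card : ℝ) := by
    have h1 := Wx_card (T := T) L (fun t => (1 + e) * mu t) x
    have h2 : ∑ t ∈ T, ∑ g ∈ (Gs R ℓ L).filter (fun g => (1 + e) * mu t <
        Xl ℓ L T x t (key ℓ L t g)), xi ℓ L T x g ≤
        ∑ t ∈ T, (1 + e) / e ^ 2 / mu t * Mt ℓ L T (q t) x t :=
      sum_le_sum fun t ht => Xl_bound hL hG hpos hdvd ht (hq0 t ht) he rfl x
    have h3 : F x = ∑ g ∈ Gs R ℓ L, xi ℓ L T x g -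
        ∑ t ∈ T, (1 + e) / e ^ 2 / mu t * Mt ℓ L T (q t) x t := by
      simp only [F]
      rw [sub_eq_add_neg, ← sum_neg_distrib]
      congr 1
      exact sum_congr rfl fun t _ => by ring
    rw [h3]
    linarith
  refine le_trans ?_ hF
  refine le_trans ?_ hx
  -- lower bound for the expectation
  have hE : Ex (Vs T) (Pw T p) F = ∑ g ∈ Gs R ℓ L, Ex (Vs T) (Pw T p) (fun x => xi ℓ L T x g) +
      ∑ t ∈ T, (-((1 + e) / e ^ 2 / mu t)) *
        Ex (Vs T) (Pw T p) (fun x => Mt ℓ L T (q t) x t) := by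
    simp only [F]
    rw [Ex_add, Ex_sum, Ex_sum]
    congr 1
    exact sum_congr rfl fun t _ => Ex_smul _ _ _ _
  rw [hE]
  have hcardG : ((Gs R ℓ L).card : ℝ) = (L : ℝ) * (ℓ : ℝ) ^ (R+1) := by
    unfold Gs
    rw [card_product, card_univ, card_W, card_range]
    push_cast; ring
  have h1 : (L : ℝ) * (ℓ : ℝ) ^ (R+1) * ∏ t ∈ T, p t -
      2 * ((T.card : ℝ) ^ 2 * L) * (∏ t ∈ T, p t) * (ℓ : ℝ) ^ R ≤
      ∑ g ∈ Gs R ℓ L, Ex (Vs T) (Pw T p) (fun x => xi ℓ L T x g) := by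
    have hb := card_bad1 hG (T := T) L
    have hb' : ((((Gs R ℓ L).filter fun g => ¬ good1 ℓ L T g).card : ℕ) : ℝ) ≤
        2 * ((T.card : ℝ) ^ 2 * (L * (ℓ : ℝ) ^ R)) := by exact_mod_cast hb
    have hsplit := card_filter_add_card_filter_not (s := Gs R ℓ L) (fun g => good1 ℓ L T g)
    have hsplit' : ((((Gs R ℓ L).filter fun g => good1 ℓ L T g).card : ℕ) : ℝ) +
        ((((Gs R ℓ L).filter fun g => ¬ good1 ℓ L T g).card : ℕ) : ℝ) =
        (L : ℝ) * (ℓ : ℝ) ^ (R+1) := by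
      rw [← hcardG]
      exact_mod_cast hsplit
    have hlow : ((((Gs R ℓ L).filter fun g => good1 ℓ L T g).card : ℕ) : ℝ) * ∏ t ∈ T, p t ≤
        ∑ g ∈ Gs R ℓ L, Ex (Vs T) (Pw T p) (fun x => xi ℓ L T x g) := by
      rw [← nsmul_eq_mul, ← sum_const, sum_filter]
      refine sum_le_sum fun g _ => ?_
      split_ifs with hg
      · exact (Ex_xi hpos hg).ge
      · have h0 := Ex_mono (ι := ZMod ℓ) (Vs T) (Pw T p) (Pw_nonneg hp hsum) (fun _ => (0:ℝ))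
          (fun x => xi ℓ L T x g) (fun x => by
            rcases xi_mem (L := L) (T := T) (x := x) (g := g) with h | h
            · rw [h]
            · rw [h.1]; exact zero_le_one)
        have h00 : Ex (ι := ZMod ℓ) (Vs T) (Pw T p) (fun _ => (0:ℝ)) = 0 := by
          unfold Ex; simp
        linarith
    refine le_trans ?_ hlow
    have h3 : (L : ℝ) * (ℓ : ℝ) ^ (R+1) - 2 * ((T.card : ℝ) ^ 2 * (L * (ℓ : ℝ) ^ R)) ≤
      ((((Gs R ℓ L).filter fun g => good1 ℓ L T g).card : ℕ) : ℝ) := by linarith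
    have := mul_le_mul_of_nonneg_right h3 hP0.le
    linarith
  have h2 : -(∑ t ∈ T, (1 + e) / e ^ 2 * 6 * ((T.card : ℝ) ^ 2 * (L : ℝ) ^ 2) /
          ((t 0 : ℝ) * q t)) * (ℓ : ℝ) ^ R ≤ ∑ t ∈ T, (-((1 + e) / e ^ 2 / mu t)) *
        Ex (Vs T) (Pw T p) (fun x => Mt ℓ L T (q t) x t) := by
    rw [neg_mul, sum_mul, ← sum_neg_distrib]
    refine sum_le_sum fun t ht => ?_
    have h := Ex_Mt_le hG hp hsum hpos L ht (q t) rfl (hq0 t ht).le (hq1 t ht)
    rw [neg_mul]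
    refine neg_le_neg ?_
    have hc : 0 ≤ (1 + e) / e ^ 2 / mu t := by
      have := hmu0 t ht
      positivity
    refine (mul_le_mul_of_nonneg_left h hc).trans (le_of_eq ?_)
    have h1 : (0:ℝ) < t 0 := by exact_mod_cast (by have := hpos t ht; omega : 0 < t 0)
    have hqt : 0 < q t := hq0 t ht
    simp only [mu]
    have hℓR : (0:ℝ) < (ℓ : ℝ) ^ R := pow_pos hℓ0 _
    field_simp
    ring
  have := add_le_add h1 h2
  refine le_trans (le_of_eq ?_) this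
  simp only [q]
  ring

lemma Gen_eventually (T : Finset (Fin (R+1) → ℤ)) (hpos : ∀ t ∈ T, 1 ≤ t 0)
    (hnp : ∀ t ∈ T, ∀ t' ∈ T, t ≠ t' → ∃ i j, t i * t' j ≠ t j * t' i) :
    ∃ ℓ₀ : ℕ, ∀ ℓ : ℕ, ℓ₀ ≤ ℓ → Gen ℓ T := by
  classical
  let B : ℕ := ∑ s ∈ T ×ˢ T, ∑ i : Fin (R+1), ∑ j : Fin (R+1),
    ((s.1 i * s.2 j - s.1 j * s.2 i).natAbs + (s.1 i - s.2 i).natAbs +
      (s.1 0 + s.2 0).natAbs + (s.1 0).natAbs)
  have hB : ∀ t ∈ T, ∀ t' ∈ T, ∀ i j : Fin (R+1),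
    (t i * t' j - t j * t' i).natAbs + (t i - t' i).natAbs +
      (t 0 + t' 0).natAbs + (t 0).natAbs ≤ B := by
    intro t ht t' ht' i j
    have h1 := single_le_sum (s := T ×ˢ T) (f := fun s => ∑ i : Fin (R+1), ∑ j : Fin (R+1),
      ((s.1 i * s.2 j - s.1 j * s.2 i).natAbs + (s.1 i - s.2 i).natAbs +
      (s.1 0 + s.2 0).natAbs + (s.1 0).natAbs)) (fun _ _ => Nat.zero_le _)
      (mem_product.2 ⟨ht, ht'⟩ : (t, t') ∈ T ×ˢ T)
    have h2 := single_le_sum (s := univ) (f := fun i : Fin (R+1) => ∑ j : Fin (R+1),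
      ((t i * t' j - t j * t' i).natAbs + (t i - t' i).natAbs +
      (t 0 + t' 0).natAbs + (t 0).natAbs)) (fun _ _ => Nat.zero_le _) (mem_univ i)
    have h3 := single_le_sum (s := univ) (f := fun j : Fin (R+1) =>
      ((t i * t' j - t j * t' i).natAbs + (t i - t' i).natAbs +
      (t 0 + t' 0).natAbs + (t 0).natAbs)) (fun _ _ => Nat.zero_le _) (mem_univ j)
    exact h3.trans (h2.trans h1)
  have key : ∀ (ℓ : ℕ), B + 1 ≤ ℓ → ∀ z : ℤ, z ≠ 0 → z.natAbs ≤ B → (z : ZMod ℓ) ≠ 0 := by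
    intro ℓ hℓ z hz hzB h
    rw [ZMod.intCast_zmod_eq_zero_iff_dvd] at h
    have := Int.natAbs_dvd_natAbs.2 h
    rw [Int.natAbs_natCast] at this
    have := Nat.le_of_dvd (Int.natAbs_pos.2 hz) this
    omega
  refine ⟨B + 1, fun ℓ hℓ => ⟨?_, ?_, ?_, ?_⟩⟩
  · intro t ht
    have := hB t ht t ht 0 0
    have h1 := hpos t ht
    exact key ℓ hℓ _ (by omega) (by omega)
  · intro t ht t' ht' hne
    obtain ⟨i, hi⟩ := Function.ne_iff.1 hne
    have := hB t ht t' ht' i 0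
    exact ⟨i, key ℓ hℓ _ (sub_ne_zero.2 hi) (by omega)⟩
  · intro t ht t' ht'
    have := hB t ht t' ht' 0 0
    have h1 := hpos t ht
    have h2 := hpos t' ht'
    exact key ℓ hℓ _ (by omega) (by omega)
  · intro t ht t' ht' hne
    obtain ⟨i, j, hij⟩ := hnp t ht t' ht' hne
    have := hB t ht t' ht' i j
    exact ⟨i, j, key ℓ hℓ _ (sub_ne_zero.2 hij) (by omega)⟩

end Main

/-- **Packing lemma P.** -/
theorem packing {R : ℕ} (T : Finset (Fin (R+1) → ℤ)) (hpos : ∀ t ∈ T, 1 ≤ t 0)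
    (hnp : ∀ t ∈ T, ∀ t' ∈ T, t ≠ t' → ∃ i j, t i * t' j ≠ t j * t' i)
    (p : (Fin (R+1) → ℤ) → ℝ) (hp : ∀ t ∈ T, 0 < p t) (hsum : 2 * ∑ t ∈ T, p t ≤ 1)
    (L : ℕ) (hL : 0 < L) (hdvd : ∀ t ∈ T, t 0 ∣ (L : ℤ)) (ε : ℝ) (hε : 0 < ε) :
    ∃ ℓ₀ : ℕ, ∀ ℓ : ℕ, ℓ₀ ≤ ℓ → ℓ.Prime →
      ∃ (σ : ZMod ℓ → (Fin (R+1) → ℤ)) (W : Finset ((Fin (R+1) → ZMod ℓ) × ℕ)),
        W.Nonempty ∧ (∀ B, σ (-1 - B) = - σ B) ∧ (∀ g ∈ W, g.2 < L) ∧
        (∀ g ∈ W, ∀ t ∈ T, σ (blk ℓ L t g) = t) ∧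
        (∀ t ∈ T, ∀ (B : ZMod ℓ) (r : ℤ),
          ((W.filter fun g => blk ℓ L t g = B ∧ t 0 * g.2 % L = r).card : ℝ) ≤
            (1 + ε) * W.card * t 0 / (p t * (L * ℓ))) := by
  classical
  obtain ⟨ℓ1, h1⟩ := Gen_eventually T hpos hnp
  set P := ∏ t ∈ T, p t with hP
  have hP0 : 0 < P := prod_pos hp
  set e := ε / 2 with he
  have he0 : 0 < e := by positivity
  set C4 := (2 * ((T.card : ℝ) ^ 2 * L) * P +
        ∑ t ∈ T, (1 + e) / e ^ 2 * 6 * ((T.card : ℝ) ^ 2 * (L : ℝ) ^ 2) /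
          ((t 0 : ℝ) * ∏ t' ∈ T.erase t, p t')) with hC4
  have hL0 : (0:ℝ) < L := by exact_mod_cast hL
  have hC40 : 0 ≤ C4 := by
    rw [hC4]
    refine add_nonneg (by positivity) (sum_nonneg fun t ht => ?_)
    have h1 : (0:ℝ) < t 0 := by exact_mod_cast (by have := hpos t ht; omega : 0 < t 0)
    have h2 : 0 < ∏ t' ∈ T.erase t, p t' := prod_pos fun t' ht' => hp t' (mem_of_mem_erase ht')
    positivity
  obtain ⟨ℓ2, h2⟩ := exists_nat_gt (C4 * (1 + ε) / (e * P * L) + C4 / (P * L))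
  refine ⟨max ℓ1 ℓ2, fun ℓ hℓ hprime => ?_⟩
  haveI : Fact ℓ.Prime := ⟨hprime⟩
  have hG := h1 ℓ (le_trans (le_max_left _ _) hℓ)
  have hℓ2 : C4 * (1 + ε) / (e * P * L) + C4 / (P * L) < ℓ :=
    lt_of_lt_of_le h2 (by exact_mod_cast le_trans (le_max_right _ _) hℓ)
  have hℓ0 : (0:ℝ) < ℓ := by exact_mod_cast hprime.pos
  have hA : C4 * (1 + ε) / (e * P * L) ≤ ℓ := by
    have : 0 ≤ C4 / (P * L) := by positivity
    linarith
  have hB : C4 / (P * L) < ℓ := by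
    have : 0 ≤ C4 * (1 + ε) / (e * P * L) := by positivity
    linarith
  obtain ⟨x, hx⟩ := core hG hp hsum hpos hL hdvd he0
  set c : (Fin (R+1) → ℤ) → ℝ := fun t => (1 + e) * ((t 0 : ℝ) * (ℓ : ℝ) ^ R *
    ∏ t' ∈ T.erase t, p t') with hc
  rw [← hC4] at hx
  have hWpos : (0:ℝ) < (Wx ℓ L T c x).card := by
    refine lt_of_lt_of_le ?_ hx
    rw [div_lt_iff₀ (by positivity)] at hB
    have : (0:ℝ) < (ℓ : ℝ) ^ R := pow_pos hℓ0 _
    have h3 := mul_lt_mul_of_pos_right hB this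
    have h4 : (L : ℝ) * (ℓ : ℝ) ^ (R+1) * P = ℓ * (P * L) * (ℓ : ℝ) ^ R := by ring
    rw [← hP, h4]
    linarith
  refine ⟨sig x, Wx ℓ L T c x, ?_, sig_mir x, ?_, ?_, ?_⟩
  · rw [← card_pos]
    exact_mod_cast hWpos
  · intro g hg
    unfold Wx Gs at hg
    rw [mem_filter, mem_product] at hg
    exact mem_range.1 hg.1.2
  · intro g hg
    unfold Wx at hg
    rw [mem_filter] at hg
    exact hg.2.1
  · intro t ht B r
    have ht0 : (0:ℝ) < t 0 := by exact_mod_cast (by have := hpos t ht; omega : 0 < t 0)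
    have hpt := hp t ht
    have hq0 : 0 < ∏ t' ∈ T.erase t, p t' := prod_pos fun t' ht' => hp t' (mem_of_mem_erase ht')
    rcases ((Wx ℓ L T c x).filter fun g => blk ℓ L t g = B ∧ t 0 * g.2 % L = r).eq_empty_or_nonempty
      with hem | ⟨g0, hg0⟩
    · rw [hem, card_empty]
      simp only [Nat.cast_zero]
      positivity
    · rw [mem_filter] at hg0
      have hkey0 : key ℓ L t g0 = (B, r) := by unfold key; rw [hg0.2.1, hg0.2.2]
      have hW0 := hg0.1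
      unfold Wx at hW0
      rw [mem_filter] at hW0
      have hload := hW0.2.2 t ht
      rw [hkey0] at hload
      have hcard : ((((Wx ℓ L T c x).filter fun g => blk ℓ L t g = B ∧
          t 0 * g.2 % L = r).card : ℕ) : ℝ) ≤ Xl ℓ L T x t (B, r) := by
        unfold Xl
        rw [card_eq_sum_ones]
        push_cast
        have hsub : ((Wx ℓ L T c x).filter fun g => blk ℓ L t g = B ∧ t 0 * g.2 % L = r) ⊆
            (Gs R ℓ L).filter fun g => key ℓ L t g = (B, r) := by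
          intro g hg
          unfold Wx at hg
          rw [mem_filter, mem_filter] at hg
          rw [mem_filter]
          refine ⟨hg.1.1, ?_⟩
          unfold key
          rw [hg.2.1, hg.2.2]
        refine le_trans ?_ (sum_le_sum_of_subset_of_nonneg hsub fun g _ _ => ?_)
        · refine sum_le_sum fun g hg => ?_
          unfold Wx at hg
          rw [mem_filter, mem_filter] at hg
          rcases xi_mem (L := L) (T := T) (x := x) (g := g) with h | h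
          · exfalso
            have : xi ℓ L T x g = 1 := by
              unfold xi
              exact prod_eq_one fun t ht => if_pos (hg.1.2.1 t ht)
            rw [this] at h
            exact one_ne_zero h
          · rw [h.1]
        · rcases xi_mem (L := L) (T := T) (x := x) (g := g) with h | h
          · rw [h]
          · rw [h.1]; exact zero_le_one
      refine hcard.trans (hload.trans ?_)
      rw [hc]
      simp only
      rw [le_div_iff₀ (by positivity)]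
      have hprod : P = p t * ∏ t' ∈ T.erase t, p t' := by rw [hP, mul_prod_erase T p ht]
      have hℓR : (0:ℝ) < (ℓ : ℝ) ^ R := pow_pos hℓ0 _
      have h5 : C4 * (1 + ε) ≤ ℓ * (e * P * L) := by
        rwa [div_le_iff₀ (by positivity)] at hA
      have h6 : (1 + e) * (L * (ℓ : ℝ) ^ (R+1) * P) ≤ (1 + ε) * ((Wx ℓ L T c x).card : ℝ) := by
        have h7 := mul_le_mul_of_nonneg_left hx (by positivity : 0 ≤ 1 + ε)
        refine le_trans ?_ h7
        have h8 := mul_le_mul_of_nonneg_right h5 hℓR.le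
        have h9 : (L : ℝ) * (ℓ : ℝ) ^ (R+1) * P * (ε - e) = ℓ * (e * P * L) * (ℓ : ℝ) ^ R := by
          rw [he]; ring
        rw [← hP]
        nlinarith
      calc (1 + e) * ((t 0 : ℝ) * (ℓ : ℝ) ^ R * ∏ t' ∈ T.erase t, p t') * (p t * (L * ℓ))
          = ((1 + e) * (L * (ℓ : ℝ) ^ (R+1) * P)) * t 0 := by rw [hprod]; ring
        _ ≤ ((1 + ε) * ((Wx ℓ L T c x).card : ℝ)) * t 0 :=
          mul_le_mul_of_nonneg_right h6 ht0.le
        _ = (1 + ε) * ((Wx ℓ L T c x).card : ℝ) * t 0 := by ring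

end Crest.Agent.R075.Pack
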