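import Crest.Agent.R075.ProfileMain
import Crest.Agent.R075.AnaDef
import Crest.Agent.R075.Fold
import Crest.Agent.R075.Design
import Crest.Agent.R075.PackMain
import Mathlib
import Crest.Agent.R075.Fou

-- ▼ part R075/Profile
section

/-!
# Row 75: PROFILE LEMMA (helper201)
-/

set_option autoImplicit false

open MeasureTheory Set Filter Topology intervalIntegral

namespace Crest.Agent.R075

/-- nodes `y 0 = 0 < ... < y m = 1` and amplitudes `w j` on `[y j, y (j+1))` -/
structure Nodes (m : ℕ) (y w : ℕ → ℝ) (r n : ℝ) : Prop where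
  hm : 1 ≤ m
  hr : 0 < r
  hn : 1 ≤ n
  y0 : y 0 = 0
  ym : y m = 1
  len : ∀ j, j < m → r ≤ y (j + 1) - y j
  w_ge : ∀ j, j < m → 1 / n ≤ w j
  w_le : ∀ j, j < m → w j ≤ 1
  adj : ∀ j, j + 1 < m → |w (j + 1) - w j| ≤ 1 / n
  w_first : w 0 ≤ 1 / n
  w_last : w (m - 1) ≤ 1 / n

/-- the step function -/
noncomputable def stepW (m : ℕ) (y w : ℕ → ℝ) (u : ℝ) : ℝ :=
  ∑ j ∈ Finset.range m, (Ico (y j) (y (j + 1))).indicator (fun _ => w j) u

section
variable {m : ℕ} {y w : ℕ → ℝ} {r n : ℝ} (hN : Nodes m y w r n)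
include hN

lemma Nodes.mono_succ {j : ℕ} (hj : j < m) : y j < y (j + 1) := by
  have := hN.len j hj; have := hN.hr; linarith

lemma Nodes.mono {i j : ℕ} (hij : i ≤ j) (hj : j ≤ m) : y i ≤ y j := by
  induction j, hij using Nat.le_induction with
  | base => exact le_rfl
  | succ k hk ih => exact (ih (by omega)).trans (hN.mono_succ (by omega)).le

lemma Nodes.mem_unit {j : ℕ} (hj : j ≤ m) : y j ∈ Icc (0 : ℝ) 1 := by
  constructor
  · rw [← hN.y0]; exact hN.mono (Nat.zero_le _) hj
  · rw [← hN.ym]; exact hN.mono hj le_rfl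

lemma Nodes.exists_piece {u : ℝ} (h0 : 0 ≤ u) (h1 : u < 1) :
    ∃ j, j < m ∧ y j ≤ u ∧ u < y (j + 1) := by
  classical
  have hex : ∃ k, u < y k := ⟨m, by rw [hN.ym]; exact h1⟩
  set k := Nat.find hex with hk
  have hk1 : u < y k := Nat.find_spec hex
  have hkm : k ≤ m := Nat.find_min' hex (by rw [hN.ym]; exact h1)
  have hk0 : 1 ≤ k := by
    rcases Nat.eq_zero_or_pos k with h | h
    · rw [h, hN.y0] at hk1; linarith
    · exact h
  refine ⟨k - 1, by omega, ?_, ?_⟩
  · have := Nat.find_min hex (m := k - 1) (by omega)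
    exact not_lt.1 this
  · rw [Nat.sub_add_cancel hk0]; exact hk1

lemma Nodes.stepW_piece {u : ℝ} {j : ℕ} (hj : j < m) (h1 : y j ≤ u) (h2 : u < y (j + 1)) :
    stepW m y w u = w j := by
  unfold stepW
  rw [Finset.sum_eq_single j]
  · rw [Set.indicator_of_mem]; exact ⟨h1, h2⟩
  · intro i hi hij
    rw [Finset.mem_range] at hi
    rw [Set.indicator_of_notMem]
    rintro ⟨h3, h4⟩
    rcases lt_or_gt_of_ne hij with h | h
    · have := hN.mono (i := i + 1) (j := j) (by omega) (by omega)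
      linarith
    · have := hN.mono (i := j + 1) (j := i) (by omega) (by omega)
      linarith
  · intro h; exact absurd (Finset.mem_range.2 hj) h

lemma Nodes.stepW_out {u : ℝ} (h : u < 0 ∨ 1 ≤ u) : stepW m y w u = 0 := by
  unfold stepW
  refine Finset.sum_eq_zero (fun j hj => ?_)
  rw [Finset.mem_range] at hj
  rw [Set.indicator_of_notMem]
  rintro ⟨h3, h4⟩
  have e1 := (hN.mem_unit (j := j) (by omega)).1
  have e2 := (hN.mem_unit (j := j + 1) (by omega)).2
  rcases h with h | h <;> linarith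

lemma Nodes.stepW_cases (u : ℝ) :
    ((u < 0 ∨ 1 ≤ u) ∧ stepW m y w u = 0) ∨
      ∃ j, j < m ∧ y j ≤ u ∧ u < y (j + 1) ∧ stepW m y w u = w j := by
  by_cases h : u < 0 ∨ 1 ≤ u
  · exact Or.inl ⟨h, hN.stepW_out h⟩
  · push Not at h
    obtain ⟨j, hj, h1, h2⟩ := hN.exists_piece h.1 h.2
    exact Or.inr ⟨j, hj, h1, h2, hN.stepW_piece hj h1 h2⟩

lemma Nodes.inv_pos : 0 < 1 / n := by
  have := hN.hn; positivity

lemma Nodes.stepW_01 (u : ℝ) : stepW m y w u = 0 ∨ 1 / n ≤ stepW m y w u := by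
  rcases hN.stepW_cases u with ⟨_, h⟩ | ⟨j, hj, _, _, h⟩
  · exact Or.inl h
  · rw [h]; exact Or.inr (hN.w_ge j hj)

lemma Nodes.prf : Prf (stepW m y w) where
  nonneg := by
    intro u
    rcases hN.stepW_01 u with h | h
    · rw [h]
    · exact hN.inv_pos.le.trans h
  le_one := by
    intro u
    rcases hN.stepW_cases u with ⟨_, h⟩ | ⟨j, hj, _, _, h⟩
    · rw [h]; exact zero_le_one
    · rw [h]; exact hN.w_le j hj
  meas := by
    unfold stepW
    exact Finset.measurable_fun_sum _ (fun j _ => measurable_const.indicator measurableSet_Ico)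
  rc := by
    intro u
    rcases hN.stepW_cases u with ⟨h1 | h1, h⟩ | ⟨j, hj, h1, h2, h⟩
    · -- left of 0
      have : ∀ᶠ v in 𝓝[>] u, stepW m y w v = stepW m y w u := by
        filter_upwards [Ioo_mem_nhdsGT h1] with v hv
        rw [h, hN.stepW_out (Or.inl hv.2)]
      exact (tendsto_congr' this).2 tendsto_const_nhds
    · have : ∀ᶠ v in 𝓝[>] u, stepW m y w v = stepW m y w u := by
        filter_upwards [self_mem_nhdsWithin] with v hv
        rw [h, hN.stepW_out (Or.inr (h1.trans (le_of_lt hv)))]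
      exact (tendsto_congr' this).2 tendsto_const_nhds
    · have : ∀ᶠ v in 𝓝[>] u, stepW m y w v = stepW m y w u := by
        filter_upwards [Ioo_mem_nhdsGT h2] with v hv
        rw [h, hN.stepW_piece hj (h1.trans hv.1.le) hv.2]
      exact (tendsto_congr' this).2 tendsto_const_nhds

lemma Nodes.modulus_aux {u v : ℝ} (huv : u ≤ v) (h : v - u ≤ r) :
    |stepW m y w u - stepW m y w v| ≤ 1 / n := by
  have hi := hN.inv_pos
  have hrr := hN.hr
  have hm := hN.hm
  rcases hN.stepW_cases u with ⟨hu | hu, hu'⟩ | ⟨i, hi', hu1, hu2, hu'⟩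
  · rcases hN.stepW_cases v with ⟨hv, hv'⟩ | ⟨j, hj, hv1, hv2, hv'⟩
    · rw [hu', hv', sub_zero, abs_zero]; exact hi.le
    · have hj0 : j = 0 := by
        by_contra hne
        have h1 := hN.mono (i := 1) (j := j) (by omega) (by omega)
        have h2 := hN.len 0 (by omega)
        have h3 := hN.y0
        rw [zero_add] at h2
        linarith
      rw [hu', hv', hj0, zero_sub, abs_neg, abs_of_nonneg (hi.le.trans (hN.w_ge 0 (by omega)))]
      exact hN.w_first
  · have hv : stepW m y w v = 0 := hN.stepW_out (Or.inr (hu.trans huv))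
    rw [hu', hv, sub_zero, abs_zero]; exact hi.le
  · rcases hN.stepW_cases v with ⟨hv, hv'⟩ | ⟨j, hj, hv1, hv2, hv'⟩
    · have hu0 : 0 ≤ u := (hN.mem_unit (j := i) (by omega)).1.trans hu1
      have hv1 : 1 ≤ v := by
        rcases hv with hv | hv
        · linarith
        · exact hv
      have him : i = m - 1 := by
        by_contra hne
        have h1 := hN.mono (i := i + 1) (j := m - 1) (by omega) (by omega)
        have h2 := hN.len (m - 1) (by omega)
        rw [Nat.sub_add_cancel hm, hN.ym] at h2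
        linarith
      rw [hu', hv', him, sub_zero, abs_of_nonneg (hi.le.trans (hN.w_ge (m - 1) (by omega)))]
      exact hN.w_last
    · have hij : i ≤ j := by
        by_contra hne
        have := hN.mono (i := j + 1) (j := i) (by omega) (by omega)
        linarith
      have hji : j ≤ i + 1 := by
        by_contra hne
        have h1 := hN.mono (i := i + 2) (j := j) (by omega) (by omega)
        have h2 := hN.len (i + 1) (by omega)
        linarith
      rw [hu', hv']
      rcases Nat.eq_or_lt_of_le hij with h5 | h5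
      · rw [h5, sub_self, abs_zero]; exact hi.le
      · have : j = i + 1 := by omega
        rw [this, abs_sub_comm]
        exact hN.adj i (by omega)

lemma Nodes.modulus (u v : ℝ) (h : |u - v| ≤ r) :
    |stepW m y w u - stepW m y w v| ≤ 1 / n := by
  rcases le_total u v with huv | huv
  · rw [abs_sub_comm, abs_of_nonneg (by linarith)] at h
    exact hN.modulus_aux huv h
  · rw [abs_of_nonneg (by linarith)] at h
    rw [abs_sub_comm]
    exact hN.modulus_aux huv h

end

/-! ### change of variables -/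

/-- the position as a function of time -/
noncomputable def Xpos (κ : ℝ) (W : ℝ → ℝ) (u : ℝ) : ℝ := κ * ∫ r in (0:ℝ)..u, W r ^ 2

/-- the Legendre transform -/
noncomputable def Gleg (κ : ℝ) (W : ℝ → ℝ) (u : ℝ) : ℝ := κ * ∫ r in (0:ℝ)..u, W r ^ 2 * (u - r)

section
variable {W : ℝ → ℝ} (hW : Prf W)
include hW

lemma Prf.int_sq (a b : ℝ) : IntervalIntegrable (fun r => W r ^ 2) volume a b := by
  have := hW.int_sq_mul (g := fun _ => (1:ℝ)) continuous_const a b
  simpa using this

lemma Prf.Xpos_continuous (κ : ℝ) : Continuous (Xpos κ W) :=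
  continuous_const.mul (intervalIntegral.continuous_primitive (fun a b => hW.int_sq a b) 0)

lemma Prf.Xpos_hasDeriv (κ u : ℝ) :
    HasDerivWithinAt (Xpos κ W) (κ * W u ^ 2) (Ioi u) u := by
  have h1 : HasDerivWithinAt (fun v => ∫ r in (0:ℝ)..v, W r ^ 2) (W u ^ 2) (Ici u) u :=
    intervalIntegral.integral_hasDerivWithinAt_right (t := Ioi u) (hW.int_sq 0 u)
      ((hW.meas.pow_const 2).stronglyMeasurable.stronglyMeasurableAtFilter) ((hW.rc u).pow 2)
  exact (h1.mono Ioi_subset_Ici_self).const_mul κ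

lemma Prf.Xpos_mono {κ : ℝ} (hκ : 0 ≤ κ) : Monotone (Xpos κ W) := by
  intro a b hab
  unfold Xpos
  apply mul_le_mul_of_nonneg_left _ hκ
  rw [← integral_add_adjacent_intervals (hW.int_sq 0 a) (hW.int_sq a b)]
  have : 0 ≤ ∫ r in a..b, W r ^ 2 :=
    intervalIntegral.integral_nonneg hab (fun r _ => sq_nonneg _)
  linarith

/-- `X(u) Y - κ ∫_0^u W² r = G(Y) - E(u)` -/
lemma Prf.phase_identity (κ Y u : ℝ) :
    Xpos κ W u * Y - κ * (∫ r in (0:ℝ)..u, W r ^ 2 * r) = Gleg κ W Y - Edef κ W Y u := by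
  unfold Xpos Gleg Edef
  have h1 : ∫ r in (0:ℝ)..Y, W r ^ 2 * (Y - r)
      = (∫ r in (0:ℝ)..u, W r ^ 2 * (Y - r)) + ∫ r in u..Y, W r ^ 2 * (Y - r) :=
    (integral_add_adjacent_intervals (hW.int_sq_mul (by fun_prop) _ _)
      (hW.int_sq_mul (by fun_prop) _ _)).symm
  have h2 : ∫ r in (0:ℝ)..u, W r ^ 2 * (Y - r)
      = (∫ r in (0:ℝ)..u, W r ^ 2) * Y - ∫ r in (0:ℝ)..u, W r ^ 2 * r := by
    rw [← intervalIntegral.integral_mul_const, ← intervalIntegral.integral_sub]
    · refine integral_congr (fun r _ => ?_)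
      ring
    · exact (hW.int_sq 0 u).mul_const Y
    · exact hW.int_sq_mul continuous_id 0 u
  rw [h1, h2]; ring

/-- the position integral in the time variable; `γ` is inverse to `Xpos` on `[0,1]` -/
lemma Prf.change_var {κ : ℝ} (hκ : 0 < κ) (hX1 : Xpos κ W 1 = 1) {γ : ℝ → ℝ}
    (hγ : ContinuousOn γ (Icc 0 1)) (hinv : ∀ u ∈ Icc (0:ℝ) 1, γ (Xpos κ W u) = u) (Λ Y : ℝ) :
    (∫ z in (0:ℝ)..1, ee (Λ * (z * Y - ∫ s in (0:ℝ)..z, γ s)))
      = ee (Λ * Gleg κ W Y) *
        ∫ u in (0:ℝ)..1, ((κ * W u ^ 2 : ℝ) : ℂ) * ee (-(Λ * Edef κ W Y u)) := by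
  have hX0 : Xpos κ W 0 = 0 := by unfold Xpos; simp
  have hmono := hW.Xpos_mono hκ.le
  have hmaps : ∀ u ∈ Icc (0:ℝ) 1, Xpos κ W u ∈ Icc (0:ℝ) 1 := by
    intro u hu
    constructor
    · rw [← hX0]; exact hmono hu.1
    · rw [← hX1]; exact hmono hu.2
  have hγint : ∀ a ∈ Icc (0:ℝ) 1, ∀ b ∈ Icc (0:ℝ) 1, IntervalIntegrable γ volume a b := by
    intro a ha b hb
    apply ContinuousOn.intervalIntegrable
    apply hγ.mono
    intro x hx
    rcases le_total a b with h | h
    · rw [uIcc_of_le h] at hx; exact ⟨ha.1.trans hx.1, hx.2.trans hb.2⟩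
    · rw [uIcc_of_ge h] at hx; exact ⟨hb.1.trans hx.1, hx.2.trans ha.2⟩
  -- Gamma in the time variable
  have hΓ : ∀ u ∈ Icc (0:ℝ) 1, (∫ s in (0:ℝ)..(Xpos κ W u), γ s)
      = κ * ∫ r in (0:ℝ)..u, W r ^ 2 * r := by
    intro u hu
    have himg : Xpos κ W '' Icc 0 u ⊆ Icc 0 1 := by
      rintro _ ⟨v, hv, rfl⟩
      exact hmaps v ⟨hv.1, hv.2.trans hu.2⟩
    have h1 := intervalIntegral.integral_deriv_smul_comp''' (a := 0) (b := u)
      (f := Xpos κ W) (f' := fun v => κ * W v ^ 2) (g := γ)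
      (hW.Xpos_continuous κ).continuousOn
      (fun v _ => hW.Xpos_hasDeriv κ v)
      (hγ.mono (by
        rw [min_eq_left hu.1, max_eq_right hu.1]
        exact (image_mono Ioo_subset_Icc_self).trans himg))
      (by
        rw [uIcc_of_le hu.1]
        exact (hγ.integrableOn_Icc).mono_set himg)
      (by
        rw [uIcc_of_le hu.1]
        have hc : IntegrableOn (fun v => κ * (W v ^ 2 * v)) (Icc 0 u) := by
          have := (hW.int_sq_mul continuous_id 0 u).const_mul κ
          rw [intervalIntegrable_iff_integrableOn_Icc_of_le hu.1] at this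
          exact this
        refine hc.congr_fun ?_ measurableSet_Icc
        intro v hv
        simp only [Function.comp, smul_eq_mul]
        rw [hinv v ⟨hv.1, hv.2.trans hu.2⟩]; ring)
    rw [hX0] at h1
    rw [← h1, ← intervalIntegral.integral_const_mul]
    refine integral_congr (fun v hv => ?_)
    rw [uIcc_of_le hu.1] at hv
    simp only [Function.comp, smul_eq_mul]
    rw [hinv v ⟨hv.1, hv.2.trans hu.2⟩]; ring
  set g : ℝ → ℂ := fun z => ee (Λ * (z * Y - ∫ s in (0:ℝ)..z, γ s)) with hg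
  have hgc : ContinuousOn g (Icc 0 1) := by
    rw [hg]
    apply ee_continuous.comp_continuousOn
    apply ContinuousOn.mul continuousOn_const
    apply ContinuousOn.sub (by fun_prop)
    have := intervalIntegral.continuousOn_primitive_interval (μ := volume) (f := γ) (a := 0) (b := 1)
      (by rw [uIcc_of_le zero_le_one]; exact hγ.integrableOn_Icc)
    rwa [uIcc_of_le zero_le_one] at this
  have himg1 : Xpos κ W '' Icc 0 1 ⊆ Icc 0 1 := by
    rintro _ ⟨v, hv, rfl⟩
    exact hmaps v hv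
  have hval : ∀ u ∈ Icc (0:ℝ) 1, (κ * W u ^ 2) • g (Xpos κ W u)
      = ee (Λ * Gleg κ W Y) * (((κ * W u ^ 2 : ℝ) : ℂ) * ee (-(Λ * Edef κ W Y u))) := by
    intro u hu
    rw [hg]
    simp only
    rw [hΓ u hu, hW.phase_identity, Complex.real_smul]
    have : Λ * (Gleg κ W Y - Edef κ W Y u) = Λ * Gleg κ W Y + (-(Λ * Edef κ W Y u)) := by ring
    rw [this, ee_add]; ring
  have h2 := intervalIntegral.integral_deriv_smul_comp''' (a := 0) (b := 1)
      (f := Xpos κ W) (f' := fun v => κ * W v ^ 2) (g := g)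
      (hW.Xpos_continuous κ).continuousOn
      (fun v _ => hW.Xpos_hasDeriv κ v)
      (hgc.mono (by
        rw [min_eq_left zero_le_one, max_eq_right zero_le_one]
        exact (image_mono Ioo_subset_Icc_self).trans himg1))
      (by
        rw [uIcc_of_le zero_le_one]
        exact (hgc.integrableOn_Icc).mono_set himg1)
      (by
        rw [uIcc_of_le zero_le_one]
        have hc : IntegrableOn (fun u => ee (Λ * Gleg κ W Y) *
            (((κ * W u ^ 2 : ℝ) : ℂ) * ee (-(Λ * Edef κ W Y u)))) (Icc 0 1) := by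
          have := (hW.int_main κ Λ Y 0 1).const_mul (ee (Λ * Gleg κ W Y))
          rw [intervalIntegrable_iff_integrableOn_Icc_of_le zero_le_one] at this
          exact this
        refine hc.congr_fun ?_ measurableSet_Icc
        intro v hv
        exact (hval v hv).symm)
  rw [hX0, hX1] at h2
  rw [← h2, ← intervalIntegral.integral_const_mul]
  refine integral_congr (fun v hv => ?_)
  rw [uIcc_of_le zero_le_one] at hv
  exact hval v hv

end

end Crest.Agent.R075
end

-- ▼ part R075/ProfileLemma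
section

/-!
# Row 75: PROFILE LEMMA, final form (helper201)
-/

set_option autoImplicit false

open MeasureTheory Set Filter Topology intervalIntegral

namespace Crest.Agent.R075

/-- explicit nodes -/
noncomputable def ynode (n : ℕ) (τ : ℝ) (j : ℕ) : ℝ :=
  if j ≤ n then j * (τ / n) else 1 - τ + ((j : ℝ) - n - 1) * (τ / n)

/-- explicit amplitudes -/
noncomputable def wnode (n : ℕ) (j : ℕ) : ℝ :=
  if j < n then ((j : ℝ) + 1) / n else if j = n then 1 else (2 * (n : ℝ) + 1 - j) / n

lemma nodes_explicit {n : ℕ} (hn : 1 ≤ n) {τ : ℝ} (hτ : 0 < τ) (hτ4 : τ ≤ 1 / 4) :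
    Nodes (2 * n + 1) (ynode n τ) (wnode n) (τ / n) n := by
  have hn0 : (0 : ℝ) < n := by exact_mod_cast hn
  have hn1 : (1 : ℝ) ≤ n := by exact_mod_cast hn
  have hr : 0 < τ / n := by positivity
  have hrle : τ / n ≤ 1 / 4 := by
    rw [div_le_iff₀ hn0]; nlinarith
  have hτn : (n : ℝ) * (τ / n) = τ := by field_simp
  refine ⟨by omega, hr, hn1, ?_, ?_, ?_, ?_, ?_, ?_, ?_, ?_⟩
  · unfold ynode; simp
  · unfold ynode
    rw [if_neg (by omega)]
    push_cast
    have : ((2 * (n : ℝ) + 1) - n - 1) * (τ / n) = n * (τ / n) := by ring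
    rw [this, hτn]; ring
  · intro j hj
    unfold ynode
    rcases lt_trichotomy j n with h | h | h
    · rw [if_pos (by omega), if_pos (by omega)]
      push_cast; linarith
    · rw [if_neg (by omega), if_pos (by omega), h]
      push_cast
      have : ((n : ℝ) + 1 - n - 1) * (τ / n) = 0 := by ring
      rw [this, hτn]; linarith
    · rw [if_neg (by omega), if_neg (by omega)]
      push_cast; linarith
  · intro j hj
    unfold wnode
    split_ifs with h1 h2
    · rw [div_le_div_iff_of_pos_right hn0]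
      have : (0 : ℝ) ≤ j := Nat.cast_nonneg j
      linarith
    · rw [div_le_one hn0]; exact hn1
    · rw [div_le_div_iff_of_pos_right hn0]
      have : (j : ℝ) ≤ 2 * n := by
        have : j ≤ 2 * n := by omega
        exact_mod_cast this
      linarith
  · intro j hj
    unfold wnode
    split_ifs with h1 h2
    · rw [div_le_one hn0]
      have : j + 1 ≤ n := by omega
      exact_mod_cast this
    · exact le_rfl
    · rw [div_le_one hn0]
      have : (n : ℝ) + 1 ≤ j := by
        have : n + 1 ≤ j := by omega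
        exact_mod_cast this
      linarith
  · intro j hj
    have hinv : 0 < 1 / (n : ℝ) := by positivity
    unfold wnode
    rcases lt_trichotomy (j + 1) n with h | h | h
    · rw [if_pos h, if_pos (by omega)]
      have : ((j + 1 : ℕ) : ℝ) + 1 = (j : ℝ) + 1 + 1 := by push_cast; ring
      rw [this, ← sub_div, add_sub_cancel_left, abs_of_pos hinv]
    · rw [if_neg (by omega), if_pos h, if_pos (by omega)]
      have : (j : ℝ) + 1 = n := by rw [← h]; push_cast; ring
      rw [this, div_self hn0.ne', sub_self, abs_zero]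
      exact hinv.le
    · rw [if_neg (by omega), if_neg (by omega)]
      rcases Nat.lt_or_ge n j with h3 | h3
      · rw [if_neg (by omega), if_neg (by omega)]
        have : (2 * (n : ℝ) + 1 - ((j + 1 : ℕ) : ℝ)) / n - (2 * (n : ℝ) + 1 - j) / n = -(1 / n) := by
          push_cast; ring
        rw [this, abs_neg, abs_of_pos hinv]
      · have hj' : j = n := by omega
        rw [if_neg (by omega), if_pos hj', hj']
        have : (2 * (n : ℝ) + 1 - ((n + 1 : ℕ) : ℝ)) / n = 1 := by
          push_cast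
          rw [div_eq_one_iff_eq hn0.ne']; ring
        rw [this, sub_self, abs_zero]
        exact hinv.le
  · unfold wnode
    rw [if_pos (by omega)]
    simp
  · unfold wnode
    rw [if_neg (by omega), if_neg (by omega)]
    have : 2 * n + 1 - 1 = 2 * n := by omega
    rw [this]
    push_cast
    rw [div_le_div_iff_of_pos_right hn0]; linarith

section
variable {m : ℕ} {y w : ℕ → ℝ} {r n : ℝ} (hN : Nodes m y w r n)
include hN

/-- `X` on a piece -/
lemma Nodes.Xpos_piece (κ : ℝ) {j : ℕ} (hj : j < m) {u : ℝ} (h1 : y j ≤ u) (h2 : u ≤ y (j + 1)) :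
    Xpos κ (stepW m y w) u = Xpos κ (stepW m y w) (y j) + κ * w j ^ 2 * (u - y j) := by
  unfold Xpos
  rw [← integral_add_adjacent_intervals (hN.prf.int_sq 0 (y j)) (hN.prf.int_sq (y j) u)]
  have : ∫ r in (y j)..u, stepW m y w r ^ 2 = ∫ r in (y j)..u, w j ^ 2 := by
    apply intervalIntegral.integral_congr_ae
    have hne : ∀ᵐ v : ℝ ∂volume, v ≠ u := by rw [ae_iff]; simp
    filter_upwards [hne] with v hv hmem
    rw [uIoc_of_le h1] at hmem
    rw [hN.stepW_piece hj hmem.1.le ((lt_of_le_of_ne hmem.2 hv).trans_le h2)]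
  rw [this, intervalIntegral.integral_const, smul_eq_mul]
  ring

lemma Nodes.exists_piece_closed {u : ℝ} (h0 : 0 ≤ u) (h1 : u ≤ 1) :
    ∃ j, j < m ∧ y j ≤ u ∧ u ≤ y (j + 1) := by
  rcases lt_or_eq_of_le h1 with h | h
  · obtain ⟨j, hj, h2, h3⟩ := hN.exists_piece h0 h
    exact ⟨j, hj, h2, h3.le⟩
  · refine ⟨m - 1, by have := hN.hm; omega, ?_, ?_⟩
    · rw [h, ← hN.ym]; exact hN.mono (by omega) le_rfl
    · rw [Nat.sub_add_cancel hN.hm, hN.ym, h]

end

/-- the energy of the explicit profile is between `1 - 2τ` and `1` -/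
lemma energy_explicit {n : ℕ} (hn : 1 ≤ n) {τ : ℝ} (hτ : 0 < τ) (hτ4 : τ ≤ 1 / 4) :
    1 - 2 * τ ≤ ∫ u in (0:ℝ)..1, stepW (2 * n + 1) (ynode n τ) (wnode n) u ^ 2 ∧
      ∫ u in (0:ℝ)..1, stepW (2 * n + 1) (ynode n τ) (wnode n) u ^ 2 ≤ 1 := by
  have hN := nodes_explicit hn hτ hτ4
  have hP := hN.prf
  set W := stepW (2 * n + 1) (ynode n τ) (wnode n) with hWd
  have hn0 : (0 : ℝ) < n := by exact_mod_cast hn
  have hτn : (n : ℝ) * (τ / n) = τ := by field_simp
  have hyn : ynode n τ n = τ := by unfold ynode; rw [if_pos le_rfl, hτn]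
  have hyn1 : ynode n τ (n + 1) = 1 - τ := by
    unfold ynode; rw [if_neg (by omega)]; push_cast; ring
  constructor
  · have h1 : ∫ u in (0:ℝ)..1, W u ^ 2 = (∫ u in (0:ℝ)..τ, W u ^ 2) + (∫ u in τ..(1 - τ), W u ^ 2)
        + ∫ u in (1 - τ)..1, W u ^ 2 := by
      rw [integral_add_adjacent_intervals (hP.int_sq _ _) (hP.int_sq _ _),
        integral_add_adjacent_intervals (hP.int_sq _ _) (hP.int_sq _ _)]
    have h2 : 0 ≤ ∫ u in (0:ℝ)..τ, W u ^ 2 :=
      intervalIntegral.integral_nonneg hτ.le (fun r _ => sq_nonneg _)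
    have h3 : 0 ≤ ∫ u in (1 - τ)..1, W u ^ 2 :=
      intervalIntegral.integral_nonneg (by linarith) (fun r _ => sq_nonneg _)
    have h4 : ∫ u in τ..(1 - τ), W u ^ 2 = ∫ u in τ..(1 - τ), (1 : ℝ) := by
      apply intervalIntegral.integral_congr_ae
      have hne : ∀ᵐ v : ℝ ∂volume, v ≠ 1 - τ := by rw [ae_iff]; simp
      filter_upwards [hne] with v hv hmem
      rw [uIoc_of_le (by linarith)] at hmem
      have hw : wnode n n = 1 := by unfold wnode; rw [if_neg (by omega), if_pos rfl]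
      have h5 := hN.stepW_piece (j := n) (u := v) (by omega) (by rw [hyn]; exact hmem.1.le)
        (by rw [hyn1]; exact lt_of_le_of_ne hmem.2 hv)
      rw [hWd, h5, hw, one_pow]
    rw [intervalIntegral.integral_const, smul_eq_mul, mul_one] at h4
    rw [h1, h4]; linarith
  · have h1 : ∫ u in (0:ℝ)..1, W u ^ 2 ≤ ∫ u in (0:ℝ)..1, (1 : ℝ) := by
      apply intervalIntegral.integral_mono_on zero_le_one (hP.int_sq _ _)
        (continuous_const.intervalIntegrable _ _)
      intro u _
      exact hP.sq_le u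
    simpa using h1

/-- **PROFILE LEMMA** -/
theorem profile (ε : ℝ) (hε : 0 < ε) :
    ∃ (m : ℕ) (x y : ℕ → ℝ) (κ : ℝ) (W g : ℝ → ℝ) (Λ₀ : ℝ),
      1 ≤ m ∧ x 0 = 0 ∧ x m = 1 ∧ y 0 = 0 ∧ y m = 1 ∧
      (∀ j, j < m → x j < x (j + 1) ∧ y j < y (j + 1)) ∧
      1 ≤ κ ∧ κ ≤ 1 + ε ∧ (∀ u, 0 ≤ W u ∧ W u ≤ 1) ∧ (∀ u, u ∉ Icc (0:ℝ) 1 → W u = 0) ∧
      0 < Λ₀ ∧
      ∀ γ : ℝ → ℝ, ContinuousOn γ (Icc 0 1) →
        (∀ j, j < m → ∀ z ∈ Icc (x j) (x (j + 1)),
          γ z = y j + (y (j + 1) - y j) / (x (j + 1) - x j) * (z - x j)) →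
        ∀ Λ, Λ₀ ≤ Λ → ∀ u : ℝ,
          ‖((Real.sqrt Λ : ℝ) : ℂ) * (∫ z in (0:ℝ)..1, ee (Λ * (z * u - ∫ s in (0:ℝ)..z, γ s)))
            - ((Real.sqrt κ * W u : ℝ) : ℂ) * ee (Λ * g u - 1 / 8)‖ ≤ ε := by
  have hpi3 := Real.pi_gt_three
  -- parameters
  obtain ⟨A, hA0, hA⟩ : ∃ A : ℝ, 0 < A ∧ 2 * (4 / (Real.pi * A)) ≤ ε / 2 := by
    refine ⟨16 / ε, by positivity, ?_⟩
    have : 2 * (4 / (Real.pi * (16 / ε))) = (1 / Real.pi) * (ε / 2) := by
      field_simp
      ring
    rw [this]
    have h1 : 1 / Real.pi ≤ 1 := by rw [div_le_one (by linarith)]; linarith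
    calc 1 / Real.pi * (ε / 2) ≤ 1 * (ε / 2) := by gcongr
      _ = ε / 2 := one_mul _
  set B : ℝ := 6 * A * (1 + 2 * Real.pi * A ^ 2) with hB
  have hB0 : 0 < B := by rw [hB]; positivity
  obtain ⟨n, hn⟩ := exists_nat_ge (max 1 (4 * B / ε))
  have hn1 : (1 : ℝ) ≤ n := (le_max_left _ _).trans hn
  have hn1' : 1 ≤ n := by exact_mod_cast hn1
  have hn0 : (0 : ℝ) < n := by linarith
  have hnB : 2 * (B / n) ≤ ε / 2 := by
    have h1 : 4 * B / ε ≤ n := (le_max_right _ _).trans hn
    rw [div_le_iff₀ hε] at h1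
    rw [← mul_div_assoc, div_le_iff₀ hn0]
    linarith
  set τ : ℝ := min (1 / 4) (ε / 4) with hτ
  have hτ0 : 0 < τ := by rw [hτ]; positivity
  have hτ4 : τ ≤ 1 / 4 := min_le_left _ _
  have hτε : τ ≤ ε / 4 := min_le_right _ _
  have hN := nodes_explicit hn1' hτ0 hτ4
  have hP := hN.prf
  set y := ynode n τ with hy
  set w := wnode n with hw
  set W := stepW (2 * n + 1) y w with hWd
  obtain ⟨hE1, hE2⟩ := energy_explicit hn1' hτ0 hτ4
  rw [← hy, ← hw, ← hWd] at hE1 hE2
  set I : ℝ := ∫ u in (0:ℝ)..1, W u ^ 2 with hI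
  have hI0 : 1 / 2 ≤ I := by linarith
  set κ : ℝ := 1 / I with hκ
  have hκ1 : 1 ≤ κ := by rw [hκ, le_div_iff₀ (by linarith)]; linarith
  have hκ2 : κ ≤ 1 + ε := by
    rw [hκ, div_le_iff₀ (by linarith)]
    have : (1 + ε) * (1 - 2 * τ) ≤ (1 + ε) * I := by gcongr
    nlinarith
  have hκ4 : κ ≤ 2 := by
    rw [hκ, div_le_iff₀ (by linarith)]; linarith
  have hκ0 : 0 < κ := by linarith
  have hX0 : Xpos κ W 0 = 0 := by unfold Xpos; simp
  have hX1 : Xpos κ W 1 = 1 := by
    unfold Xpos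
    rw [← hI, hκ]
    have : I ≠ 0 := by linarith |> fun h : 0 < I => h.ne'
    field_simp
  have hsκ2 : Real.sqrt κ ≤ 2 := by
    rw [show (2:ℝ) = Real.sqrt 4 by
      rw [show (4:ℝ) = 2 ^ 2 by norm_num, Real.sqrt_sq (by norm_num)]]
    exact Real.sqrt_le_sqrt (by linarith)
  set Λ₀ : ℝ := max 1 ((A * n / (τ / n)) ^ 2) with hΛ₀
  have hΛ₀0 : 0 < Λ₀ := lt_of_lt_of_le one_pos (le_max_left _ _)
  have hwpos : ∀ j, j < 2 * n + 1 → 0 < w j := fun j hj => hN.inv_pos.trans_le (hN.w_ge j hj)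
  have hxlt : ∀ j, j < 2 * n + 1 → Xpos κ W (y j) < Xpos κ W (y (j + 1)) := by
    intro j hj
    have h1 := hN.Xpos_piece κ hj (hN.mono_succ hj).le le_rfl
    have h2 : 0 < κ * w j ^ 2 * (y (j + 1) - y j) := by
      have := hwpos j hj
      have := hN.mono_succ hj
      have : 0 < y (j + 1) - y j := by linarith
      positivity
    rw [← hWd] at h1
    linarith
  refine ⟨2 * n + 1, fun j => Xpos κ W (y j), y, κ, W, Gleg κ W, Λ₀, by omega, ?_, ?_, hN.y0,
    hN.ym, ?_, hκ1, hκ2, ?_, ?_, hΛ₀0, ?_⟩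
  · simp only [hN.y0, hX0]
  · simp only [hN.ym, hX1]
  · intro j hj
    exact ⟨hxlt j hj, hN.mono_succ hj⟩
  · exact fun u => ⟨hP.nonneg u, hP.le_one u⟩
  · intro u hu
    apply hN.stepW_out
    rw [Set.mem_Icc, not_and_or, not_le, not_le] at hu
    rcases hu with h | h
    · exact Or.inl h
    · exact Or.inr h.le
  · intro γ hγc hγ Λ hΛ u
    have hΛ1 : 1 ≤ Λ := (le_max_left _ _).trans hΛ
    have hΛpos : 0 < Λ := by linarith
    -- inverse
    have hinv : ∀ v ∈ Icc (0:ℝ) 1, γ (Xpos κ W v) = v := by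
      intro v hv
      obtain ⟨j, hj, h1, h2⟩ := hN.exists_piece_closed hv.1 hv.2
      have hp := hN.Xpos_piece κ hj h1 h2
      have hp2 := hN.Xpos_piece κ hj (hN.mono_succ hj).le le_rfl
      rw [← hWd] at hp hp2
      have hmono := hP.Xpos_mono (κ := κ) hκ0.le
      have := hγ j hj (Xpos κ W v) ⟨hmono h1, hmono h2⟩
      rw [this]
      simp only
      rw [hp2, hp]
      have hw0 := hwpos j hj
      have hlen : 0 < y (j + 1) - y j := by linarith [hN.mono_succ hj]
      have e1 : Xpos κ W (y j) + κ * w j ^ 2 * (y (j + 1) - y j) - Xpos κ W (y j)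
          = κ * w j ^ 2 * (y (j + 1) - y j) := by ring
      have e2 : Xpos κ W (y j) + κ * w j ^ 2 * (v - y j) - Xpos κ W (y j)
          = κ * w j ^ 2 * (v - y j) := by ring
      rw [e1, e2]
      field_simp
      ring
    rw [hP.change_var hκ0 hX1 hγc hinv Λ u]
    have hcore := hP.core (κ := κ) (Λ := Λ) (A := A) (n := n) (r := τ / n) (a := 0) (b := 1)
      hκ0 hΛpos hA0 hn1 (fun a b h => hN.modulus a b h) (fun a => hN.stepW_01 a)
      (by
        have hr0 : 0 < τ / n := hN.hr
        have h1 : A * n / (τ / n) ≤ Real.sqrt Λ := by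
          rw [← Real.sqrt_sq (show 0 ≤ A * n / (τ / n) by positivity)]
          exact Real.sqrt_le_sqrt ((le_max_right _ _).trans hΛ)
        have h2 : Real.sqrt Λ ≤ Real.sqrt (Λ * κ) :=
          Real.sqrt_le_sqrt (by nlinarith)
        have h3 := h1.trans h2
        rw [div_le_iff₀ hr0] at h3
        linarith)
      zero_le_one (fun a h => hN.stepW_out h) u
    have e1 : ((Real.sqrt Λ : ℝ) : ℂ) * (ee (Λ * Gleg κ W u) *
        ∫ u_1 in (0:ℝ)..1, ((κ * W u_1 ^ 2 : ℝ) : ℂ) * ee (-(Λ * Edef κ W u u_1)))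
        - ((Real.sqrt κ * W u : ℝ) : ℂ) * ee (Λ * Gleg κ W u - 1 / 8)
        = ee (Λ * Gleg κ W u) * (((Real.sqrt Λ : ℝ) : ℂ) *
          (∫ u_1 in (0:ℝ)..1, ((κ * W u_1 ^ 2 : ℝ) : ℂ) * ee (-(Λ * Edef κ W u u_1)))
          - ((Real.sqrt κ * W u : ℝ) : ℂ) * ee (-(1 / 8))) := by
      rw [sub_eq_add_neg (Λ * Gleg κ W u), ee_add]; ring
    rw [e1, norm_mul, norm_ee, one_mul]
    refine hcore.trans ?_
    have h5 : 0 ≤ 4 / (Real.pi * A) + B / n := by positivity
    calc Real.sqrt κ * (4 / (Real.pi * A) + 6 * A * (1 + 2 * Real.pi * A ^ 2) / n)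
        = Real.sqrt κ * (4 / (Real.pi * A) + B / n) := by rw [hB]
      _ ≤ 2 * (4 / (Real.pi * A) + B / n) := by gcongr
      _ = 2 * (4 / (Real.pi * A)) + 2 * (B / n) := by ring
      _ ≤ ε / 2 + ε / 2 := add_le_add hA hnB
      _ = ε := by ring

end Crest.Agent.R075
end

-- ▼ part R075/AnaProf
section

/-!
Row 75 (helper20), THM A: from the profile theorem (piecewise linear data) to the structure
`Profile`.
-/

set_option autoImplicit false

namespace Crest.Agent.R075.Ana

open MeasureTheory Set Real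

noncomputable section

/-- clamp to `[0,1]` -/
def clamp (r : ℝ) : ℝ := max 0 (min 1 r)

theorem clamp_nonneg (r : ℝ) : 0 ≤ clamp r := le_max_left _ _

theorem clamp_le_one (r : ℝ) : clamp r ≤ 1 := max_le zero_le_one (min_le_left _ _)

theorem clamp_of_le {r : ℝ} (h : r ≤ 0) : clamp r = 0 := by
  unfold clamp
  rw [min_eq_right (by linarith), max_eq_left h]

theorem clamp_of_ge {r : ℝ} (h : 1 ≤ r) : clamp r = 1 := by
  unfold clamp
  rw [min_eq_left h, max_eq_right zero_le_one]

theorem clamp_of_mem {r : ℝ} (h0 : 0 ≤ r) (h : r ≤ 1) : clamp r = r := by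
  unfold clamp
  rw [min_eq_right h, max_eq_right h0]

theorem clamp_lip (r s : ℝ) : |clamp r - clamp s| ≤ |r - s| := by
  unfold clamp
  calc |max 0 (min 1 r) - max 0 (min 1 s)| ≤ |min 1 r - min 1 s| := by
        have := abs_max_sub_max_le_max 0 (min 1 r) 0 (min 1 s)
        simpa using this
    _ ≤ |r - s| := by
        have := abs_min_sub_min_le_max 1 r 1 s
        simpa using this

/-- the piecewise linear function through `(x j, y j)` -/
def pl (m : ℕ) (x y : ℕ → ℝ) (z : ℝ) : ℝ :=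
  ∑ j ∈ Finset.range m, (y (j + 1) - y j) * clamp ((z - x j) / (x (j + 1) - x j))

theorem pl_mono_x {m : ℕ} {x : ℕ → ℝ} (h : ∀ j < m, x j < x (j + 1)) {i j : ℕ} (hij : i ≤ j)
    (hj : j ≤ m) : x i ≤ x j := by
  induction j, hij using Nat.le_induction with
  | base => exact le_rfl
  | succ n hn ih => exact (ih (by omega)).trans (h n (by omega)).le

theorem pl_eq {m : ℕ} {x y : ℕ → ℝ} (h : ∀ j < m, x j < x (j + 1)) {j : ℕ} (hj : j < m) {z : ℝ}
    (hz : z ∈ Icc (x j) (x (j + 1))) :
    pl m x y z = y j - y 0 + (y (j + 1) - y j) / (x (j + 1) - x j) * (z - x j) := by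
  unfold pl
  obtain ⟨z1, z2⟩ := hz
  have h1 : ∀ i ∈ Finset.range m, (y (i + 1) - y i) * clamp ((z - x i) / (x (i + 1) - x i)) =
      (if i < j then (y (i + 1) - y i) else 0) +
        (if i = j then (y (j + 1) - y j) / (x (j + 1) - x j) * (z - x j) else 0) := by
    intro i hi
    rw [Finset.mem_range] at hi
    have hxi := h i hi
    have hd : 0 < x (i + 1) - x i := by linarith
    rcases lt_trichotomy i j with hlt | heq | hgt
    · have h2 : x (i + 1) ≤ x j := pl_mono_x h (by omega) hj.le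
      rw [if_pos hlt, if_neg hlt.ne, clamp_of_ge]
      · ring
      · rw [le_div_iff₀ hd]; linarith
    · subst heq
      rw [if_neg (lt_irrefl _), if_pos rfl, clamp_of_mem]
      · field_simp
        ring
      · exact div_nonneg (by linarith) hd.le
      · rw [div_le_one hd]; linarith
    · have h2 : x (j + 1) ≤ x i := pl_mono_x h (by omega) hi.le
      rw [if_neg (by omega), if_neg (by omega), clamp_of_le]
      · ring
      · exact div_nonpos_of_nonpos_of_nonneg (by linarith) hd.le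
  rw [Finset.sum_congr rfl h1, Finset.sum_add_distrib, Finset.sum_ite_eq' (Finset.range m) j,
    if_pos (Finset.mem_range.2 hj), ← Finset.sum_filter]
  have h3 : (Finset.range m).filter (fun i => i < j) = Finset.range j := by
    ext i
    simp only [Finset.mem_filter, Finset.mem_range]
    constructor
    · exact fun h => h.2
    · exact fun h => ⟨by omega, h⟩
  rw [h3, Finset.sum_range_sub]

theorem pl_lip {m : ℕ} {x y : ℕ → ℝ} (h : ∀ j < m, x j < x (j + 1) ∧ y j < y (j + 1)) :
    ∃ C : NNReal, LipschitzWith C (pl m x y) := by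
  have hC : 0 ≤ ∑ j ∈ Finset.range m, (y (j + 1) - y j) / (x (j + 1) - x j) := by
    refine Finset.sum_nonneg fun j hj => ?_
    have := h j (Finset.mem_range.1 hj)
    exact div_nonneg (by linarith [this.2]) (by linarith [this.1])
  refine ⟨Real.toNNReal (∑ j ∈ Finset.range m, (y (j + 1) - y j) / (x (j + 1) - x j)),
    LipschitzWith.of_dist_le_mul fun u v => ?_⟩
  rw [Real.dist_eq, Real.dist_eq]
  unfold pl
  rw [← Finset.sum_sub_distrib]
  refine (Finset.abs_sum_le_sum_abs _ _).trans ?_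
  rw [Real.coe_toNNReal _ hC, Finset.sum_mul]
  refine Finset.sum_le_sum fun j hj => ?_
  have hj' := h j (Finset.mem_range.1 hj)
  have hdx : 0 < x (j + 1) - x j := by linarith [hj'.1]
  have hdy : 0 < y (j + 1) - y j := by linarith [hj'.2]
  rw [← mul_sub, abs_mul, abs_of_pos hdy]
  calc (y (j + 1) - y j) * |clamp ((u - x j) / (x (j + 1) - x j)) -
        clamp ((v - x j) / (x (j + 1) - x j))|
      ≤ (y (j + 1) - y j) * |(u - x j) / (x (j + 1) - x j) - (v - x j) / (x (j + 1) - x j)| :=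
        mul_le_mul_of_nonneg_left (clamp_lip _ _) hdy.le
    _ = (y (j + 1) - y j) / (x (j + 1) - x j) * |u - v| := by
        rw [← sub_div, abs_div, abs_of_pos hdx]
        have : u - x j - (v - x j) = u - v := by ring
        rw [this]
        ring

theorem pl_nonneg {m : ℕ} {x y : ℕ → ℝ} (h : ∀ j < m, x j < x (j + 1) ∧ y j < y (j + 1))
    (z : ℝ) : 0 ≤ pl m x y z := by
  refine Finset.sum_nonneg fun j hj => ?_
  have hj' := h j (Finset.mem_range.1 hj)
  exact mul_nonneg (by linarith [hj'.2]) (clamp_nonneg _)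

theorem pl_le {m : ℕ} {x y : ℕ → ℝ} (h : ∀ j < m, x j < x (j + 1) ∧ y j < y (j + 1))
    (z : ℝ) : pl m x y z ≤ y m - y 0 := by
  rw [← Finset.sum_range_sub]
  refine Finset.sum_le_sum fun j hj => ?_
  have hj' := h j (Finset.mem_range.1 hj)
  have := clamp_le_one ((z - x j) / (x (j + 1) - x j))
  nlinarith [hj'.2]

/-- the structure from the theorem -/
theorem profile_of {e : ℝ} (m : ℕ) (x y : ℕ → ℝ) (kap : ℝ) (W g : ℝ → ℝ) (Lam0 : ℝ)
    (hm : 1 ≤ m) (hx0 : x 0 = 0) (hxm : x m = 1) (hy0 : y 0 = 0) (hym : y m = 1)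
    (hinc : ∀ j < m, x j < x (j + 1) ∧ y j < y (j + 1)) (hk : 1 ≤ kap) (hk2 : kap ≤ 1 + e)
    (hW0 : ∀ u, 0 ≤ W u) (hW1 : ∀ u, W u ≤ 1) (hWoff : ∀ u, u ∉ Icc (0:ℝ) 1 → W u = 0)
    (has : ∀ gamma : ℝ → ℝ, ContinuousOn gamma (Icc 0 1) →
      (∀ j < m, ∀ z ∈ Icc (x j) (x (j + 1)),
      gamma z = y j + (y (j + 1) - y j) / (x (j + 1) - x j) * (z - x j)) →
      ∀ Lam : ℝ, Lam0 ≤ Lam → ∀ u : ℝ,
        ‖((Real.sqrt Lam : ℝ) : ℂ) *
          (∫ z in (0:ℝ)..1, ee (Lam * (z * u - ∫ s in (0:ℝ)..z, gamma s))) -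
        ((Real.sqrt kap * W u : ℝ) : ℂ) * ee (Lam * g u - 1 / 8)‖ ≤ e) :
    Nonempty (Profile e) := by
  have hinc1 : ∀ j < m, x j < x (j + 1) := fun j hj => (hinc j hj).1
  have hpl : ∀ j < m, ∀ z ∈ Icc (x j) (x (j + 1)),
      pl m x y z = y j + (y (j + 1) - y j) / (x (j + 1) - x j) * (z - x j) := by
    intro j hj z hz
    rw [pl_eq hinc1 hj hz, hy0, sub_zero]
  obtain ⟨C, hC⟩ := pl_lip hinc
  refine ⟨⟨kap, hk, hk2, pl m x y, C, hC, ?_, ?_, ?_, W, hW0, hW1, ?_, g, Lam0,
    fun L hL u => has _ hC.continuous.continuousOn hpl L hL u⟩⟩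
  · intro z
    refine ⟨pl_nonneg hinc z, ?_⟩
    have := pl_le hinc z
    rwa [hym, hy0, sub_zero] at this
  · have h0 := hpl 0 (by omega) 0 ⟨by rw [hx0], by rw [← hx0]; exact (hinc1 0 (by omega)).le⟩
    rw [h0, hx0, hy0]
    ring
  · have hm1 : m - 1 < m := by omega
    have hm2 : m - 1 + 1 = m := by omega
    have h1 := hpl (m - 1) hm1 1 (by
      rw [hm2]
      refine ⟨?_, hxm.ge⟩
      have := hinc1 (m - 1) hm1
      rw [hm2] at this
      linarith)
    rw [h1, hm2, hxm, hym]
    have h2 := hinc1 (m - 1) hm1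
    rw [hm2, hxm] at h2
    have h3 : (1:ℝ) - x (m - 1) ≠ 0 := by linarith
    rw [div_mul_cancel₀ _ h3]
    ring
  · intro u hu
    refine hWoff u ?_
    rw [mem_Icc]
    rintro ⟨h1, h2⟩
    rcases hu with h | h <;> linarith

/-- profiles exist -/
theorem profile_exists (e : ℝ) (he : 0 < e) : Nonempty (Profile e) := by
  obtain ⟨m, x, y, kap, W, g, Lam0, h1, h2, h3, h4, h5, h6, h7, h8, h9, h10, _, h12⟩ :=
    profile e he
  exact profile_of m x y kap W g Lam0 h1 h2 h3 h4 h5 h6 h7 h8 (fun u => (h9 u).1)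
    (fun u => (h9 u).2) h10 h12

end

end Crest.Agent.R075.Ana
end

-- ▼ part R075/Enum
section

/-!
# Row 75, THM D: enumeration of a finite exact tiling of `[0,M)` (helper332)
-/

set_option autoImplicit false

namespace Crest.Agent.R075

open Finset

theorem enum_tiles : EnumTiles := by
  classical
  intro I _ M st len hlen hle hcov hM
  -- the unique interval containing `c`
  have hidx : ∀ c : ℕ, ∃ i : I, c < M → (st i ≤ c ∧ c < st i + len i) ∧
      ∀ j, (st j ≤ c ∧ c < st j + len j) → j = i := by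
    intro c
    by_cases hc : c < M
    · obtain ⟨i, hi, hu⟩ := hcov c hc
      exact ⟨i, fun _ => ⟨hi, hu⟩⟩
    · obtain ⟨i, -, -⟩ := hcov 0 hM
      exact ⟨i, fun h => absurd h hc⟩
  choose idx hidx using hidx
  have halign : ∀ p, p < M → st (idx p) = p → p + len (idx p) < M →
      st (idx (p + len (idx p))) = p + len (idx p) := by
    intro p hp hs hp'
    obtain ⟨⟨h1, h2⟩, h3⟩ := hidx (p + len (idx p)) hp'
    obtain ⟨⟨h4, h5⟩, h6⟩ := hidx p hp
    by_contra hne
    have hlt : st (idx (p + len (idx p))) < p + len (idx p) := lt_of_le_of_ne h1 hne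
    have hl := hlen (idx p)
    have hp1 : p + len (idx p) - 1 < M := by omega
    obtain ⟨-, h7⟩ := hidx (p + len (idx p) - 1) hp1
    have e1 := h7 (idx (p + len (idx p))) ⟨by omega, by omega⟩
    have e2 := h7 (idx p) ⟨by omega, by omega⟩
    have e3 : idx (p + len (idx p)) = idx p := e1.trans e2.symm
    rw [e3] at h2
    omega
  let pos : ℕ → ℕ := fun l =>
    Nat.rec (motive := fun _ => ℕ) 0 (fun _ (p : ℕ) => if p < M then p + len (idx p) else p) l
  have hpos0 : pos 0 = 0 := rfl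
  have hposS : ∀ l, pos (l+1) = if pos l < M then pos l + len (idx (pos l)) else pos l := fun l => rfl
  have hinv : ∀ l, pos l ≤ M ∧ (pos l < M → st (idx (pos l)) = pos l) := by
    intro l
    induction l with
    | zero =>
      rw [hpos0]
      refine ⟨Nat.zero_le _, fun h => ?_⟩
      obtain ⟨⟨h1, -⟩, -⟩ := hidx 0 h
      omega
    | succ l ih =>
      rw [hposS l]
      by_cases h : pos l < M
      · rw [if_pos h]
        have h1 := ih.2 h
        have h2 := hle (idx (pos l))
        refine ⟨by omega, fun h3 => halign _ h h1 h3⟩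
      · rw [if_neg h]; exact ih
  have hmono : ∀ l, pos l < M → pos l < pos (l+1) := by
    intro l h
    rw [hposS l, if_pos h]
    have := hlen (idx (pos l))
    omega
  have hge : ∀ l, min l M ≤ pos l := by
    intro l
    induction l with
    | zero => simp
    | succ l ih =>
      by_cases h : pos l < M
      · have := hmono l h
        omega
      · have h1 : pos (l+1) = pos l := by rw [hposS l, if_neg h]
        have := (hinv l).1
        omega
  have hex : ∃ l, pos l = M := ⟨M, by have := hge M; have := (hinv M).1; omega⟩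
  set n := Nat.find hex with hn
  have hnM : pos n = M := Nat.find_spec hex
  have hlt : ∀ l < n, pos l < M := by
    intro l hl
    have h1 := Nat.find_min hex hl
    have h2 := (hinv l).1
    omega
  have hmono2 : ∀ l l', l < l' → l' ≤ n → pos l < pos l' := by
    intro l l' hll
    induction l' with
    | zero => omega
    | succ l' ih =>
      intro hl'
      have h1 := hmono l' (hlt l' (by omega))
      rcases Nat.lt_or_ge l l' with h2 | h2
      · have := ih h2 (by omega); omega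
      · have : l = l' := by omega
        subst this; exact h1
  refine ⟨n, fun l => idx (pos l), pos, hpos0, hnM, ?_, ?_⟩
  · intro l hl
    have h1 := hlt l hl
    have h2 := (hinv l).2 h1
    refine ⟨h2.symm, ?_⟩
    rw [hposS l, if_pos h1, h2]
  · intro i
    have h1 := hlen i
    have h2 := hle i
    have hsi : st i < M := by omega
    -- largest l with pos l ≤ st i
    have hex2 : ∃ l, st i < pos l := ⟨n, by omega⟩
    set k := Nat.find hex2 with hk
    have hk1 : st i < pos k := Nat.find_spec hex2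
    have hk0 : k ≠ 0 := by
      intro h0; rw [h0, hpos0] at hk1; omega
    obtain ⟨l, hl⟩ := Nat.exists_eq_succ_of_ne_zero hk0
    have hkn : k ≤ n := Nat.find_min' hex2 (by omega)
    have hl2 : pos l ≤ st i := by
      have := Nat.find_min hex2 (m := l) (by omega)
      omega
    have hln : l < n := by omega
    refine ⟨l, ⟨hln, ?_⟩, ?_⟩
    · have h3 := hlt l hln
      have h4 := (hinv l).2 h3
      have h5 : pos (l+1) = pos l + len (idx (pos l)) := by rw [hposS l, if_pos h3]
      have h6 : pos k = pos (l+1) := by rw [hl]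
      obtain ⟨-, hu⟩ := hidx (st i) hsi
      have e1 := hu i ⟨le_refl _, by omega⟩
      have e2 := hu (idx (pos l)) ⟨by omega, by omega⟩
      show idx (pos l) = i
      rw [e2, ← e1]
    · rintro l' ⟨hl', hee⟩
      have h3 := (hinv l').2 (hlt l' hl')
      have h4 := (hinv l).2 (hlt l hln)
      have h3' : st i = pos l' := by rw [← h3]; exact congrArg st hee.symm
      rcases Nat.lt_trichotomy l l' with h | h | h
      · -- pos (l+1) ≤ pos l' = st i < pos (l+1)
        have h6 : pos (l+1) ≤ pos l' := by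
          rcases Nat.lt_or_ge (l+1) l' with h7 | h7
          · exact (hmono2 _ _ h7 (by omega)).le
          · have : l + 1 = l' := by omega
            rw [this]
        have h8 : pos k = pos (l+1) := by rw [hl]
        omega
      · exact h.symm
      · have h9 := hmono2 l' l h hln.le
        -- st i = pos l' < pos l ≤ st i
        omega

end Crest.Agent.R075
end

-- ▼ part R075/TilingExists
section

/-!
# Row 75, THM D: the tiling exists (helper332)
-/

set_option autoImplicit false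

namespace Crest.Agent.R075

theorem packStmt : PackStmt := by
  intro R T hpos hnp p hp hsum L hL hdvd eps heps
  obtain ⟨l0, h⟩ := Pack.packing T hpos hnp p hp hsum L hL hdvd eps heps
  exact ⟨l0, fun l hl hlp => h l hl hlp⟩

theorem tiling_exists (ε : ℝ) (hε : 0 < ε) : Nonempty (Tiling ε) :=
  tiling_of_pack enum_tiles packStmt ε hε

end Crest.Agent.R075
end

-- ▼ part R075/RoundSpencer
section

/-!
Row 75, THM S (S1): Spencer-type partial colouring, self-contained.
-/

set_option autoImplicit false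

namespace Crest.Agent.R075.Round

open Finset

/-- sign of a Boolean -/
noncomputable def sg (b : Bool) : ℝ := if b then 1 else -1



section mgf
variable {ι : Type*} [Fintype ι] [DecidableEq ι]

lemma sum_exp_sg (v : ι → ℝ) :
    ∑ ε : ι → Bool, Real.exp (∑ j, v j * sg (ε j)) = ∏ j, (Real.exp (v j) + Real.exp (-v j)) := by
  have h := Finset.prod_univ_sum (R := ℝ) (κ := fun _ : ι => Bool)
    (fun _ => (Finset.univ : Finset Bool)) (fun j b => Real.exp (v j * sg b))
  rw [Fintype.piFinset_univ] at h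
  have h2 : (∏ j, ∑ b : Bool, Real.exp (v j * sg b)) = ∏ j, (Real.exp (v j) + Real.exp (-v j)) := by
    apply Finset.prod_congr rfl
    intro j _
    simp [sg]
  rw [← h2, h]
  apply Finset.sum_congr rfl
  intro ε _
  rw [Real.exp_sum]

lemma sum_exp_sg_le (v : ι → ℝ) :
    ∑ ε : ι → Bool, Real.exp (∑ j, v j * sg (ε j)) ≤
      2 ^ (Fintype.card ι) * Real.exp ((∑ j, v j ^ 2) / 2) := by
  rw [sum_exp_sg]
  have h : ∀ j, Real.exp (v j) + Real.exp (-v j) ≤ 2 * Real.exp (v j ^ 2 / 2) := by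
    intro j
    have := Real.cosh_le_exp_half_sq (v j)
    rw [Real.cosh_eq] at this
    linarith
  calc ∏ j, (Real.exp (v j) + Real.exp (-v j)) ≤ ∏ j, (2 * Real.exp (v j ^ 2 / 2)) := by
        apply Finset.prod_le_prod
        · intro j _; positivity
        · intro j _; exact h j
    _ = 2 ^ (Fintype.card ι) * Real.exp ((∑ j, v j ^ 2) / 2) := by
        rw [Finset.prod_mul_distrib, Finset.prod_const, Finset.card_univ, ← Real.exp_sum,
          Finset.sum_div]

end mgf

lemma abs_round_le_exp (y t : ℝ) (ht : 1 ≤ t) :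
    |((round y : ℤ) : ℝ)| ≤ Real.exp (-t) * (Real.exp (2 * t * y) + Real.exp (-(2 * t * y))) := by
  have h1 : |y - round y| ≤ 1 / 2 := abs_sub_round y
  have h2 : |((round y : ℤ) : ℝ)| ≤ |y| + 1 / 2 := by
    have : |((round y : ℤ) : ℝ)| ≤ |y| + |y - round y| := by
      have := abs_sub_abs_le_abs_sub ((round y : ℤ) : ℝ) y
      rw [abs_sub_comm] at this
      linarith
    linarith
  by_cases hy : |y| < 1 / 2
  · have h3 : |((round y : ℤ) : ℝ)| < 1 := by linarith
    have h4 : |(round y : ℤ)| < 1 := by exact_mod_cast h3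
    have h5 : (round y : ℤ) = 0 := by
      rwa [Int.abs_lt_one_iff] at h4
    rw [h5]
    simp
    positivity
  · push Not at hy
    have h3 : |((round y : ℤ) : ℝ)| ≤ 2 * |y| := by linarith
    have h4 : 2 * |y| ≤ Real.exp (2 * |y| - 1) := by
      have := Real.add_one_le_exp (2 * |y| - 1)
      linarith
    have h5 : Real.exp (2 * |y| - 1) ≤ Real.exp (t * (2 * |y| - 1)) := by
      apply Real.exp_le_exp.mpr
      nlinarith
    have h6 : Real.exp (t * (2 * |y| - 1)) = Real.exp (-t) * Real.exp (2 * t * |y|) := by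
      rw [← Real.exp_add]; congr 1; ring
    have h7 : Real.exp (2 * t * |y|) ≤ Real.exp (2 * t * y) + Real.exp (-(2 * t * y)) := by
      rcases abs_cases y with ⟨h, _⟩ | ⟨h, _⟩
      · rw [h]
        have := Real.exp_pos (-(2 * t * y))
        linarith
      · rw [h]
        have := Real.exp_pos (2 * t * y)
        have e : 2 * t * -y = -(2 * t * y) := by ring
        rw [e]
        linarith
    calc |((round y : ℤ) : ℝ)| ≤ Real.exp (-t) * Real.exp (2 * t * |y|) := by
          linarith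
      _ ≤ _ := by
          apply mul_le_mul_of_nonneg_left h7 (Real.exp_pos _).le

section first
variable {ι : Type*} [Fintype ι] [DecidableEq ι]

/-- E|round(<v,ε>/(2 λ √n))| ≤ 2 exp(-λ²/2). -/
lemma sum_abs_round_le (v : ι → ℝ) (hv : ∀ j, |v j| ≤ 1) (lam s : ℝ) (hlam : 1 ≤ lam)
    (hs : 0 < s) (hsn : (Fintype.card ι : ℝ) ≤ s ^ 2) :
    ∑ ε : ι → Bool, |((round ((∑ j, v j * sg (ε j)) / (2 * lam * s)) : ℤ) : ℝ)| ≤
      2 ^ (Fintype.card ι) * (2 * Real.exp (-(lam ^ 2 / 2))) := by
  set t := lam ^ 2 with ht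
  have ht1 : 1 ≤ t := by rw [ht]; nlinarith
  have hlam0 : 0 < lam := by linarith
  set w : ι → ℝ := fun j => 2 * t * v j / (2 * lam * s) with hw
  have key : ∀ ε : ι → Bool, |((round ((∑ j, v j * sg (ε j)) / (2 * lam * s)) : ℤ) : ℝ)| ≤
      Real.exp (-t) * (Real.exp (∑ j, w j * sg (ε j)) + Real.exp (∑ j, (-w j) * sg (ε j))) := by
    intro ε
    have h := abs_round_le_exp ((∑ j, v j * sg (ε j)) / (2 * lam * s)) t ht1
    have e1 : 2 * t * ((∑ j, v j * sg (ε j)) / (2 * lam * s)) = ∑ j, w j * sg (ε j) := by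
      rw [Finset.sum_div, Finset.mul_sum]
      apply Finset.sum_congr rfl
      intro j _
      simp only [hw]; ring
    have e2 : -(∑ j, w j * sg (ε j)) = ∑ j, (-w j) * sg (ε j) := by
      rw [← Finset.sum_neg_distrib]
      apply Finset.sum_congr rfl
      intro j _; ring
    rw [e1, e2] at h
    exact h
  have hw2 : (∑ j, w j ^ 2) / 2 ≤ t / 2 := by
    have : ∀ j, w j ^ 2 ≤ t / s ^ 2 := by
      intro j
      have hv2 : v j ^ 2 ≤ 1 := by
        have := hv j
        rw [← sq_abs]; nlinarith [abs_nonneg (v j)]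
      have e : w j ^ 2 = (t / s ^ 2) * v j ^ 2 := by
        simp only [hw, ht]; field_simp
      rw [e]
      have : 0 ≤ t / s ^ 2 := by positivity
      nlinarith
    have h2 : ∑ j, w j ^ 2 ≤ (Fintype.card ι : ℝ) * (t / s ^ 2) := by
      calc ∑ j, w j ^ 2 ≤ ∑ _j : ι, t / s ^ 2 := Finset.sum_le_sum (fun j _ => this j)
        _ = (Fintype.card ι : ℝ) * (t / s ^ 2) := by simp
    have h3 : (Fintype.card ι : ℝ) * (t / s ^ 2) ≤ s ^ 2 * (t / s ^ 2) := by
      apply mul_le_mul_of_nonneg_right hsn (by positivity)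
    have h4 : s ^ 2 * (t / s ^ 2) = t := by field_simp
    linarith
  have hE : ∀ u : ι → ℝ, (∑ j, u j ^ 2) / 2 ≤ t / 2 →
      ∑ ε : ι → Bool, Real.exp (∑ j, u j * sg (ε j)) ≤ 2 ^ (Fintype.card ι) * Real.exp (t / 2) := by
    intro u hu
    refine (sum_exp_sg_le u).trans ?_
    apply mul_le_mul_of_nonneg_left (Real.exp_le_exp.mpr hu) (by positivity)
  have h1 := hE w hw2
  have h2 := hE (fun j => -w j) (by simpa using hw2)
  calc ∑ ε : ι → Bool, |((round ((∑ j, v j * sg (ε j)) / (2 * lam * s)) : ℤ) : ℝ)|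
      ≤ ∑ ε : ι → Bool, Real.exp (-t) *
          (Real.exp (∑ j, w j * sg (ε j)) + Real.exp (∑ j, (-w j) * sg (ε j))) :=
        Finset.sum_le_sum (fun ε _ => key ε)
    _ = Real.exp (-t) * (∑ ε : ι → Bool, Real.exp (∑ j, w j * sg (ε j)) +
          ∑ ε : ι → Bool, Real.exp (∑ j, (-w j) * sg (ε j))) := by
        rw [← Finset.mul_sum, Finset.sum_add_distrib]
    _ ≤ Real.exp (-t) * (2 ^ (Fintype.card ι) * Real.exp (t / 2) +
          2 ^ (Fintype.card ι) * Real.exp (t / 2)) := by
        apply mul_le_mul_of_nonneg_left (add_le_add h1 h2) (Real.exp_pos _).le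
    _ = 2 ^ (Fintype.card ι) * (2 * Real.exp (-(t / 2))) := by
        have : Real.exp (-(t/2)) = Real.exp (-t) * Real.exp (t / 2) := by
          rw [← Real.exp_add]; congr 1; ring
        rw [this]; ring

end first

/-- `∑_{|k| ≤ B} x^{|k|} ≤ 1 + 4x ≤ exp (4x)` for `0 ≤ x ≤ 1/2`. -/
lemma sum_Icc_pow_le (x : ℝ) (hx0 : 0 ≤ x) (hx : x ≤ 1 / 2) (B : ℕ) :
    ∑ k ∈ Finset.Icc (-(B : ℤ)) B, x ^ k.natAbs ≤ Real.exp (4 * x) := by
  have h : ∀ B : ℕ, ∑ k ∈ Finset.Icc (-(B : ℤ)) B, x ^ k.natAbs ≤ 1 + 4 * x - 4 * x ^ (B + 1) := by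
    intro B
    induction B with
    | zero => simp
    | succ B ih =>
      have e : Finset.Icc (-((B + 1 : ℕ) : ℤ)) ((B + 1 : ℕ) : ℤ) =
          insert ((B + 1 : ℕ) : ℤ) (insert (-((B + 1 : ℕ) : ℤ)) (Finset.Icc (-(B : ℤ)) B)) := by
        ext k
        simp only [Finset.mem_Icc, Finset.mem_insert]
        push_cast
        omega
      rw [e, Finset.sum_insert, Finset.sum_insert]
      · have e1 : ((B + 1 : ℕ) : ℤ).natAbs = B + 1 := Int.natAbs_natCast _
        have e2 : (-((B + 1 : ℕ) : ℤ)).natAbs = B + 1 := by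
          rw [Int.natAbs_neg]; exact Int.natAbs_natCast _
        rw [e1, e2]
        have h3 : x ^ (B + 1 + 1) = x * x ^ (B + 1) := by rw [pow_succ]; ring
        have h4 : 0 ≤ x ^ (B + 1) := by positivity
        rw [h3]
        nlinarith
      · simp only [Finset.mem_Icc]
        push_cast
        omega
      · simp only [Finset.mem_Icc, Finset.mem_insert]
        push_cast
        omega
  have h1 := h B
  have h2 : 0 ≤ x ^ (B + 1) := by positivity
  have h3 := Real.add_one_le_exp (4 * x)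
  linarith

section ball
variable {ι : Type*} [Fintype ι] [DecidableEq ι]

/-- number of sign vectors at Hamming distance `≤ n/8` from a given one. -/
lemma card_ball_le (ε₀ : ι → Bool) :
    ((Finset.univ.filter (fun ε : ι → Bool =>
      (8 : ℝ) * ((Finset.univ.filter (fun j => ε j ≠ ε₀ j)).card : ℝ) ≤ Fintype.card ι)).card : ℝ) ≤
      Real.exp ((Fintype.card ι : ℝ) * (1 / 8 + 3 / 8 * Real.log 2)) := by
  set n := Fintype.card ι with hn
  -- weight: product over j of (if ε j ≠ ε₀ j then 1/8 else 1)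
  have hprod : ∑ ε : ι → Bool, ∏ j, (if ε j ≠ ε₀ j then (1 / 8 : ℝ) else 1) = (9 / 8 : ℝ) ^ n := by
    have h := Finset.prod_univ_sum (R := ℝ) (κ := fun _ : ι => Bool)
      (fun _ => (Finset.univ : Finset Bool)) (fun j b => if b ≠ ε₀ j then (1 / 8 : ℝ) else 1)
    rw [Fintype.piFinset_univ] at h
    rw [← h]
    have : ∀ j : ι, ∑ b : Bool, (if b ≠ ε₀ j then (1 / 8 : ℝ) else 1) = 9 / 8 := by
      intro j
      rw [Fintype.sum_bool]
      cases ε₀ j <;> norm_num
    rw [Finset.prod_congr rfl (fun j _ => this j), Finset.prod_const, Finset.card_univ]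
  have hw : ∀ ε : ι → Bool, ∏ j, (if ε j ≠ ε₀ j then (1 / 8 : ℝ) else 1) =
      Real.exp (-(3 * Real.log 2) * ((Finset.univ.filter (fun j => ε j ≠ ε₀ j)).card : ℝ)) := by
    intro ε
    rw [Finset.prod_ite]
    simp only [Finset.prod_const, one_pow, mul_one]
    have : (1 / 8 : ℝ) = Real.exp (-(3 * Real.log 2)) := by
      rw [Real.exp_neg, mul_comm, Real.exp_mul, Real.exp_log (by norm_num)]
      norm_num
    rw [this, ← Real.exp_nat_mul]
    congr 1; ring
  have hlow : ∀ ε ∈ (Finset.univ.filter (fun ε : ι → Bool =>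
      (8 : ℝ) * ((Finset.univ.filter (fun j => ε j ≠ ε₀ j)).card : ℝ) ≤ n)),
      Real.exp (-(3 / 8 * Real.log 2) * n) ≤ ∏ j, (if ε j ≠ ε₀ j then (1 / 8 : ℝ) else 1) := by
    intro ε hε
    rw [hw]
    apply Real.exp_le_exp.mpr
    have := (Finset.mem_filter.mp hε).2
    have hl : 0 < Real.log 2 := Real.log_pos (by norm_num)
    nlinarith
  have hsum : ((Finset.univ.filter (fun ε : ι → Bool =>
      (8 : ℝ) * ((Finset.univ.filter (fun j => ε j ≠ ε₀ j)).card : ℝ) ≤ n)).card : ℝ) *
      Real.exp (-(3 / 8 * Real.log 2) * n) ≤ (9 / 8 : ℝ) ^ n := by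
    rw [← hprod, ← nsmul_eq_mul]
    refine (Finset.card_nsmul_le_sum _ _ _ hlow).trans ?_
    apply Finset.sum_le_sum_of_subset_of_nonneg (Finset.filter_subset _ _)
    intro ε _ _
    apply Finset.prod_nonneg
    intro j _
    split_ifs <;> norm_num
  have h98 : (9 / 8 : ℝ) ^ n ≤ Real.exp (n * (1 / 8)) := by
    rw [Real.exp_nat_mul]
    apply pow_le_pow_left₀ (by norm_num)
    have := Real.add_one_le_exp (1 / 8 : ℝ)
    linarith
  have hexp : Real.exp ((n : ℝ) * (1 / 8 + 3 / 8 * Real.log 2)) * Real.exp (-(3 / 8 * Real.log 2) * n)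
      = Real.exp (n * (1 / 8)) := by
    rw [← Real.exp_add]; congr 1; ring
  have hp := Real.exp_pos (-(3 / 8 * Real.log 2) * n)
  have := hsum.trans h98
  rw [← hexp] at this
  exact le_of_mul_le_mul_right this hp

end ball

section partial_col
variable {ι κ : Type*} [Fintype ι] [DecidableEq ι] [Fintype κ] [DecidableEq κ]

/-- Entropy/pigeonhole step. -/
lemma exists_far_pair (r : (ι → Bool) → κ → ℤ) (K a : ℝ) (hK : Real.log 2 ≤ K)
    (hsum : ∑ ε : ι → Bool, ∑ i, |((r ε i : ℤ) : ℝ)| ≤ 2 ^ (Fintype.card ι) * a)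
    (hlt : K * a + 4 * (Fintype.card κ) * Real.exp (-K) <
      (Fintype.card ι : ℝ) * (5 / 8 * Real.log 2 - 1 / 8)) :
    ∃ ε ε' : ι → Bool, r ε = r ε' ∧
      (Fintype.card ι : ℝ) < 8 * ((Finset.univ.filter (fun j => ε j ≠ ε' j)).card : ℝ) := by
  classical
  by_contra hcon
  push Not at hcon
  set n := Fintype.card ι with hn
  set m := Fintype.card κ with hm
  set V : ℝ := Real.exp ((n : ℝ) * (1 / 8 + 3 / 8 * Real.log 2)) with hV
  set S : (ι → Bool) → ℝ := fun ε => ∑ i, |((r ε i : ℤ) : ℝ)| with hS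
  have hl2 : 0 < Real.log 2 := Real.log_pos (by norm_num)
  have hK0 : 0 < K := by linarith
  -- lower bound by Jensen
  have hlow : 2 ^ n * Real.exp (-(K * a)) ≤ ∑ ε : ι → Bool, Real.exp (-(K * S ε)) := by
    have h1 : ∀ ε : ι → Bool, Real.exp (-(K * a)) * (1 - K * (S ε - a)) ≤ Real.exp (-(K * S ε)) := by
      intro ε
      have h2 := Real.add_one_le_exp (-(K * (S ε - a)))
      have h3 : Real.exp (-(K * S ε)) = Real.exp (-(K * a)) * Real.exp (-(K * (S ε - a))) := by
        rw [← Real.exp_add]; congr 1; ring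
      rw [h3]
      apply mul_le_mul_of_nonneg_left _ (Real.exp_pos _).le
      linarith
    have h2 : ∑ ε : ι → Bool, Real.exp (-(K * a)) * (1 - K * (S ε - a)) =
        Real.exp (-(K * a)) * (2 ^ n - K * (∑ ε : ι → Bool, S ε - 2 ^ n * a)) := by
      rw [← Finset.mul_sum, Finset.sum_sub_distrib, ← Finset.mul_sum, Finset.sum_sub_distrib]
      simp [hn]
    calc 2 ^ n * Real.exp (-(K * a)) = Real.exp (-(K * a)) * 2 ^ n := by ring
      _ ≤ Real.exp (-(K * a)) * (2 ^ n - K * (∑ ε : ι → Bool, S ε - 2 ^ n * a)) := by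
          apply mul_le_mul_of_nonneg_left _ (Real.exp_pos _).le
          have : ∑ ε : ι → Bool, S ε - 2 ^ n * a ≤ 0 := by linarith
          nlinarith
      _ = ∑ ε : ι → Bool, Real.exp (-(K * a)) * (1 - K * (S ε - a)) := h2.symm
      _ ≤ _ := Finset.sum_le_sum (fun ε _ => h1 ε)
  -- a bound on the |r|
  obtain ⟨B, hB⟩ : ∃ B : ℕ, ∀ ε i, (r ε i).natAbs ≤ B := by
    refine ⟨∑ ε : ι → Bool, ∑ i, (r ε i).natAbs, fun ε i => ?_⟩
    calc (r ε i).natAbs ≤ ∑ i, (r ε i).natAbs :=
          Finset.single_le_sum (f := fun i => (r ε i).natAbs) (fun _ _ => Nat.zero_le _)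
            (Finset.mem_univ i)
      _ ≤ _ := Finset.single_le_sum (f := fun ε => ∑ i, (r ε i).natAbs)
            (fun _ _ => Nat.zero_le _) (Finset.mem_univ ε)
  -- upper bound
  set x := Real.exp (-K) with hx
  have hx0 : 0 ≤ x := (Real.exp_pos _).le
  have hx2 : x ≤ 1 / 2 := by
    rw [hx]
    have : Real.exp (-K) ≤ Real.exp (-Real.log 2) := Real.exp_le_exp.mpr (by linarith)
    rw [Real.exp_neg (Real.log 2), Real.exp_log (by norm_num)] at this
    linarith
  set W : (κ → ℤ) → ℝ := fun ρ => ∏ i, x ^ (ρ i).natAbs with hW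
  have hSW : ∀ ε, Real.exp (-(K * S ε)) = W (r ε) := by
    intro ε
    simp only [hW, hx, hS]
    rw [Finset.mul_sum, ← Finset.sum_neg_distrib, Real.exp_sum]
    apply Finset.prod_congr rfl
    intro i _
    rw [← Real.exp_nat_mul]
    congr 1
    have : |((r ε i : ℤ) : ℝ)| = ((r ε i).natAbs : ℝ) := by
      rw [Nat.cast_natAbs]; simp
    rw [this]; ring
  set P : Finset (κ → ℤ) := Fintype.piFinset (fun _ : κ => Finset.Icc (-(B : ℤ)) B) with hP
  have hmem : ∀ ε, r ε ∈ P := by
    intro ε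
    rw [hP, Fintype.mem_piFinset]
    intro i
    have := hB ε i
    rw [Finset.mem_Icc]
    omega
  have hclass : ∀ ρ ∈ P, ((Finset.univ.filter (fun ε => r ε = ρ)).card : ℝ) ≤ V := by
    intro ρ _
    by_cases hne : (Finset.univ.filter (fun ε => r ε = ρ)).Nonempty
    · obtain ⟨ε₀, hε₀⟩ := hne
      refine le_trans ?_ (card_ball_le ε₀)
      norm_cast
      apply Finset.card_le_card
      intro ε hε
      rw [Finset.mem_filter] at hε hε₀ ⊢
      refine ⟨Finset.mem_univ _, ?_⟩
      have h := hcon ε ε₀ (hε.2.trans hε₀.2.symm)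
      exact_mod_cast h
    · rw [Finset.not_nonempty_iff_eq_empty] at hne
      rw [hne]
      simp
      exact (Real.exp_pos _).le
  have hup : ∑ ε : ι → Bool, Real.exp (-(K * S ε)) ≤ V * Real.exp (4 * m * x) := by
    calc ∑ ε : ι → Bool, Real.exp (-(K * S ε)) = ∑ ε : ι → Bool, W (r ε) :=
          Finset.sum_congr rfl (fun ε _ => hSW ε)
      _ = ∑ ρ ∈ P, ∑ ε ∈ Finset.univ.filter (fun ε => r ε = ρ), W (r ε) := by
          rw [Finset.sum_fiberwise_of_maps_to (fun ε _ => hmem ε)]
      _ = ∑ ρ ∈ P, ((Finset.univ.filter (fun ε => r ε = ρ)).card : ℝ) * W ρ := by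
          apply Finset.sum_congr rfl
          intro ρ _
          rw [← nsmul_eq_mul, ← Finset.sum_const]
          apply Finset.sum_congr rfl
          intro ε hε
          rw [(Finset.mem_filter.mp hε).2]
      _ ≤ ∑ ρ ∈ P, V * W ρ := by
          apply Finset.sum_le_sum
          intro ρ hρ
          apply mul_le_mul_of_nonneg_right (hclass ρ hρ)
          apply Finset.prod_nonneg
          intro i _; positivity
      _ = V * ∏ _i : κ, ∑ k ∈ Finset.Icc (-(B : ℤ)) B, x ^ k.natAbs := by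
          rw [← Finset.mul_sum]
          congr 1
          rw [hP]
          rw [Finset.sum_prod_piFinset (Finset.Icc (-(B : ℤ)) B) (fun (_ : κ) k => x ^ k.natAbs)]
      _ ≤ V * ∏ _i : κ, Real.exp (4 * x) := by
          apply mul_le_mul_of_nonneg_left _ (Real.exp_pos _).le
          apply Finset.prod_le_prod
          · intro i _
            apply Finset.sum_nonneg
            intro k _; positivity
          · intro i _
            exact sum_Icc_pow_le x hx0 hx2 B
      _ = V * Real.exp (4 * m * x) := by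
          rw [Finset.prod_const, Finset.card_univ, ← Real.exp_nat_mul, ← hm]
          congr 2; ring
  have hfin := hlow.trans hup
  rw [hV] at hfin
  have h2n : (2 : ℝ) ^ n = Real.exp (n * Real.log 2) := by
    rw [Real.exp_nat_mul, Real.exp_log (by norm_num)]
  rw [h2n, ← Real.exp_add, ← Real.exp_add] at hfin
  have := Real.exp_le_exp.mp hfin
  nlinarith

/-- (S1) partial colouring. -/
theorem partial_colouring (v : κ → ι → ℝ) (hv : ∀ i j, |v i j| ≤ 1) (M : ℝ)
    (hκ : (Fintype.card κ : ℝ) ≤ M) (hι : (Fintype.card ι : ℝ) ≤ M) (hpos : 0 < Fintype.card ι) :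
    ∃ x : ι → ℝ, (∀ j, x j = 0 ∨ x j = 1 ∨ x j = -1) ∧
      (Fintype.card ι : ℝ) < 8 * ((Finset.univ.filter (fun j => x j ≠ 0)).card : ℝ) ∧
      ∀ i, |∑ j, v i j * x j| ≤
        4 * Real.sqrt (Real.log (2 * M / Fintype.card ι)) * Real.sqrt (Fintype.card ι) := by
  set n := Fintype.card ι with hn
  have hn0 : (0 : ℝ) < n := by exact_mod_cast hpos
  have hM0 : 0 < M := lt_of_lt_of_le hn0 hι
  set y := 2 * M / n with hy
  have hy2 : 2 ≤ y := by
    rw [hy, le_div_iff₀ hn0]; linarith
  set L := Real.log y with hL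
  have hl2 : Real.log 2 ≤ L := Real.log_le_log (by norm_num) hy2
  have hl2' : 0.6931471803 < Real.log 2 := Real.log_two_gt_d9
  have hL0 : 0 < L := by linarith
  have hyL : Real.exp L = y := Real.exp_log (by linarith)
  set lam := 4 * Real.sqrt L with hlam
  have hlam2 : lam ^ 2 = 16 * L := by
    rw [hlam, mul_pow, Real.sq_sqrt hL0.le]; norm_num
  have hlam0 : 0 ≤ lam := by positivity
  have hlam1 : 1 ≤ lam := by nlinarith
  set s := Real.sqrt n with hs
  have hs0 : 0 < s := Real.sqrt_pos.mpr hn0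
  have hs2 : s ^ 2 = n := Real.sq_sqrt hn0.le
  set r : (ι → Bool) → κ → ℤ := fun ε i => round ((∑ j, v i j * sg (ε j)) / (2 * lam * s)) with hr
  have hsum : ∑ ε : ι → Bool, ∑ i, |((r ε i : ℤ) : ℝ)| ≤
      2 ^ n * (M * (2 * Real.exp (-(lam ^ 2 / 2)))) := by
    rw [Finset.sum_comm]
    calc ∑ i, ∑ ε : ι → Bool, |((r ε i : ℤ) : ℝ)|
        ≤ ∑ _i : κ, 2 ^ n * (2 * Real.exp (-(lam ^ 2 / 2))) := by
          apply Finset.sum_le_sum
          intro i _
          exact sum_abs_round_le (v i) (hv i) lam s hlam1 hs0 (by rw [hs2])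
      _ = (Fintype.card κ : ℝ) * (2 ^ n * (2 * Real.exp (-(lam ^ 2 / 2)))) := by simp
      _ ≤ M * (2 ^ n * (2 * Real.exp (-(lam ^ 2 / 2)))) := by
          apply mul_le_mul_of_nonneg_right hκ (by positivity)
      _ = _ := by ring
  have hlt : (L + 3) * (M * (2 * Real.exp (-(lam ^ 2 / 2)))) +
      4 * (Fintype.card κ) * Real.exp (-(L + 3)) < (n : ℝ) * (5 / 8 * Real.log 2 - 1 / 8) := by
    have hMn : 2 * M = y * n := by rw [hy]; field_simp
    have e1 : Real.exp (-(lam ^ 2 / 2)) = (y ^ 8)⁻¹ := by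
      rw [hlam2, ← hyL, ← Real.exp_nat_mul, ← Real.exp_neg]
      congr 1; push_cast; ring
    have e2 : Real.exp (-(L + 3)) = y⁻¹ * Real.exp (-3) := by
      rw [← hyL, ← Real.exp_neg, ← Real.exp_add]; congr 1; ring
    have h3 : Real.exp (-3) ≤ 1 / 20 := by
      have : (20 : ℝ) ≤ Real.exp 3 := by
        have h27 := Real.exp_one_gt_d9
        have e : Real.exp 3 = (Real.exp 1) ^ 3 := by
          rw [← Real.exp_nat_mul]; norm_num
        rw [e]
        have : (2.7182818283 : ℝ) ^ 3 ≤ (Real.exp 1) ^ 3 :=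
          pow_le_pow_left₀ (by norm_num) h27.le 3
        norm_num at this ⊢
        linarith
      rw [Real.exp_neg]
      rw [inv_le_comm₀ (Real.exp_pos 3) (by norm_num)]
      norm_num
      exact this
    have hLy : L + 1 ≤ y := by rw [← hyL]; exact Real.add_one_le_exp L
    have hy0 : 0 < y := by linarith
    have t2 : 4 * (Fintype.card κ) * Real.exp (-(L + 3)) ≤ n * (1 / 10) := by
      rw [e2]
      calc 4 * (Fintype.card κ : ℝ) * (y⁻¹ * Real.exp (-3)) ≤ 4 * M * (y⁻¹ * (1 / 20)) := by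
            gcongr
        _ = n * (1 / 10) := by
            have : 4 * M = 2 * (y * n) := by linarith
            rw [this]; field_simp; norm_num
    have t1 : (L + 3) * (M * (2 * Real.exp (-(lam ^ 2 / 2)))) ≤ n * (1 / 20) := by
      rw [e1]
      have e3 : (L + 3) * (M * (2 * (y ^ 8)⁻¹)) = n * ((L + 3) * (y ^ 7)⁻¹) := by
        have : M * (2 * (y ^ 8)⁻¹) = (2 * M) * (y ^ 8)⁻¹ := by ring
        rw [this, hMn]; field_simp
      rw [e3]
      apply mul_le_mul_of_nonneg_left _ hn0.le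
      rw [← div_eq_mul_inv, div_le_iff₀ (by positivity)]
      have h64 : (64 : ℝ) ≤ y ^ 6 := by
        have : (2 : ℝ) ^ 6 ≤ y ^ 6 := pow_le_pow_left₀ (by norm_num) hy2 6
        norm_num at this; exact this
      have : y ^ 7 = y ^ 6 * y := by ring
      rw [this]
      nlinarith
    nlinarith
  obtain ⟨ε, ε', hrr, hfar⟩ := exists_far_pair r (L + 3) _ (by linarith) hsum hlt
  refine ⟨fun j => (sg (ε j) - sg (ε' j)) / 2, ?_, ?_, ?_⟩
  · intro j
    rcases Bool.eq_false_or_eq_true (ε j) with h | h <;>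
    rcases Bool.eq_false_or_eq_true (ε' j) with h' | h' <;>
    simp [sg, h, h'] <;> norm_num
  · have : (Finset.univ.filter (fun j => (sg (ε j) - sg (ε' j)) / 2 ≠ 0)) =
        (Finset.univ.filter (fun j => ε j ≠ ε' j)) := by
      ext j
      simp only [Finset.mem_filter, Finset.mem_univ, true_and]
      rcases Bool.eq_false_or_eq_true (ε j) with h | h <;>
      rcases Bool.eq_false_or_eq_true (ε' j) with h' | h' <;>
      simp [sg, h, h'] <;> norm_num
    rw [this]
    exact hfar
  · intro i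
    have h1 := congrFun hrr i
    simp only [hr] at h1
    set p := (∑ j, v i j * sg (ε j)) / (2 * lam * s) with hp
    set p' := (∑ j, v i j * sg (ε' j)) / (2 * lam * s) with hp'
    have h2 : |p - p'| ≤ 1 := by
      have a1 := abs_sub_round p
      have a2 := abs_sub_round p'
      rw [← h1] at a2
      have : |p - p'| ≤ |p - round p| + |p' - round p| := by
        have := abs_sub_le p (round p : ℝ) p'
        rw [abs_sub_comm ((round p : ℤ) : ℝ) p'] at this
        exact this
      linarith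
    have hls : 0 < lam * s := by positivity
    have h3 : ∑ j, v i j * ((sg (ε j) - sg (ε' j)) / 2) = (p - p') * (lam * s) := by
      have e1 : ∑ j, v i j * sg (ε j) = p * (2 * lam * s) := by rw [hp]; field_simp
      have e2 : ∑ j, v i j * sg (ε' j) = p' * (2 * lam * s) := by rw [hp']; field_simp
      have e3 : ∑ j, v i j * ((sg (ε j) - sg (ε' j)) / 2) =
          (∑ j, v i j * sg (ε j) - ∑ j, v i j * sg (ε' j)) / 2 := by
        rw [← Finset.sum_sub_distrib, Finset.sum_div]
        apply Finset.sum_congr rfl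
        intro j _; ring
      rw [e3, e1, e2]; ring
    rw [h3, abs_mul, abs_of_pos hls]
    calc |p - p'| * (lam * s) ≤ 1 * (lam * s) := by
          apply mul_le_mul_of_nonneg_right h2 hls.le
      _ = lam * s := one_mul _

end partial_col

section full

/-- auxiliary: `√s · log (c/s) ≤ log c + 1` form, for `0 < a ≤ N`, `1 ≤ c`. -/
lemma log_aux (c s : ℝ) (hc : 1 ≤ c) (hs0 : 0 < s) (hs1 : s ≤ 1) :
    Real.sqrt s * Real.log (c / s) ≤ Real.log c + 1 := by
  have hq0 : 0 < Real.sqrt s := Real.sqrt_pos.mpr hs0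
  have hq1 : Real.sqrt s ≤ 1 := Real.sqrt_le_one.mpr hs1
  have hq2 : Real.sqrt s ^ 2 = s := Real.sq_sqrt hs0.le
  have hlc : 0 ≤ Real.log c := Real.log_nonneg hc
  rw [Real.log_div (by linarith) hs0.ne']
  set q := Real.sqrt s with hq
  have hls : Real.log s = 2 * Real.log q := by
    rw [← hq2, Real.log_pow]; norm_num
  have hlq : q * (-(2 * Real.log q)) ≤ 1 := by
    -- with u = 1/q : log u ≤ u/e ; 2 q log u ≤ 2/e <1
    have hu : Real.log (1 / (Real.exp 1 * q)) ≤ 1 / (Real.exp 1 * q) - 1 :=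
      Real.log_le_sub_one_of_pos (by positivity)
    rw [one_div, Real.log_inv, Real.log_mul (Real.exp_pos 1).ne' hq0.ne', Real.log_exp] at hu
    have h3 : -Real.log q ≤ (Real.exp 1 * q)⁻¹ := by linarith
    have h4 : q * (-(2 * Real.log q)) ≤ 2 * (q * (Real.exp 1 * q)⁻¹) := by nlinarith
    have h5 : q * (Real.exp 1 * q)⁻¹ = (Real.exp 1)⁻¹ := by field_simp
    rw [h5] at h4
    have h6 : (2 : ℝ) ≤ Real.exp 1 := by
      have := Real.add_one_le_exp (1 : ℝ); linarith
    have h7 : (Real.exp 1)⁻¹ ≤ 2⁻¹ := by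
      apply inv_anti₀ (by norm_num) h6
    linarith
  rw [hls]
  have : q * (Real.log c - 2 * Real.log q) = q * Real.log c + q * (-(2 * Real.log q)) := by ring
  rw [this]
  nlinarith

end full

end Crest.Agent.R075.Round
end

-- ▼ part R075/RoundFull
section

/-!
Row 75, THM S (S2, S3): full colouring and rounding of `u ∈ [0,1]^N` with small `∑ min (u, 1-u)`.
-/

set_option autoImplicit false

namespace Crest.Agent.R075.Round

open Finset

lemma sqrt_sqrt_le {X Y : ℝ} (hY : 0 ≤ Y) (h : X ≤ Y ^ 4) : Real.sqrt (Real.sqrt X) ≤ Y := by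
  apply Real.sqrt_le_iff.mpr
  refine ⟨hY, ?_⟩
  apply Real.sqrt_le_iff.mpr
  refine ⟨by positivity, ?_⟩
  calc X ≤ Y ^ 4 := h
    _ = (Y ^ 2) ^ 2 := by ring

/-- the theta constant `(7/8)^{1/4} ≤ 0.97`. -/
lemma theta_pow : (7 / 8 : ℝ) ≤ (97 / 100 : ℝ) ^ 4 := by norm_num

/-- (S2) full colouring. -/
theorem full_colouring (c : ℝ) (hc : 1 ≤ c) : ∃ K : ℝ, 0 < K ∧
    ∀ (N : ℕ) (ι κ : Type) [Fintype ι] [DecidableEq ι] [Fintype κ] [DecidableEq κ]
      (v : κ → ι → ℝ), (∀ i j, |v i j| ≤ 1) → 0 < N → Fintype.card ι ≤ N →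
      (Fintype.card κ : ℝ) ≤ c * N → ∀ A : Finset ι,
      ∃ x : ι → ℝ, (∀ j ∈ A, x j = 1 ∨ x j = -1) ∧ (∀ j, j ∉ A → x j = 0) ∧
        ∀ i, |∑ j, v i j * x j| ≤ K * Real.sqrt (Real.sqrt (N * (A.card : ℝ))) := by
  set K1 : ℝ := 4 * Real.sqrt (Real.log (2 * c) + 1) with hK1
  have hlc : 0 ≤ Real.log (2 * c) := Real.log_nonneg (by linarith)
  have hK10 : 0 < K1 := by positivity
  refine ⟨K1 * 100, by positivity, ?_⟩
  intro N ι κ _ _ _ _ v hv hN hι hκ
  have hN0 : (0 : ℝ) < N := by exact_mod_cast hN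
  -- strong induction on card
  have main : ∀ n : ℕ, ∀ A : Finset ι, A.card = n →
      ∃ x : ι → ℝ, (∀ j ∈ A, x j = 1 ∨ x j = -1) ∧ (∀ j, j ∉ A → x j = 0) ∧
        ∀ i, |∑ j, v i j * x j| ≤ K1 * 100 * Real.sqrt (Real.sqrt (N * (A.card : ℝ))) := by
    intro n
    induction n using Nat.strong_induction_on with
    | _ n ih =>
      intro A hA
      rcases Nat.eq_zero_or_pos n with h0 | hpos
      · refine ⟨fun _ => 0, ?_, ?_, ?_⟩
        · intro j hj
          rw [h0, Finset.card_eq_zero] at hA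
          rw [hA] at hj
          exact absurd hj (Finset.notMem_empty j)
        · intro j _; rfl
        · intro i
          simp only [mul_zero, Finset.sum_const_zero, abs_zero]
          positivity
      · -- partial colouring on the subtype
        have hcardA : Fintype.card {j // j ∈ A} = n := by
          rw [Fintype.card_coe]; exact hA
        have hn0 : (0 : ℝ) < n := by exact_mod_cast hpos
        have hAN : n ≤ N := by
          rw [← hA]; exact (Finset.card_le_univ A).trans hι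
        have hANr : (n : ℝ) ≤ N := by exact_mod_cast hAN
        obtain ⟨x', hx1, hx2, hx3⟩ := partial_colouring (ι := {j // j ∈ A}) (κ := κ)
          (fun i j => v i j.1) (fun i j => hv i j.1) (c * N) hκ
          (by rw [hcardA]; nlinarith) (by rw [hcardA]; exact hpos)
        rw [hcardA] at hx2 hx3
        set xe : ι → ℝ := fun j => if h : j ∈ A then x' ⟨j, h⟩ else 0 with hxe
        have hxe1 : ∀ j : {j // j ∈ A}, xe j.1 = x' j := by
          intro j
          simp only [hxe, j.2, dif_pos]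
        have hxe0 : ∀ j, j ∉ A → xe j = 0 := by
          intro j hj
          simp only [hxe, hj, dif_neg, not_false_eq_true]
        have hsumxe : ∀ i, ∑ j, v i j * xe j = ∑ j : {j // j ∈ A}, v i j.1 * x' j := by
          intro i
          have h1 : ∑ j, v i j * xe j = ∑ j ∈ A, v i j * xe j := by
            symm
            apply Finset.sum_subset (Finset.subset_univ A)
            intro j _ hj
            rw [hxe0 j hj, mul_zero]
          rw [h1, ← Finset.sum_coe_sort A (fun j => v i j * xe j)]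
          apply Finset.sum_congr rfl
          intro j _
          rw [hxe1]
        set A' := A.filter (fun j => xe j = 0) with hA'
        -- card of A'
        have hcnt : (Finset.univ.filter (fun j : {j // j ∈ A} => x' j ≠ 0)).card =
            (A.filter (fun j => xe j ≠ 0)).card := by
          apply Finset.card_bij (fun (j : {j // j ∈ A}) _ => j.1)
          · intro j hj
            rw [Finset.mem_filter] at hj ⊢
            exact ⟨j.2, by rw [hxe1]; exact hj.2⟩
          · intro j _ j' _ h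
            exact Subtype.ext h
          · intro j hj
            rw [Finset.mem_filter] at hj
            refine ⟨⟨j, hj.1⟩, ?_, rfl⟩
            rw [Finset.mem_filter]
            exact ⟨Finset.mem_univ _, by rw [← hxe1]; exact hj.2⟩
        have hsplit : A'.card + (A.filter (fun j => xe j ≠ 0)).card = n := by
          rw [hA', ← hA]
          exact Finset.card_filter_add_card_filter_not (fun j => xe j = 0)
        rw [hcnt] at hx2
        have hA'card : (A'.card : ℝ) ≤ 7 / 8 * n := by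
          have : (A'.card : ℝ) + ((A.filter (fun j => xe j ≠ 0)).card : ℝ) = n := by
            exact_mod_cast hsplit
          linarith
        have hlt : A'.card < n := by
          have : (A'.card : ℝ) < n := by linarith
          exact_mod_cast this
        obtain ⟨x'', hy1, hy2, hy3⟩ := ih A'.card hlt A' rfl
        refine ⟨fun j => xe j + x'' j, ?_, ?_, ?_⟩
        · intro j hj
          by_cases hj0 : xe j = 0
          · have : j ∈ A' := by rw [hA', Finset.mem_filter]; exact ⟨hj, hj0⟩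
            rcases hy1 j this with h | h
            · left; simp only [hj0, h]; norm_num
            · right; simp only [hj0, h]; norm_num
          · have : j ∉ A' := by
              rw [hA', Finset.mem_filter]
              exact fun h => hj0 h.2
            have h0 := hy2 j this
            have h1 := hx1 ⟨j, hj⟩
            rw [← hxe1 ⟨j, hj⟩] at h1
            rcases h1 with h | h | h
            · exact absurd h hj0
            · left; simp only at h; simp only [h, h0]; norm_num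
            · right; simp only at h; simp only [h, h0]; norm_num
        · intro j hj
          have h1 : j ∉ A' := by
            rw [hA', Finset.mem_filter]
            exact fun h => hj h.1
          simp only [hxe0 j hj, hy2 j h1]; norm_num
        · intro i
          have e1 : ∑ j, v i j * (xe j + x'' j) = ∑ j, v i j * xe j + ∑ j, v i j * x'' j := by
            rw [← Finset.sum_add_distrib]
            apply Finset.sum_congr rfl
            intro j _; ring
          rw [e1]
          have hs0 : 0 < (n : ℝ) / N := by positivity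
          have hs1 : (n : ℝ) / N ≤ 1 := by
            rw [div_le_one hN0]; exact hANr
          -- partial part
          have p1 : |∑ j, v i j * xe j| ≤ K1 * Real.sqrt (Real.sqrt (N * (n : ℝ))) := by
            rw [hsumxe]
            refine (hx3 i).trans ?_
            rw [hK1]
            rw [mul_assoc, mul_assoc]
            apply mul_le_mul_of_nonneg_left _ (by norm_num)
            rw [← Real.sqrt_mul' _ (by positivity), ← Real.sqrt_mul (by positivity)]
            apply Real.sqrt_le_sqrt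
            have hla := log_aux (2 * c) ((n : ℝ) / N) (by linarith) hs0 hs1
            have e2 : 2 * c / ((n : ℝ) / N) = 2 * (c * N) / n := by field_simp
            rw [e2] at hla
            have e3 : Real.sqrt (N * (n : ℝ)) * Real.sqrt ((n : ℝ) / N) = n := by
              rw [← Real.sqrt_mul (by positivity)]
              have : (N : ℝ) * n * (n / N) = n ^ 2 := by field_simp
              rw [this, Real.sqrt_sq hn0.le]
            calc Real.log (2 * (c * N) / n) * n
                = Real.log (2 * (c * N) / n) *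
                    (Real.sqrt (N * (n : ℝ)) * Real.sqrt ((n : ℝ) / N)) := by rw [e3]
              _ = Real.sqrt (N * (n : ℝ)) *
                    (Real.sqrt ((n : ℝ) / N) * Real.log (2 * (c * N) / n)) := by ring
              _ ≤ Real.sqrt (N * (n : ℝ)) * (Real.log (2 * c) + 1) := by
                  apply mul_le_mul_of_nonneg_left hla (Real.sqrt_nonneg _)
              _ = _ := by ring
          have p2 : |∑ j, v i j * x'' j| ≤
              K1 * 100 * (97 / 100 * Real.sqrt (Real.sqrt (N * (n : ℝ)))) := by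
            refine (hy3 i).trans ?_
            apply mul_le_mul_of_nonneg_left _ (by positivity)
            apply sqrt_sqrt_le (by positivity)
            rw [mul_pow]
            have e4 : Real.sqrt (Real.sqrt (N * (n : ℝ))) ^ 4 = N * n := by
              have : Real.sqrt (Real.sqrt (N * (n : ℝ))) ^ 4 =
                  (Real.sqrt (Real.sqrt (N * (n : ℝ))) ^ 2) ^ 2 := by ring
              rw [this, Real.sq_sqrt (Real.sqrt_nonneg _), Real.sq_sqrt (by positivity)]
            rw [e4]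
            have := theta_pow
            calc (N : ℝ) * A'.card ≤ N * (7 / 8 * n) := by
                  apply mul_le_mul_of_nonneg_left hA'card hN0.le
              _ = 7 / 8 * (N * n) := by ring
              _ ≤ (97 / 100) ^ 4 * (N * n) := by
                  apply mul_le_mul_of_nonneg_right this (by positivity)
          rw [hA]
          calc |∑ j, v i j * xe j + ∑ j, v i j * x'' j|
              ≤ |∑ j, v i j * xe j| + |∑ j, v i j * x'' j| := abs_add_le _ _
            _ ≤ K1 * Real.sqrt (Real.sqrt (N * (n : ℝ))) +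
                K1 * 100 * (97 / 100 * Real.sqrt (Real.sqrt (N * (n : ℝ)))) := add_le_add p1 p2
            _ ≤ K1 * 100 * Real.sqrt (Real.sqrt (N * (n : ℝ))) := by
                have : 0 ≤ K1 * Real.sqrt (Real.sqrt (N * (n : ℝ))) := by positivity
                nlinarith
  intro A
  exact main A.card A rfl

/-- choose the global sign of the colouring so that one extra functional is `≤ 0`. -/
theorem full_colouring' (c : ℝ) (hc : 1 ≤ c) : ∃ K : ℝ, 0 < K ∧
    ∀ (N : ℕ) (ι κ : Type) [Fintype ι] [DecidableEq ι] [Fintype κ] [DecidableEq κ]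
      (v : κ → ι → ℝ), (∀ i j, |v i j| ≤ 1) → 0 < N → Fintype.card ι ≤ N →
      (Fintype.card κ : ℝ) ≤ c * N → ∀ (s : ι → ℝ) (A : Finset ι),
      ∃ x : ι → ℝ, (∀ j ∈ A, x j = 1 ∨ x j = -1) ∧ (∀ j, j ∉ A → x j = 0) ∧
        (∑ j, s j * x j ≤ 0) ∧
        ∀ i, |∑ j, v i j * x j| ≤ K * Real.sqrt (Real.sqrt (N * (A.card : ℝ))) := by
  obtain ⟨K, hK, h⟩ := full_colouring c hc
  refine ⟨K, hK, ?_⟩
  intro N ι κ _ _ _ _ v hv hN hι hκ s A
  obtain ⟨x, h1, h2, h3⟩ := h N ι κ v hv hN hι hκ A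
  by_cases hs : ∑ j, s j * x j ≤ 0
  · exact ⟨x, h1, h2, hs, h3⟩
  · push Not at hs
    refine ⟨fun j => -x j, ?_, ?_, ?_, ?_⟩
    · intro j hj
      rcases h1 j hj with h | h
      · right; show -x j = -1; rw [h]
      · left; show -x j = 1; rw [h]; norm_num
    · intro j hj
      simp only [h2 j hj, neg_zero]
    · simp only [mul_neg, Finset.sum_neg_distrib]
      linarith
    · intro i
      simp only [mul_neg, Finset.sum_neg_distrib, abs_neg]
      exact h3 i

/-- one digit: from level `l+1` to level `l` and so on (S3, dyadic part). -/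
theorem round_dyadic (c : ℝ) (hc : 1 ≤ c) : ∃ K : ℝ, 0 < K ∧
    ∀ (N : ℕ) (ι κ : Type) [Fintype ι] [DecidableEq ι] [Fintype κ] [DecidableEq κ]
      (v : κ → ι → ℝ), (∀ i j, |v i j| ≤ 1) → 0 < N → Fintype.card ι ≤ N →
      (Fintype.card κ : ℝ) ≤ c * N → ∀ (δ : ℝ), 0 ≤ δ → ∀ (l : ℕ) (u : ι → ℝ),
      (∀ k, 0 ≤ u k ∧ u k ≤ 1) → (∀ k, ∃ z : ℤ, u k * 2 ^ l = z) →
      (∑ k, min (u k) (1 - u k) ≤ δ * N) →
      ∃ w : ι → ℝ, (∀ k, w k = 0 ∨ w k = 1) ∧
        ∀ i, |∑ k, v i k * (w k - u k)| ≤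
          (K * (Real.sqrt N * Real.sqrt (Real.sqrt δ))) * (2 * (1 - (3 / 5 : ℝ) ^ l)) := by
  obtain ⟨K, hK, h⟩ := full_colouring' c hc
  refine ⟨K, hK, ?_⟩
  intro N ι κ _ _ _ _ v hv hN hι hκ δ hδ l
  have hN0 : (0 : ℝ) < N := by exact_mod_cast hN
  set B : ℝ := K * (Real.sqrt N * Real.sqrt (Real.sqrt δ)) with hB
  have hB0 : 0 ≤ B := by positivity
  induction l with
  | zero =>
    intro u hu hz _
    refine ⟨u, ?_, ?_⟩
    · intro k
      obtain ⟨z, hz⟩ := hz k
      rw [pow_zero, mul_one] at hz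
      have h0 := (hu k).1
      have h1 := (hu k).2
      rw [hz] at h0 h1 ⊢
      have h0' : 0 ≤ z := by exact_mod_cast h0
      have h1' : z ≤ 1 := by exact_mod_cast h1
      have : z = 0 ∨ z = 1 := by omega
      rcases this with h | h
      · left; rw [h]; norm_num
      · right; rw [h]; norm_num
    · intro i
      simp
  | succ l ih =>
    intro u hu hz hsum
    choose z hz using hz
    set A : Finset ι := Finset.univ.filter (fun k => Odd (z k)) with hA
    set s : ι → ℝ := fun k => if u k ≤ 1 / 2 then 1 else -1 with hs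
    obtain ⟨x, hx1, hx2, hx3, hx4⟩ := h N ι κ v hv hN hι hκ s A
    have hpow : (0 : ℝ) < 2 ^ (l + 1) := by positivity
    set h2 : ℝ := ((2 : ℝ) ^ (l + 1))⁻¹ with hh2
    have hh20 : 0 < h2 := by positivity
    have hu2 : ∀ k, u k = z k * h2 := by
      intro k
      rw [← hz k, hh2]; field_simp
    -- for k ∈ A : h2 ≤ u k ≤ 1 - h2
    have hAk : ∀ k ∈ A, h2 ≤ u k ∧ u k ≤ 1 - h2 := by
      intro k hk
      rw [hA, Finset.mem_filter] at hk
      obtain ⟨q, hq⟩ := hk.2
      have h0 := (hu k).1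
      have h1 := (hu k).2
      have e1 := hz k
      have z0 : 0 ≤ z k := by
        have : (0 : ℝ) ≤ z k := by rw [← e1]; positivity
        exact_mod_cast this
      have z1 : z k ≤ 2 ^ (l + 1) := by
        have : (z k : ℝ) ≤ 2 ^ (l + 1) := by rw [← e1]; nlinarith
        exact_mod_cast this
      have z2 : 1 ≤ z k := by omega
      have z3 : z k ≤ 2 ^ (l + 1) - 1 := by
        have hev : (2 : ℤ) ∣ 2 ^ (l + 1) := dvd_pow_self 2 (by omega)
        omega
      have z2' : (1 : ℝ) ≤ z k := by exact_mod_cast z2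
      have z3' : (z k : ℝ) ≤ 2 ^ (l + 1) - 1 := by exact_mod_cast z3
      rw [hu2 k]
      constructor
      · nlinarith
      · have : (2 : ℝ) ^ (l + 1) * h2 = 1 := by rw [hh2]; field_simp
        nlinarith
    have hminA : ∀ k ∈ A, h2 ≤ min (u k) (1 - u k) := by
      intro k hk
      have := hAk k hk
      apply le_min <;> linarith
    have hmin0 : ∀ k, 0 ≤ min (u k) (1 - u k) := by
      intro k
      apply le_min (hu k).1
      linarith [(hu k).2]
    have hcard : (A.card : ℝ) ≤ 2 ^ (l + 1) * (δ * N) := by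
      have h1 : (A.card : ℝ) * h2 ≤ ∑ k, min (u k) (1 - u k) := by
        rw [← nsmul_eq_mul]
        refine (Finset.card_nsmul_le_sum A _ _ hminA).trans ?_
        apply Finset.sum_le_sum_of_subset_of_nonneg (Finset.subset_univ A)
        intro k _ _; exact hmin0 k
      have h3 : (A.card : ℝ) * h2 ≤ δ * N := h1.trans hsum
      have h4 : (A.card : ℝ) = 2 ^ (l + 1) * (A.card * h2) := by
        rw [hh2]; field_simp
      rw [h4]
      apply mul_le_mul_of_nonneg_left h3 (by positivity)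
    set u' : ι → ℝ := fun k => u k + h2 * x k with hu'
    have hu'1 : ∀ k, 0 ≤ u' k ∧ u' k ≤ 1 := by
      intro k
      by_cases hk : k ∈ A
      · have := hAk k hk
        rcases hx1 k hk with h | h
        · simp only [hu', h]; constructor <;> linarith
        · simp only [hu', h]; constructor <;> linarith
      · simp only [hu', hx2 k hk]
        have := hu k
        constructor <;> linarith
    have hu'2 : ∀ k, ∃ z' : ℤ, u' k * 2 ^ l = z' := by
      intro k
      have hh : h2 * 2 ^ l = 1 / 2 := by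
        rw [hh2, pow_succ]; field_simp
      by_cases hk : k ∈ A
      · have hodd := hk
        rw [hA, Finset.mem_filter] at hodd
        obtain ⟨q, hq⟩ := hodd.2
        have hqr : (z k : ℝ) = 2 * q + 1 := by exact_mod_cast hq
        rcases hx1 k hk with h | h
        · refine ⟨q + 1, ?_⟩
          simp only [hu', h, hu2 k, hqr]
          push_cast
          linear_combination (2 * (q : ℝ) + 1 + 1) * hh
        · refine ⟨q, ?_⟩
          simp only [hu', h, hu2 k, hqr]
          linear_combination (2 * (q : ℝ) + 1 - 1) * hh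
      · have hev : ¬ Odd (z k) := by
          intro ho
          exact hk (by rw [hA, Finset.mem_filter]; exact ⟨Finset.mem_univ _, ho⟩)
        rw [Int.not_odd_iff_even] at hev
        obtain ⟨q, hq⟩ := hev
        have hqr : (z k : ℝ) = q + q := by exact_mod_cast hq
        refine ⟨q, ?_⟩
        simp only [hu', hx2 k hk, hu2 k, hqr]
        linear_combination (2 * (q : ℝ)) * hh
    have hu'3 : ∑ k, min (u' k) (1 - u' k) ≤ δ * N := by
      have hk : ∀ k, min (u' k) (1 - u' k) ≤ min (u k) (1 - u k) + h2 * (s k * x k) := by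
        intro k
        by_cases hk : u k ≤ 1 / 2
        · have e : min (u k) (1 - u k) = u k := min_eq_left (by linarith)
          simp only [hs, hk, if_true, e, one_mul]
          exact min_le_left _ _
        · have e : min (u k) (1 - u k) = 1 - u k := by
            apply min_eq_right
            push Not at hk
            linarith
          simp only [hs, hk, if_false, e]
          refine (min_le_right _ _).trans ?_
          simp only [hu']
          linarith
      calc ∑ k, min (u' k) (1 - u' k) ≤ ∑ k, (min (u k) (1 - u k) + h2 * (s k * x k)) :=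
            Finset.sum_le_sum (fun k _ => hk k)
        _ = ∑ k, min (u k) (1 - u k) + h2 * ∑ k, s k * x k := by
            rw [Finset.sum_add_distrib, ← Finset.mul_sum]
        _ ≤ δ * N := by nlinarith
    obtain ⟨w, hw1, hw2⟩ := ih u' hu'1 hu'2 hu'3
    refine ⟨w, hw1, ?_⟩
    intro i
    have e1 : ∑ k, v i k * (w k - u k) = ∑ k, v i k * (w k - u' k) + h2 * ∑ k, v i k * x k := by
      rw [Finset.mul_sum, ← Finset.sum_add_distrib]
      apply Finset.sum_congr rfl
      intro k _
      simp only [hu']; ring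
    have p2 : |h2 * ∑ k, v i k * x k| ≤ B * (3 / 5 : ℝ) ^ (l + 1) := by
      rw [abs_mul, abs_of_pos hh20]
      have p3 : Real.sqrt (Real.sqrt (N * (A.card : ℝ))) ≤
          (Real.sqrt N * Real.sqrt (Real.sqrt δ)) * (6 / 5 : ℝ) ^ (l + 1) := by
        apply sqrt_sqrt_le (by positivity)
        rw [mul_pow, mul_pow]
        have e4 : Real.sqrt (Real.sqrt δ) ^ 4 = δ := by
          have : Real.sqrt (Real.sqrt δ) ^ 4 = (Real.sqrt (Real.sqrt δ) ^ 2) ^ 2 := by ring
          rw [this, Real.sq_sqrt (Real.sqrt_nonneg _), Real.sq_sqrt hδ]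
        have e5 : Real.sqrt N ^ 4 = (N : ℝ) ^ 2 := by
          have : Real.sqrt N ^ 4 = (Real.sqrt (N : ℝ) ^ 2) ^ 2 := by ring
          rw [this, Real.sq_sqrt hN0.le]
        rw [e4, e5]
        have e6 : (2 : ℝ) ^ (l + 1) ≤ ((6 / 5 : ℝ) ^ (l + 1)) ^ 4 := by
          rw [← pow_mul, mul_comm, pow_mul]
          apply pow_le_pow_left₀ (by norm_num)
          norm_num
        calc (N : ℝ) * A.card ≤ N * (2 ^ (l + 1) * (δ * N)) := by
              apply mul_le_mul_of_nonneg_left hcard hN0.le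
          _ = (N : ℝ) ^ 2 * δ * 2 ^ (l + 1) := by ring
          _ ≤ (N : ℝ) ^ 2 * δ * ((6 / 5 : ℝ) ^ (l + 1)) ^ 4 := by
              apply mul_le_mul_of_nonneg_left e6 (by positivity)
      calc h2 * |∑ k, v i k * x k| ≤ h2 * (K * ((Real.sqrt N * Real.sqrt (Real.sqrt δ)) *
            (6 / 5 : ℝ) ^ (l + 1))) := by
            apply mul_le_mul_of_nonneg_left _ hh20.le
            refine (hx4 i).trans ?_
            apply mul_le_mul_of_nonneg_left p3 hK.le
        _ = B * ((6 / 5 : ℝ) ^ (l + 1) * h2) := by rw [hB]; ring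
        _ = B * (3 / 5 : ℝ) ^ (l + 1) := by
            congr 1
            rw [hh2, ← inv_pow, ← mul_pow]
            norm_num
    rw [e1]
    calc |∑ k, v i k * (w k - u' k) + h2 * ∑ k, v i k * x k|
        ≤ |∑ k, v i k * (w k - u' k)| + |h2 * ∑ k, v i k * x k| := abs_add_le _ _
      _ ≤ B * (2 * (1 - (3 / 5 : ℝ) ^ l)) + B * (3 / 5 : ℝ) ^ (l + 1) := add_le_add (hw2 i) p2
      _ ≤ B * (2 * (1 - (3 / 5 : ℝ) ^ (l + 1))) := by
          rw [← mul_add]
          apply mul_le_mul_of_nonneg_left _ hB0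
          have : (0 : ℝ) ≤ (3 / 5 : ℝ) ^ l := by positivity
          rw [pow_succ]
          linarith

/-- (S3) rounding, general real `u`. -/
theorem round_functionals (c : ℝ) (hc : 1 ≤ c) : ∃ K : ℝ, 0 < K ∧
    ∀ (N : ℕ) (ι κ : Type) [Fintype ι] [DecidableEq ι] [Fintype κ] [DecidableEq κ]
      (v : κ → ι → ℝ), (∀ i j, |v i j| ≤ 1) → 0 < N → Fintype.card ι ≤ N →
      (Fintype.card κ : ℝ) ≤ c * N → ∀ (δ : ℝ), 0 < δ → δ ≤ 1 → ∀ (u : ι → ℝ),
      (∀ k, 0 ≤ u k ∧ u k ≤ 1) →
      (∑ k, min (u k) (1 - u k) ≤ δ * N) →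
      ∃ w : ι → ℝ, (∀ k, w k = 0 ∨ w k = 1) ∧
        ∀ i, |∑ k, v i k * (w k - u k)| ≤ K * (Real.sqrt N * Real.sqrt (Real.sqrt δ)) := by
  obtain ⟨K, hK, h⟩ := round_dyadic c hc
  refine ⟨K * 4 + 1, by positivity, ?_⟩
  intro N ι κ _ _ _ _ v hv hN hι hκ δ hδ hδ1 u hu hsum
  have hN0 : (0 : ℝ) < N := by exact_mod_cast hN
  have hN1 : (1 : ℝ) ≤ N := by exact_mod_cast hN
  obtain ⟨M, hM⟩ : ∃ M : ℕ, (N : ℝ) / δ ≤ 2 ^ M := by
    obtain ⟨M, hM⟩ := pow_unbounded_of_one_lt ((N : ℝ) / δ) (by norm_num : (1 : ℝ) < 2)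
    exact ⟨M, hM.le⟩
  have hM0 : (0 : ℝ) < 2 ^ M := by positivity
  set h2 : ℝ := ((2 : ℝ) ^ M)⁻¹ with hh2
  have hh20 : 0 < h2 := by positivity
  have hNh : N * h2 ≤ δ := by
    rw [div_le_iff₀ hδ] at hM
    rw [hh2, ← div_eq_mul_inv, div_le_iff₀ hM0]
    linarith
  set u' : ι → ℝ := fun k => (⌊u k * 2 ^ M⌋ : ℝ) * h2 with hu'
  have hmul : (2 : ℝ) ^ M * h2 = 1 := by rw [hh2]; field_simp
  have hle : ∀ k, u' k ≤ u k := by
    intro k
    have := Int.floor_le (u k * 2 ^ M)
    calc u' k = (⌊u k * 2 ^ M⌋ : ℝ) * h2 := rfl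
      _ ≤ (u k * 2 ^ M) * h2 := by apply mul_le_mul_of_nonneg_right this hh20.le
      _ = u k := by rw [mul_assoc, hmul, mul_one]
  have hge : ∀ k, u k ≤ u' k + h2 := by
    intro k
    have := (Int.lt_floor_add_one (u k * 2 ^ M)).le
    calc u k = (u k * 2 ^ M) * h2 := by rw [mul_assoc, hmul, mul_one]
      _ ≤ ((⌊u k * 2 ^ M⌋ : ℝ) + 1) * h2 := by apply mul_le_mul_of_nonneg_right this hh20.le
      _ = u' k + h2 := by simp only [hu']; ring
  have h0 : ∀ k, 0 ≤ u' k := by
    intro k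
    have : (0 : ℤ) ≤ ⌊u k * 2 ^ M⌋ := by
      apply Int.floor_nonneg.mpr
      have := (hu k).1
      positivity
    have h' : (0 : ℝ) ≤ (⌊u k * 2 ^ M⌋ : ℝ) := by exact_mod_cast this
    simp only [hu']; positivity
  have hcardN : (Fintype.card ι : ℝ) ≤ N := by exact_mod_cast hι
  have hsum' : ∑ k, min (u' k) (1 - u' k) ≤ (2 * δ) * N := by
    calc ∑ k, min (u' k) (1 - u' k) ≤ ∑ k, (min (u k) (1 - u k) + h2) := by
          apply Finset.sum_le_sum
          intro k _
          rw [← min_add_add_right]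
          apply min_le_min
          · linarith [hle k]
          · linarith [hge k]
      _ = ∑ k, min (u k) (1 - u k) + Fintype.card ι * h2 := by
          rw [Finset.sum_add_distrib]; simp
      _ ≤ δ * N + N * h2 := by
          apply add_le_add hsum
          apply mul_le_mul_of_nonneg_right hcardN hh20.le
      _ ≤ (2 * δ) * N := by nlinarith
  obtain ⟨w, hw1, hw2⟩ := h N ι κ v hv hN hι hκ (2 * δ) (by linarith) M u'
    (fun k => ⟨h0 k, (hle k).trans (hu k).2⟩)
    (fun k => ⟨⌊u k * 2 ^ M⌋, by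
      simp only [hu']
      rw [mul_assoc, mul_comm h2, hmul, mul_one]⟩) hsum'
  refine ⟨w, hw1, ?_⟩
  intro i
  have e1 : ∑ k, v i k * (w k - u k) = ∑ k, v i k * (w k - u' k) + ∑ k, v i k * (u' k - u k) := by
    rw [← Finset.sum_add_distrib]
    apply Finset.sum_congr rfl
    intro k _; ring
  have p2 : |∑ k, v i k * (u' k - u k)| ≤ δ := by
    calc |∑ k, v i k * (u' k - u k)| ≤ ∑ k, |v i k * (u' k - u k)| :=
          Finset.abs_sum_le_sum_abs _ _
      _ ≤ ∑ _k : ι, h2 := by
          apply Finset.sum_le_sum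
          intro k _
          rw [abs_mul]
          have a1 := hv i k
          have a2 : |u' k - u k| ≤ h2 := by
            rw [abs_le]
            constructor <;> linarith [hle k, hge k]
          calc |v i k| * |u' k - u k| ≤ 1 * h2 :=
                mul_le_mul a1 a2 (abs_nonneg _) (by norm_num)
            _ = h2 := one_mul _
      _ = Fintype.card ι * h2 := by simp
      _ ≤ N * h2 := mul_le_mul_of_nonneg_right hcardN hh20.le
      _ ≤ δ := hNh
  have hq0 : 0 ≤ Real.sqrt (Real.sqrt δ) := Real.sqrt_nonneg _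
  have hq4 : Real.sqrt (Real.sqrt δ) ^ 4 = δ := by
    have : Real.sqrt (Real.sqrt δ) ^ 4 = (Real.sqrt (Real.sqrt δ) ^ 2) ^ 2 := by ring
    rw [this, Real.sq_sqrt (Real.sqrt_nonneg _), Real.sq_sqrt hδ.le]
  have hq1 : Real.sqrt (Real.sqrt δ) ≤ 1 := by
    apply sqrt_sqrt_le (by norm_num); simpa using hδ1
  have hq2 : Real.sqrt (Real.sqrt (2 * δ)) ≤ 2 * Real.sqrt (Real.sqrt δ) := by
    apply sqrt_sqrt_le (by positivity)
    rw [mul_pow, hq4]; nlinarith
  have hδq : δ ≤ Real.sqrt (Real.sqrt δ) := by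
    calc δ = Real.sqrt (Real.sqrt δ) ^ 4 := hq4.symm
      _ ≤ Real.sqrt (Real.sqrt δ) := pow_le_of_le_one hq0 hq1 (by norm_num)
  have hsN : 1 ≤ Real.sqrt N := Real.one_le_sqrt.mpr hN1
  have h35 : (0 : ℝ) ≤ (3 / 5 : ℝ) ^ M := by positivity
  rw [e1]
  calc |∑ k, v i k * (w k - u' k) + ∑ k, v i k * (u' k - u k)|
      ≤ |∑ k, v i k * (w k - u' k)| + |∑ k, v i k * (u' k - u k)| := abs_add_le _ _
    _ ≤ (K * (Real.sqrt N * Real.sqrt (Real.sqrt (2 * δ)))) * (2 * (1 - (3 / 5 : ℝ) ^ M)) + δ :=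
        add_le_add (hw2 i) p2
    _ ≤ (K * (Real.sqrt N * (2 * Real.sqrt (Real.sqrt δ)))) * 2 +
          Real.sqrt N * Real.sqrt (Real.sqrt δ) := by
        apply add_le_add
        · apply mul_le_mul
          · gcongr
          · linarith
          · have : (3 / 5 : ℝ) ^ M ≤ 1 := pow_le_one₀ (by norm_num) (by norm_num)
            linarith
          · positivity
        · nlinarith
    _ = (K * 4 + 1) * (Real.sqrt N * Real.sqrt (Real.sqrt δ)) := by ring

end Crest.Agent.R075.Round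
end

-- ▼ part R075/Rounding
section

/-!
Row 75, THM S (S4 + final): weak Bernstein inequality and rounding on the whole circle.
-/

set_option autoImplicit false

namespace Crest.Agent.R075.Round

open Finset

section bern

/-- the polynomial as a function -/
noncomputable def pol {N : ℕ} (d : Fin N → ℂ) (z : ℂ) : ℂ := ∑ k : Fin N, d k * z ^ (k : ℕ)

lemma pol_differentiable {N : ℕ} (d : Fin N → ℂ) : Differentiable ℂ (pol d) := by
  unfold pol
  fun_prop

lemma norm_le_of_circle {f : ℂ → ℂ} (hf : Differentiable ℂ f) {S : ℝ}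
    (hS : ∀ z : ℂ, ‖z‖ = 1 → ‖f z‖ ≤ S) (w : ℂ) (hw : ‖w‖ ≤ 1) : ‖f w‖ ≤ S := by
  have h := Complex.norm_le_of_forall_mem_frontier_norm_le (U := Metric.ball (0 : ℂ) 1)
    (f := f) (C := S) Metric.isBounded_ball hf.diffContOnCl
  apply h
  · intro z hz
    rw [frontier_ball (0 : ℂ) one_ne_zero, mem_sphere_zero_iff_norm] at hz
    exact hS z hz
  · rw [closure_ball (0 : ℂ) one_ne_zero, mem_closedBall_zero_iff]
    exact hw

lemma pol_outside {N : ℕ} (hN : 0 < N) (d : Fin N → ℂ) {S : ℝ}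
    (hS : ∀ z : ℂ, ‖z‖ = 1 → ‖pol d z‖ ≤ S) (w : ℂ) (hw : 1 ≤ ‖w‖) :
    ‖pol d w‖ ≤ ‖w‖ ^ (N - 1) * S := by
  set q : ℂ → ℂ := fun ζ => ∑ k : Fin N, d k * ζ ^ (N - 1 - (k : ℕ)) with hq
  have hqd : Differentiable ℂ q := by
    simp only [hq]; fun_prop
  have hrel : ∀ ζ : ℂ, ζ ≠ 0 → q ζ = ζ ^ (N - 1) * pol d ζ⁻¹ := by
    intro ζ hζ
    simp only [hq, pol]
    rw [Finset.mul_sum]
    apply Finset.sum_congr rfl
    intro k _
    have hk : (k : ℕ) ≤ N - 1 := by have := k.2; omega
    have : ζ ^ (N - 1) = ζ ^ (N - 1 - (k : ℕ)) * ζ ^ (k : ℕ) := by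
      rw [← pow_add]; congr 1; omega
    rw [this, inv_pow]
    field_simp
  have hqS : ∀ z : ℂ, ‖z‖ = 1 → ‖q z‖ ≤ S := by
    intro z hz
    have hz0 : z ≠ 0 := by
      intro h; rw [h, norm_zero] at hz; norm_num at hz
    rw [hrel z hz0, norm_mul, norm_pow, hz, one_pow, one_mul]
    apply hS
    rw [norm_inv, hz, inv_one]
  have hw0 : w ≠ 0 := by
    intro h; rw [h, norm_zero] at hw; norm_num at hw
  have h1 := norm_le_of_circle hqd hqS w⁻¹ (by
    rw [norm_inv]; exact inv_le_one_of_one_le₀ hw)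
  have h2 := hrel w⁻¹ (inv_ne_zero hw0)
  rw [inv_inv] at h2
  have h3 : pol d w = w ^ (N - 1) * q w⁻¹ := by
    rw [h2, inv_pow]
    field_simp
  rw [h3, norm_mul, norm_pow]
  apply mul_le_mul_of_nonneg_left h1 (by positivity)

lemma weak_bernstein {N : ℕ} (hN : 0 < N) (d : Fin N → ℂ) {S : ℝ}
    (hS : ∀ z : ℂ, ‖z‖ = 1 → ‖pol d z‖ ≤ S) (z : ℂ) (hz : ‖z‖ = 1) :
    ‖deriv (pol d) z‖ ≤ 3 * N * S := by
  have hN0 : (0 : ℝ) < N := by exact_mod_cast hN
  have hS0 : 0 ≤ S := (norm_nonneg _).trans (hS 1 (by simp))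
  have hR : (0 : ℝ) < 1 / N := by positivity
  have h := Complex.norm_deriv_le_of_forall_mem_sphere_norm_le (c := z) (R := 1 / N)
    (C := 3 * S) (f := pol d) hR (pol_differentiable d).diffContOnCl ?_
  · calc ‖deriv (pol d) z‖ ≤ 3 * S / (1 / N) := h
      _ = 3 * N * S := by field_simp
  · intro w hw
    rw [mem_sphere_iff_norm] at hw
    by_cases hw1 : ‖w‖ ≤ 1
    · have := norm_le_of_circle (pol_differentiable d) hS w hw1
      linarith
    · push Not at hw1
      have h1 := pol_outside hN d hS w hw1.le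
      have h2 : ‖w‖ ≤ 1 + 1 / N := by
        calc ‖w‖ = ‖z + (w - z)‖ := by congr 1; ring
          _ ≤ ‖z‖ + ‖w - z‖ := norm_add_le _ _
          _ = 1 + 1 / N := by rw [hz, hw]
      have h3 : ‖w‖ ^ (N - 1) ≤ 3 := by
        calc ‖w‖ ^ (N - 1) ≤ (1 + 1 / (N : ℝ)) ^ (N - 1) :=
              pow_le_pow_left₀ (norm_nonneg _) h2 _
          _ ≤ (1 + 1 / (N : ℝ)) ^ N := by
              apply pow_le_pow_right₀
              · have : (0 : ℝ) ≤ 1 / N := by positivity
                linarith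
              · omega
          _ ≤ (Real.exp (1 / N)) ^ N := by
              apply pow_le_pow_left₀ (by positivity)
              have := Real.add_one_le_exp (1 / (N : ℝ))
              linarith
          _ = Real.exp 1 := by
              rw [← Real.exp_nat_mul]; congr 1; field_simp
          _ ≤ 3 := by
              have := Real.exp_one_lt_d9
              linarith
      calc ‖pol d w‖ ≤ ‖w‖ ^ (N - 1) * S := h1
        _ ≤ 3 * S := mul_le_mul_of_nonneg_right h3 hS0

lemma pol_lipschitz {N : ℕ} (hN : 0 < N) (d : Fin N → ℂ) {S : ℝ}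
    (hS : ∀ z : ℂ, ‖z‖ = 1 → ‖pol d z‖ ≤ S) (x y : ℝ) :
    ‖pol d (Complex.exp (x * Complex.I)) - pol d (Complex.exp (y * Complex.I))‖ ≤
      3 * N * S * |x - y| := by
  have hder : ∀ t : ℝ, HasDerivAt (fun t : ℝ => pol d (Complex.exp (t * Complex.I)))
      (deriv (pol d) (Complex.exp (t * Complex.I)) * (Complex.exp (t * Complex.I) * Complex.I)) t := by
    intro t
    have h1 : HasDerivAt (fun t : ℝ => (t : ℂ) * Complex.I) Complex.I t := by
      have := (Complex.ofRealCLM.hasDerivAt (x := t)).mul_const Complex.I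
      simpa using this
    have h2 := h1.cexp
    have h3 := ((pol_differentiable d) (Complex.exp (t * Complex.I))).hasDerivAt
    exact HasDerivAt.comp t h3 h2
  have hbound : ∀ t ∈ (Set.univ : Set ℝ),
      ‖deriv (pol d) (Complex.exp (t * Complex.I)) * (Complex.exp (t * Complex.I) * Complex.I)‖ ≤
        3 * N * S := by
    intro t _
    rw [norm_mul, norm_mul, Complex.norm_exp_ofReal_mul_I, Complex.norm_I, mul_one, mul_one]
    exact weak_bernstein hN d hS _ (Complex.norm_exp_ofReal_mul_I t)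
  have := Convex.norm_image_sub_le_of_norm_hasDerivWithin_le
    (f := fun t : ℝ => pol d (Complex.exp (t * Complex.I)))
    (s := Set.univ) (fun t _ => (hder t).hasDerivWithinAt) hbound convex_univ
    (Set.mem_univ y) (Set.mem_univ x)
  simpa [Real.norm_eq_abs] using this

/-- grid to circle. -/
lemma circle_of_grid {N : ℕ} (hN : 0 < N) (d : Fin N → ℂ) (G : ℝ)
    (hG : ∀ j : ℤ, |j| ≤ 16 * N →
      ‖pol d (Complex.exp ((2 * Real.pi * j / (32 * N) : ℝ) * Complex.I))‖ ≤ G)
    (z : ℂ) (hz : ‖z‖ = 1) : ‖pol d z‖ ≤ 2 * G := by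
  have hN0 : (0 : ℝ) < N := by exact_mod_cast hN
  -- maximum point
  obtain ⟨z₀, hz₀, hmax⟩ := (isCompact_sphere (0 : ℂ) 1).exists_isMaxOn
    ⟨(1 : ℂ), by simp⟩ ((pol_differentiable d).continuous.norm.continuousOn)
  set S := ‖pol d z₀‖ with hSdef
  have hS : ∀ z : ℂ, ‖z‖ = 1 → ‖pol d z‖ ≤ S := by
    intro z hz
    exact hmax (mem_sphere_zero_iff_norm.mpr hz)
  have hz₀' : ‖z₀‖ = 1 := mem_sphere_zero_iff_norm.mp hz₀
  set θ := Complex.arg z₀ with hθ
  have hzθ : z₀ = Complex.exp (θ * Complex.I) := by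
    have := Complex.norm_mul_exp_arg_mul_I z₀
    rw [hz₀'] at this
    simpa using this.symm
  have hpi := Real.pi_pos
  set y : ℝ := θ * (16 * N) / Real.pi with hy
  set j : ℤ := round y with hj
  have hyabs : |y| ≤ 16 * N := by
    have h1 := Complex.abs_arg_le_pi z₀
    rw [hy, abs_div, abs_mul, abs_of_pos hpi, div_le_iff₀ hpi]
    rw [abs_of_pos (by positivity : (0 : ℝ) < 16 * N)]
    rw [← hθ] at h1
    nlinarith
  have hjy : |y - j| ≤ 1 / 2 := abs_sub_round y
  have hjabs : |j| ≤ 16 * N := by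
    have h1 : |(j : ℝ)| < 16 * N + 1 := by
      have : |(j : ℝ)| ≤ |y| + |y - j| := by
        have := abs_sub_abs_le_abs_sub (j : ℝ) y
        rw [abs_sub_comm] at this
        linarith
      linarith
    have h2 : |j| < 16 * N + 1 := by exact_mod_cast h1
    omega
  have hgrid := hG j hjabs
  set φ : ℝ := 2 * Real.pi * j / (32 * N) with hφ
  have hdist : |θ - φ| ≤ Real.pi / (32 * N) := by
    have : θ - φ = (y - j) * (Real.pi / (16 * N)) := by
      rw [hy, hφ]; field_simp; ring
    rw [this, abs_mul, abs_of_pos (by positivity : 0 < Real.pi / (16 * N))]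
    calc |y - j| * (Real.pi / (16 * N)) ≤ 1 / 2 * (Real.pi / (16 * N)) :=
          mul_le_mul_of_nonneg_right hjy (by positivity)
      _ = Real.pi / (32 * N) := by field_simp; norm_num
  have hlip := pol_lipschitz hN d hS θ φ
  have hS0 : 0 ≤ S := norm_nonneg _
  have hfin : S ≤ G + 1 / 2 * S := by
    have h1 : S ≤ ‖pol d (Complex.exp (φ * Complex.I))‖ + 3 * N * S * |θ - φ| := by
      calc S = ‖pol d (Complex.exp (θ * Complex.I))‖ := by rw [hSdef, ← hzθ]
        _ = ‖pol d (Complex.exp (φ * Complex.I)) + (pol d (Complex.exp (θ * Complex.I)) -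
              pol d (Complex.exp (φ * Complex.I)))‖ := by congr 1; ring
        _ ≤ ‖pol d (Complex.exp (φ * Complex.I))‖ + ‖pol d (Complex.exp (θ * Complex.I)) -
              pol d (Complex.exp (φ * Complex.I))‖ := norm_add_le _ _
        _ ≤ _ := by linarith
    have h2 : 3 * N * S * |θ - φ| ≤ 1 / 2 * S := by
      calc 3 * N * S * |θ - φ| ≤ 3 * N * S * (Real.pi / (32 * N)) :=
            mul_le_mul_of_nonneg_left hdist (by positivity)
        _ = (3 * Real.pi / 32) * S := by field_simp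
        _ ≤ 1 / 2 * S := by
            apply mul_le_mul_of_nonneg_right _ hS0
            have := Real.pi_lt_d2
            linarith
    linarith
  have := hS z hz
  linarith

end bern

/-- THM S: rounding. -/
theorem rounding (eps : ℝ) (he : 0 < eps) : ∃ delta : ℝ, 0 < delta ∧ ∃ N0 : ℕ, ∀ N : ℕ, N0 ≤ N →
    ∀ b : Fin N → ℝ, (∀ k, |b k| ≤ 1) → (∑ k, (1 - (b k) ^ 2)) ≤ delta * N →
    ∃ a : Fin N → ℤˣ, ∀ z : ℂ, ‖z‖ = 1 →
      ‖∑ k : Fin N, ((((a k : ℤ) : ℂ)) - ((b k : ℝ) : ℂ)) * z ^ (k : ℕ)‖ ≤ eps * Real.sqrt N := by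
  obtain ⟨K, hK, h⟩ := round_functionals 66 (by norm_num)
  set η : ℝ := eps / (8 * K) with hη
  have hη0 : 0 < η := by positivity
  refine ⟨min 1 (η ^ 4), by positivity, 1, ?_⟩
  intro N hN b hb hsum
  have hN' : 0 < N := hN
  have hN0 : (0 : ℝ) < N := by exact_mod_cast hN'
  set δ : ℝ := min 1 (η ^ 4) with hδ
  have hδ0 : 0 < δ := by positivity
  have hδ1 : δ ≤ 1 := min_le_left _ _
  have hδη : Real.sqrt (Real.sqrt δ) ≤ η := sqrt_sqrt_le hη0.le (min_le_right _ _)
  let κ := {j : ℤ // j ∈ Finset.Icc (-(16 * (N : ℤ))) (16 * N)} × Bool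
  let v : κ → Fin N → ℝ := fun i k =>
    if i.2 then Real.cos ((k : ℕ) * (2 * Real.pi * (i.1.1 : ℝ) / (32 * N)))
      else Real.sin ((k : ℕ) * (2 * Real.pi * (i.1.1 : ℝ) / (32 * N)))
  have hv : ∀ i j, |v i j| ≤ 1 := by
    intro i k
    simp only [v]
    split_ifs
    · exact Real.abs_cos_le_one _
    · exact Real.abs_sin_le_one _
  have hcard : (Fintype.card κ : ℝ) ≤ 66 * N := by
    have : Fintype.card κ = (32 * N + 1) * 2 := by
      simp only [κ, Fintype.card_prod, Fintype.card_coe, Int.card_Icc, Fintype.card_bool]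
      congr 1
      omega
    rw [this]
    push_cast
    have : (1 : ℝ) ≤ N := by exact_mod_cast hN
    linarith
  set u : Fin N → ℝ := fun k => (1 - b k) / 2 with hu
  have hu01 : ∀ k, 0 ≤ u k ∧ u k ≤ 1 := by
    intro k
    have := abs_le.mp (hb k)
    simp only [hu]
    constructor <;> linarith [this.1, this.2]
  have hmin : ∑ k, min (u k) (1 - u k) ≤ δ * N := by
    refine le_trans ?_ hsum
    apply Finset.sum_le_sum
    intro k _
    have h1 := (hu01 k).1
    have h2 := (hu01 k).2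
    have e : 1 - b k ^ 2 = 4 * (u k * (1 - u k)) := by simp only [hu]; ring
    rw [e]
    rcases le_total (u k) (1 / 2) with h3 | h3
    · refine (min_le_left _ _).trans ?_
      nlinarith
    · refine (min_le_right _ _).trans ?_
      nlinarith
  obtain ⟨w, hw1, hw2⟩ := h N (Fin N) κ v hv hN' (by simp) hcard δ hδ0 hδ1 u hu01 hmin
  -- define a
  set a : Fin N → ℤˣ := fun k => if w k = 0 then 1 else -1 with ha
  have haw : ∀ k, ((a k : ℤ) : ℝ) = 1 - 2 * w k := by
    intro k
    rcases hw1 k with h0 | h1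
    · simp only [ha, h0, if_true]; norm_num
    · simp only [ha, h1]; norm_num
  refine ⟨a, ?_⟩
  set d : Fin N → ℂ := fun k => (((a k : ℤ) : ℂ)) - ((b k : ℝ) : ℂ) with hd
  have hdr : ∀ k, d k = ((-2 * (w k - u k) : ℝ) : ℂ) := by
    intro k
    have e1 : ((a k : ℤ) : ℂ) = (((a k : ℤ) : ℝ) : ℂ) := by push_cast; rfl
    simp only [hd]
    rw [e1, haw k]
    simp only [hu]
    push_cast
    ring
  intro z hz
  have hgoal : ‖pol d z‖ ≤ 2 * (4 * (K * (Real.sqrt N * Real.sqrt (Real.sqrt δ)))) := by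
    apply circle_of_grid hN' d _ _ z hz
    intro j hj
    have hjmem : j ∈ Finset.Icc (-(16 * (N : ℤ))) (16 * N) := by
      rw [Finset.mem_Icc]
      exact abs_le.mp hj
    set φ : ℝ := 2 * Real.pi * j / (32 * N) with hφ
    have hc := hw2 (⟨j, hjmem⟩, true)
    have hs := hw2 (⟨j, hjmem⟩, false)
    simp only [v, if_true] at hc
    simp only [v, Bool.false_eq_true, if_false] at hs
    have hpolre : pol d (Complex.exp (φ * Complex.I)) =
        ((-2 * ∑ k : Fin N, Real.cos ((k : ℕ) * φ) * (w k - u k) : ℝ) : ℂ) +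
        ((-2 * ∑ k : Fin N, Real.sin ((k : ℕ) * φ) * (w k - u k) : ℝ) : ℂ) * Complex.I := by
      simp only [pol]
      push_cast
      rw [Finset.mul_sum, Finset.mul_sum, Finset.sum_mul, ← Finset.sum_add_distrib]
      apply Finset.sum_congr rfl
      intro k _
      rw [hdr k, ← Complex.exp_nat_mul]
      have e2 : ((k : ℕ) : ℂ) * ((φ : ℂ) * Complex.I) = (((k : ℕ) * φ : ℝ) : ℂ) * Complex.I := by
        push_cast; ring
      rw [e2, Complex.exp_mul_I]
      push_cast
      ring
    rw [hpolre]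
    set Cc : ℝ := ∑ k : Fin N, Real.cos ((k : ℕ) * φ) * (w k - u k) with hCc
    set Sc : ℝ := ∑ k : Fin N, Real.sin ((k : ℕ) * φ) * (w k - u k) with hSc
    have n1 : ‖((-2 * Cc : ℝ) : ℂ)‖ = 2 * |Cc| := by
      rw [Complex.norm_real, Real.norm_eq_abs, abs_mul]; norm_num
    have n2 : ‖((-2 * Sc : ℝ) : ℂ) * Complex.I‖ = 2 * |Sc| := by
      rw [norm_mul, Complex.norm_I, mul_one, Complex.norm_real, Real.norm_eq_abs, abs_mul]
      norm_num
    calc ‖((-2 * Cc : ℝ) : ℂ) + ((-2 * Sc : ℝ) : ℂ) * Complex.I‖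
        ≤ ‖((-2 * Cc : ℝ) : ℂ)‖ + ‖((-2 * Sc : ℝ) : ℂ) * Complex.I‖ := norm_add_le _ _
      _ = 2 * |Cc| + 2 * |Sc| := by rw [n1, n2]
      _ ≤ 4 * (K * (Real.sqrt N * Real.sqrt (Real.sqrt δ))) := by linarith
  have : ‖∑ k : Fin N, ((((a k : ℤ) : ℂ)) - ((b k : ℝ) : ℂ)) * z ^ (k : ℕ)‖ = ‖pol d z‖ := rfl
  rw [this]
  calc ‖pol d z‖ ≤ 2 * (4 * (K * (Real.sqrt N * Real.sqrt (Real.sqrt δ)))) := hgoal
    _ ≤ 2 * (4 * (K * (Real.sqrt N * η))) := by gcongr
    _ = eps * Real.sqrt N := by rw [hη]; field_simp; norm_num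

end Crest.Agent.R075.Round
end

-- ▼ part R075/Pars
section

/-! Row 75: Parseval for polynomials on the circle (helper544). -/

set_option autoImplicit false

open MeasureTheory Set intervalIntegral

namespace Crest.Agent.R075

/-- Parseval: `∫ |∑ c_k e(kv)|^2 = ∑ c_k^2`. -/
theorem parseval_eq (N : ℕ) (c : Fin N → ℝ) :
    (∫ v in (-(1 / 2) : ℝ)..(1 / 2), ‖∑ k : Fin N, (c k : ℂ) * ee v ^ (k : ℕ)‖ ^ 2) = ∑ k, (c k) ^ 2 := by
  have e1 : ∀ v : ℝ, ((‖∑ k : Fin N, (c k : ℂ) * ee v ^ (k : ℕ)‖ ^ 2 : ℝ) : ℂ)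
      = ∑ k : Fin N, ∑ l : Fin N, ((c k : ℂ) * (c l : ℂ)) * ee ((((k : ℕ) : ℤ) - ((l : ℕ) : ℤ) : ℤ) * v) := by
    intro v
    rw [Complex.ofReal_pow, ← Complex.mul_conj', map_sum, Finset.sum_mul_sum]
    apply Finset.sum_congr rfl
    intro k _
    apply Finset.sum_congr rfl
    intro l _
    rw [map_mul, map_pow, Complex.conj_ofReal, ee_conj, ← ee_mul_nat, ← ee_mul_nat]
    have : ee ((((k : ℕ) : ℤ) - ((l : ℕ) : ℤ) : ℤ) * v) = ee ((k : ℕ) * v) * ee ((l : ℕ) * -v) := by
      rw [← ee_add]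
      congr 1
      push_cast
      ring
    rw [this]
    ring
  have e2 : (((∫ v in (-(1 / 2) : ℝ)..(1 / 2), ‖∑ k : Fin N, (c k : ℂ) * ee v ^ (k : ℕ)‖ ^ 2 : ℝ)) : ℂ)
      = ((∑ k, (c k) ^ 2 : ℝ) : ℂ) := by
    rw [← intervalIntegral.integral_ofReal]
    simp_rw [e1]
    rw [intervalIntegral.integral_finsetSum]
    swap
    · intro k _
      apply Continuous.intervalIntegrable
      apply continuous_finsetSum
      intro l _
      exact continuous_const.mul (ee_continuous.comp (continuous_const.mul continuous_id))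
    rw [Complex.ofReal_sum]
    simp only [Complex.ofReal_pow]
    apply Finset.sum_congr rfl
    intro k _
    rw [intervalIntegral.integral_finsetSum]
    swap
    · intro l _
      exact (continuous_const.mul (ee_continuous.comp (continuous_const.mul
        continuous_id))).intervalIntegrable _ _
    have e3 : ∀ l : Fin N, (∫ v in (-(1 / 2) : ℝ)..(1 / 2), ((c k : ℂ) * (c l : ℂ)) *
        ee ((((k : ℕ) : ℤ) - ((l : ℕ) : ℤ) : ℤ) * v)) = if l = k then (c k : ℂ) ^ 2 else 0 := by
      intro l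
      rw [intervalIntegral.integral_const_mul, Fou.int_ee]
      by_cases h : l = k
      · subst h; simp; ring
      · rw [if_neg h, if_neg, mul_zero]
        intro h2
        apply h
        apply Fin.ext
        omega
    simp_rw [e3]
    simp
  exact_mod_cast e2

theorem parseval_lower (N : ℕ) (c : Fin N → ℝ) (A : ℝ) (hA : 0 ≤ A)
    (h : ∀ z : ℂ, ‖z‖ = 1 → A ≤ ‖∑ k : Fin N, (c k : ℂ) * z ^ (k : ℕ)‖) : A ^ 2 ≤ ∑ k, (c k) ^ 2 := by
  rw [← parseval_eq]
  have hc : Continuous (fun v : ℝ => ‖∑ k : Fin N, (c k : ℂ) * ee v ^ (k : ℕ)‖ ^ 2) := by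
    apply Continuous.pow
    apply Continuous.norm
    apply continuous_finsetSum
    intro k _
    exact continuous_const.mul (ee_continuous.pow _)
  have h1 : (∫ _v in (-(1 / 2) : ℝ)..(1 / 2), A ^ 2) = A ^ 2 := by
    simp
    ring
  rw [← h1]
  apply intervalIntegral.integral_mono_on (by norm_num) (continuous_const.intervalIntegrable _ _)
    (hc.intervalIntegrable _ _)
  intro v _
  exact pow_le_pow_left₀ hA (h _ (norm_ee v)) 2


end Crest.Agent.R075
end

-- ▼ part R075/Final

/-!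
# Row 75: the final assembly, from the analysis theorem to S0100 (helper332)
-/

set_option autoImplicit false

namespace Crest.Agent.R075

open Finset

/-- conclusion of THM A -/
def AnalysisStmt : Prop :=
  ∀ (e e2 : ℝ), 0 < e → e < e2 → Tiling e → ∃ N0 : ℕ, ∀ N : ℕ, N0 ≤ N → ∃ c : Fin N → ℝ,
    (∀ k, |c k| ≤ 1 + e2) ∧ ∀ z : ℂ, ‖z‖ = 1 →
      (1 - e2) * Real.sqrt N ≤ ‖∑ k : Fin N, (c k : ℂ) * z ^ (k : ℕ)‖ ∧
      ‖∑ k : Fin N, (c k : ℂ) * z ^ (k : ℕ)‖ ≤ (1 + e2) * Real.sqrt N

theorem final_of_analysis (hA : AnalysisStmt) (ε : ℝ) (hε : 0 < ε) (hε₁ : ε < 1) :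
    ∃ N₀ : ℕ, ∀ N ≥ N₀, ∃ c : Fin N → ℤˣ, ∀ z : ℂ, ‖z‖ = 1 →
      (1 - ε) * Real.sqrt N ≤ ‖∑ k : Fin N, ((c k : ℤ) : ℂ) * z ^ (k : ℕ)‖ ∧
        ‖∑ k : Fin N, ((c k : ℤ) : ℂ) * z ^ (k : ℕ)‖ ≤ (1 + ε) * Real.sqrt N := by
  obtain ⟨delta, hd, N1, hround⟩ := Round.rounding (ε / 2) (by linarith)
  set e2 : ℝ := min (ε / 8) (delta / 4) with he2
  have h20 : 0 < e2 := by rw [he2]; positivity
  have h2a : e2 ≤ ε / 8 := min_le_left _ _
  have h2b : e2 ≤ delta / 4 := min_le_right _ _
  obtain ⟨Ti⟩ := tiling_exists (e2 / 2) (by linarith)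
  obtain ⟨N2, hN2⟩ := hA (e2 / 2) e2 (by linarith) (by linarith) Ti
  refine ⟨max N1 N2, fun N hN => ?_⟩
  obtain ⟨c, hc1, hc2⟩ := hN2 N (le_trans (le_max_right _ _) hN)
  have hs0 : 0 ≤ Real.sqrt N := Real.sqrt_nonneg _
  have hsq : Real.sqrt N ^ 2 = N := Real.sq_sqrt (Nat.cast_nonneg N)
  have h1e : 0 < 1 + e2 := by linarith
  have hx : 1 - 2 * e2 ≤ (1 - e2) / (1 + e2) := by
    rw [le_div_iff₀ h1e]; nlinarith
  have hx0 : 0 ≤ (1 - e2) / (1 + e2) := div_nonneg (by linarith) h1e.le
  have hx1 : (1 - e2) / (1 + e2) ≤ 1 := by rw [div_le_one h1e]; linarith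
  obtain ⟨a, ha⟩ := hround N (le_trans (le_max_left _ _) hN) (fun k => c k / (1 + e2))
    (by
      intro k
      rw [abs_div, abs_of_pos h1e, div_le_one h1e]
      exact hc1 k)
    (by
      have hp := parseval_lower N c ((1 - e2) * Real.sqrt N) (by
        apply mul_nonneg _ hs0; linarith) (fun z hz => (hc2 z hz).1)
      have h3 : ∑ k : Fin N, (1 - (c k / (1 + e2)) ^ 2) = N - (∑ k, (c k) ^ 2) / (1 + e2) ^ 2 := by
        rw [Finset.sum_sub_distrib, Finset.sum_div]
        simp only [div_pow, Finset.sum_const, Finset.card_univ, Fintype.card_fin, nsmul_eq_mul,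
          mul_one]
      rw [h3]
      have h4 : ((1 - e2) / (1 + e2)) ^ 2 * N ≤ (∑ k, (c k) ^ 2) / (1 + e2) ^ 2 := by
        rw [div_pow, div_mul_eq_mul_div]
        apply div_le_div_of_nonneg_right _ (by positivity)
        calc (1 - e2) ^ 2 * N = ((1 - e2) * Real.sqrt N) ^ 2 := by rw [mul_pow, hsq]
          _ ≤ _ := hp
      have h5 : 1 - delta ≤ ((1 - e2) / (1 + e2)) ^ 2 := by nlinarith
      have h6 : (1 - delta) * N ≤ ((1 - e2) / (1 + e2)) ^ 2 * N :=
        mul_le_mul_of_nonneg_right h5 (Nat.cast_nonneg N)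
      linarith)
  refine ⟨a, fun z hz => ?_⟩
  have hr := ha z hz
  obtain ⟨hl, hu⟩ := hc2 z hz
  have hb : ‖∑ k : Fin N, ((c k / (1 + e2) : ℝ) : ℂ) * z ^ (k : ℕ)‖
      = ‖∑ k : Fin N, (c k : ℂ) * z ^ (k : ℕ)‖ / (1 + e2) := by
    have : ∑ k : Fin N, ((c k / (1 + e2) : ℝ) : ℂ) * z ^ (k : ℕ)
        = (∑ k : Fin N, (c k : ℂ) * z ^ (k : ℕ)) / ((1 + e2 : ℝ) : ℂ) := by
      rw [Finset.sum_div]
      apply Finset.sum_congr rfl
      intro k _
      push_cast; ring
    rw [this, norm_div, Complex.norm_real, Real.norm_eq_abs, abs_of_pos h1e]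
  have hsplit : ∑ k : Fin N, ((((a k : ℤ) : ℂ)) - ((c k / (1 + e2) : ℝ) : ℂ)) * z ^ (k : ℕ)
      = ∑ k : Fin N, ((a k : ℤ) : ℂ) * z ^ (k : ℕ)
        - ∑ k : Fin N, ((c k / (1 + e2) : ℝ) : ℂ) * z ^ (k : ℕ) := by
    rw [← Finset.sum_sub_distrib]
    apply Finset.sum_congr rfl
    intro k _; ring
  rw [hsplit] at hr
  have h7 := abs_norm_sub_norm_le (∑ k : Fin N, ((a k : ℤ) : ℂ) * z ^ (k : ℕ))
    (∑ k : Fin N, ((c k / (1 + e2) : ℝ) : ℂ) * z ^ (k : ℕ))
  rw [hb] at h7
  have h8 := abs_le.mp (h7.trans hr)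
  have h9 : (1 - 2 * e2) * Real.sqrt N ≤ ‖∑ k : Fin N, (c k : ℂ) * z ^ (k : ℕ)‖ / (1 + e2) := by
    calc (1 - 2 * e2) * Real.sqrt N ≤ (1 - e2) / (1 + e2) * Real.sqrt N :=
          mul_le_mul_of_nonneg_right hx hs0
      _ = (1 - e2) * Real.sqrt N / (1 + e2) := by ring
      _ ≤ _ := div_le_div_of_nonneg_right hl h1e.le
  have h10 : ‖∑ k : Fin N, (c k : ℂ) * z ^ (k : ℕ)‖ / (1 + e2) ≤ Real.sqrt N := by
    rw [div_le_iff₀ h1e]; linarith
  constructor
  · nlinarith [h8.1]
  · nlinarith [h8.2]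

end Crest.Agent.R075
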